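import Mathlib

/-!
# Brouwer's fixed point theorem for compact convex sets in finite dimension

Proof after Milnor and Rogers: the volume of the image of the unit ball under `x ↦ x + t g x`,
where `x + g x` is a retraction onto the sphere, is a polynomial in `t`, constant for small `t`
and zero at `t = 1`.
-/

namespace Vale.Agent.P371.All

open Set Metric MeasureTheory Filter
open scoped Topology RealInnerProductSpace Matrix

section Ball

variable {E : Type*} [NormedAddCommGroup E] [InnerProductSpace ℝ E] [FiniteDimensional ℝ E]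

omit [FiniteDimensional ℝ E] in
/-- A map vanishing on the unit sphere and Lipschitz on the closed ball stays Lipschitz when it is
extended by zero. -/
theorem brouwer_extend_bound [Nontrivial E] {g : E → E} {C : ℝ} (hC : 0 ≤ C)
    (hg : ∀ x ∈ closedBall (0 : E) 1, ∀ y ∈ closedBall (0 : E) 1, ‖g x - g y‖ ≤ C * ‖x - y‖)
    (h0 : ∀ x, ‖x‖ = 1 → g x = 0) (x y : E) :
    ‖(if ‖x‖ ≤ 1 then g x else 0) - (if ‖y‖ ≤ 1 then g y else 0)‖ ≤ C * ‖x - y‖ := by
  have key : ∀ x y : E, ‖x‖ ≤ 1 → 1 < ‖y‖ → ‖g x‖ ≤ C * ‖x - y‖ := by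
    intro x y hx hy
    obtain ⟨z, hz, hd⟩ : ∃ z : E, ‖z‖ = 1 ∧ ‖x - z‖ ≤ 1 - ‖x‖ := by
      rcases eq_or_ne x 0 with rfl | hx0
      · obtain ⟨z, hz⟩ := exists_norm_eq E (zero_le_one (α := ℝ))
        exact ⟨z, hz, by simp [hz]⟩
      · have hp : 0 < ‖x‖ := norm_pos_iff.2 hx0
        refine ⟨‖x‖⁻¹ • x, by rw [norm_smul, norm_inv, norm_norm, inv_mul_cancel₀ hp.ne'],
          le_of_eq ?_⟩
        rw [show x - ‖x‖⁻¹ • x = (1 - ‖x‖⁻¹) • x by rw [sub_smul, one_smul], norm_smul,
          Real.norm_eq_abs, abs_of_nonpos (by linarith [(one_le_inv₀ hp).2 hx])]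
        field_simp
        ring
    calc ‖g x‖ = ‖g x - g z‖ := by rw [h0 z hz, sub_zero]
      _ ≤ C * ‖x - z‖ := hg x (by simpa using hx) z (by simp [hz])
      _ ≤ C * ‖x - y‖ := by
        refine mul_le_mul_of_nonneg_left (hd.trans ?_) hC
        have := norm_sub_norm_le y x
        rw [norm_sub_rev y x] at this
        linarith
  by_cases hx : ‖x‖ ≤ 1 <;> by_cases hy : ‖y‖ ≤ 1
  · simpa [hx, hy] using hg x (by simpa using hx) y (by simpa using hy)
  · simpa [hx, hy] using key x y hx (not_le.1 hy)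
  · simpa [hx, hy, norm_sub_rev x y] using key y x hy (not_le.1 hx)
  · simp [hx, hy, mul_nonneg hC (norm_nonneg _)]

/-- For small `t` the map `x ↦ x + t g x` is a bijection of the closed ball. -/
theorem brouwer_image_ball [Nontrivial E] {g : E → E} {C t : ℝ} (hC : 0 ≤ C) (ht0 : 0 ≤ t)
    (ht1 : t ≤ 1) (htC : t * C < 1)
    (hg : ∀ x ∈ closedBall (0 : E) 1, ∀ y ∈ closedBall (0 : E) 1, ‖g x - g y‖ ≤ C * ‖x - y‖)
    (h0 : ∀ x, ‖x‖ = 1 → g x = 0) (hmaps : ∀ x, ‖x‖ ≤ 1 → ‖x + g x‖ ≤ 1) :
    InjOn (fun x => x + t • g x) (closedBall 0 1) ∧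
      (fun x => x + t • g x) '' closedBall 0 1 = closedBall 0 1 := by
  refine ⟨fun x hx y hy h => ?_, ?_⟩
  · have e : x - y = t • (g y - g x) := by
      have h' : x + t • g x = y + t • g y := h
      rw [smul_sub]; linear_combination (norm := abel) h'
    have hn : ‖x - y‖ ≤ t * C * ‖x - y‖ := by
      calc ‖x - y‖ = t * ‖g y - g x‖ := by
              rw [e, norm_smul, Real.norm_eq_abs, abs_of_nonneg ht0]
        _ ≤ t * (C * ‖y - x‖) := mul_le_mul_of_nonneg_left (hg y hy x hx) ht0
        _ = t * C * ‖x - y‖ := by rw [norm_sub_rev y x]; ring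
    have : ‖x - y‖ = 0 := by nlinarith [norm_nonneg (x - y)]
    exact sub_eq_zero.1 (norm_eq_zero.1 this)
  · apply Subset.antisymm
    · rintro _ ⟨x, hx, rfl⟩
      have hx1 : ‖x‖ ≤ 1 := by simpa using hx
      have : x + t • g x = (1 - t) • x + t • (x + g x) := by module
      show x + t • g x ∈ closedBall (0 : E) 1
      rw [mem_closedBall_zero_iff, this]
      refine (norm_add_le _ _).trans ?_
      rw [norm_smul, norm_smul, Real.norm_eq_abs, Real.norm_eq_abs, abs_of_nonneg ht0,
        abs_of_nonneg (by linarith)]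
      nlinarith [hmaps x hx1]
    · intro y hy
      set k : E → E := fun x => if ‖x‖ ≤ 1 then g x else 0 with hk
      have hlip : LipschitzWith (t * C).toNNReal fun x => y - t • k x := by
        refine LipschitzWith.of_dist_le_mul fun a b => ?_
        rw [dist_eq_norm, dist_eq_norm, Real.coe_toNNReal _ (mul_nonneg ht0 hC)]
        rw [show y - t • k a - (y - t • k b) = t • (k b - k a) by module, norm_smul,
          Real.norm_eq_abs, abs_of_nonneg ht0, mul_assoc, norm_sub_rev a b]
        exact mul_le_mul_of_nonneg_left (brouwer_extend_bound hC hg h0 b a) ht0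
      have hc : ContractingWith (t * C).toNNReal fun x => y - t • k x :=
        ⟨by rw [← NNReal.coe_lt_coe, Real.coe_toNNReal _ (mul_nonneg ht0 hC)]; simpa using htC,
          hlip⟩
      obtain ⟨x, hx⟩ : ∃ x, y - t • k x = x := ⟨_, hc.fixedPoint_isFixedPt⟩
      by_cases hx1 : ‖x‖ ≤ 1
      · refine ⟨x, by simpa using hx1, ?_⟩
        have : k x = g x := if_pos hx1
        rw [this] at hx
        show x + t • g x = y
        linear_combination (norm := abel) -hx
      · have : k x = 0 := if_neg hx1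
        rw [this, smul_zero, sub_zero] at hx
        subst hx
        exact absurd (by simpa using hy) hx1

/-- There is no retraction of the ball onto the sphere which is differentiable near the ball. -/
theorem brouwer_no_retraction [Nontrivial E] {U : Set E} (hU : IsOpen U)
    (hBU : closedBall (0 : E) 1 ⊆ U) {r : E → E} (hr : ContDiffOn ℝ 1 r U)
    (hnorm : ∀ x ∈ U, ‖r x‖ = 1) (hfix : ∀ x, ‖x‖ = 1 → r x = x) : False := by
  let : MeasurableSpace E := borel E
  have : BorelSpace E := ⟨rfl⟩
  set μ : Measure E := (Module.finBasis ℝ E).addHaar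
  set B : Set E := closedBall (0 : E) 1 with hB
  have hBc : IsCompact B := isCompact_closedBall _ _
  set A : E → E →L[ℝ] E := fun x => fderiv ℝ r x - ContinuousLinearMap.id ℝ E with hA
  have hrd : ∀ x ∈ U, HasFDerivAt r (fderiv ℝ r x) x := fun x hx =>
    ((hr.differentiableOn one_ne_zero).differentiableAt (hU.mem_nhds hx)).hasFDerivAt
  have hgd : ∀ x ∈ U, HasFDerivAt (fun y => r y - y) (A x) x := fun x hx =>
    (hrd x hx).sub (hasFDerivAt_id x)
  have hAc : ContinuousOn A B :=
    ((hr.continuousOn_fderiv_of_isOpen hU le_rfl).mono hBU).sub continuousOn_const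
  obtain ⟨C₀, hC₀⟩ := hBc.exists_bound_of_continuousOn hAc
  set C : ℝ := max C₀ 0 + 1 with hCdef
  have hC : 0 < C := by positivity
  have hlip : ∀ x ∈ B, ∀ y ∈ B, ‖(r x - x) - (r y - y)‖ ≤ C * ‖x - y‖ := fun x hx y hy =>
    (convex_closedBall (0 : E) 1).norm_image_sub_le_of_norm_hasFDerivWithin_le
      (fun z hz => (hgd z (hBU hz)).hasFDerivWithinAt)
      (fun z hz => (hC₀ z hz).trans (by linarith [le_max_left C₀ 0])) hy hx
  -- the determinant
  set d : ℝ → E → ℝ := fun t x => (ContinuousLinearMap.id ℝ E + t • A x).det with hd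
  have hdc : ∀ t, ContinuousOn (d t) B := fun t =>
    ContinuousLinearMap.continuous_det.comp_continuousOn
      (continuousOn_const.add (hAc.const_smul t))
  let b := Module.finBasis ℝ E
  set n := Module.finrank ℝ E
  set M : E → Matrix (Fin n) (Fin n) ℝ := fun x => LinearMap.toMatrix b b (A x).toLinearMap with hM
  have hdM : ∀ t x, d t x = (1 + t • M x).det := by
    intro t x
    rw [hd, hM]
    simp only [ContinuousLinearMap.det]
    rw [← LinearMap.det_toMatrix b]
    congr 1
    simp [map_add, map_smul]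
  -- the volume is a polynomial
  let v : Fin (n + 1) → ℝ := fun j => (j : ℕ)
  have hv : InjOn v (Finset.univ : Finset (Fin (n + 1))) := fun i _ j _ h =>
    Fin.val_injective (by simpa [v] using h)
  have hpoly : ∀ t x, d t x =
      ∑ j, d (v j) x * (Lagrange.basis Finset.univ v j).eval t := by
    intro t x
    set p : Polynomial ℝ :=
      ((Polynomial.X : Polynomial ℝ) • (M x).map Polynomial.C + (1 : Matrix (Fin n) (Fin n) ℝ).map
        Polynomial.C).det with hp
    have hev : ∀ s, p.eval s = d s x := by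
      intro s
      rw [hdM, hp, ← Polynomial.coe_evalRingHom, RingHom.map_det]
      congr 1
      ext i j
      by_cases hij : i = j <;> simp [hij] <;> ring
    have hdeg : p.degree < (Finset.univ : Finset (Fin (n + 1))).card := by
      refine lt_of_le_of_lt Polynomial.degree_le_natDegree ?_
      have h := Polynomial.natDegree_det_X_add_C_le (M x) 1
      rw [Fintype.card_fin] at h
      rw [Finset.card_univ, Fintype.card_fin]
      exact_mod_cast Nat.lt_succ_of_le h
    rw [← hev, Lagrange.eq_interpolate hv hdeg, Lagrange.interpolate_apply,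
      Polynomial.eval_finsetSum]
    simp [hev]
  set P : ℝ → ℝ := fun t => ∫ x in B, d t x ∂μ with hP
  set Q : Polynomial ℝ :=
    ∑ j, Polynomial.C (P (v j)) * Lagrange.basis Finset.univ v j with hQ
  have hPQ : ∀ t, P t = Q.eval t := by
    intro t
    rw [hQ, Polynomial.eval_finsetSum]
    simp only [Polynomial.eval_mul, Polynomial.eval_C, hP]
    rw [setIntegral_congr_fun measurableSet_closedBall (fun x _ => hpoly t x),
      integral_finsetSum]
    · simp [integral_mul_const, hB]
    · exact fun j _ => ((hdc (v j)).integrableOn_compact hBc).mul_const _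
  -- constant for small `t`
  have hsmall : ∀ t ∈ Ioo (0 : ℝ) (1 / (C + 1)), Q.eval t = μ.real B := by
    intro t ht
    have htC : t * C < 1 := by
      have := (lt_div_iff₀ (by linarith)).1 ht.2
      nlinarith [ht.1]
    have ht1 : t ≤ 1 := ht.2.le.trans (by rw [div_le_one (by linarith)]; linarith)
    obtain ⟨hinj, himg⟩ := brouwer_image_ball (g := fun x => r x - x) hC.le ht.1.le ht1 htC hlip
      (fun x hx => by simp [hfix x hx])
      (fun x hx => by simpa using (hnorm x (hBU (by simpa [hB] using hx))).le)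
    have hpos : ∀ x ∈ B, 0 ≤ d t x := by
      intro x hx
      by_contra hneg
      have hcont : ContinuousOn (fun s => d s x) (Icc 0 t) :=
        (ContinuousLinearMap.continuous_det.comp
          (continuous_const.add (continuous_id.smul continuous_const))).continuousOn
      have h0 : d 0 x = 1 := by rw [hdM]; simp
      obtain ⟨s, hs, hs0⟩ := intermediate_value_Icc' ht.1.le hcont
        (show (0 : ℝ) ∈ Icc (d t x) (d 0 x) from ⟨(not_le.1 hneg).le, by simp [h0]⟩)
      have hker : LinearMap.ker (ContinuousLinearMap.id ℝ E + s • A x).toLinearMap = ⊥ := by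
        rw [LinearMap.ker_eq_bot']
        intro w hw
        have e : ‖w‖ ≤ s * C * ‖w‖ := by
          have h1 : w = -(s • A x w) := by
            rw [eq_neg_iff_add_eq_zero]; simpa using hw
          calc ‖w‖ = s * ‖A x w‖ := by
                  conv_lhs => rw [h1]
                  rw [norm_neg, norm_smul, Real.norm_eq_abs, abs_of_nonneg hs.1]
            _ ≤ s * (C * ‖w‖) := by
                  refine mul_le_mul_of_nonneg_left (((A x).le_opNorm w).trans ?_) hs.1
                  gcongr
                  exact (hC₀ x hx).trans (by linarith [le_max_left C₀ 0])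
            _ = s * C * ‖w‖ := by ring
        have hsC : s * C < 1 := lt_of_le_of_lt (mul_le_mul_of_nonneg_right hs.2 hC.le) htC
        exact norm_eq_zero.1 (by nlinarith [norm_nonneg w])
      have := LinearMap.det_eq_zero_iff_ker_ne_bot.1
        (show LinearMap.det (ContinuousLinearMap.id ℝ E + s • A x).toLinearMap = 0 from hs0)
      exact this hker
    have hder : ∀ x ∈ B, HasFDerivWithinAt (fun y => y + t • (r y - y))
        (ContinuousLinearMap.id ℝ E + t • A x) B x := fun x hx =>
      ((hasFDerivAt_id x).add ((hgd x (hBU hx)).const_smul t)).hasFDerivWithinAt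
    have hint := integral_image_eq_integral_abs_det_fderiv_smul μ measurableSet_closedBall hder
      hinj (fun _ => (1 : ℝ))
    rw [himg, setIntegral_const, smul_eq_mul, mul_one] at hint
    rw [← hPQ, hint]
    refine setIntegral_congr_fun measurableSet_closedBall fun x hx => ?_
    show d t x = _
    simp [hd]
    exact (abs_of_nonneg (hpos x hx)).symm
  have hQc : Q = Polynomial.C (μ.real B) := by
    refine Polynomial.eq_of_infinite_eval_eq _ _ ((Ioo_infinite
      (show (0 : ℝ) < 1 / (C + 1) by positivity)).mono (fun t ht => ?_) : {t | Q.eval t = (Polynomial.C (μ.real B)).eval t}.Infinite)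
    simpa using hsmall t ht
  -- zero at `t = 1`
  have h1 : P 1 = 0 := by
    refine setIntegral_eq_zero_of_forall_eq_zero fun x hx => ?_
    have hdr : ContinuousLinearMap.id ℝ E + (1 : ℝ) • A x = fderiv ℝ r x := by
      simp [hA]
    show (ContinuousLinearMap.id ℝ E + (1 : ℝ) • A x).det = 0
    rw [hdr]
    have horth : ∀ w, ⟪r x, fderiv ℝ r x w⟫ = 0 := by
      intro w
      have hxU := hBU hx
      have hs : HasFDerivAt (fun y => ⟪r y, r y⟫) _ x := (hrd x hxU).inner ℝ (hrd x hxU)
      have heq : (fun y => ⟪r y, r y⟫) =ᶠ[𝓝 x] fun _ => (1 : ℝ) := by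
        filter_upwards [hU.mem_nhds hxU] with y hy
        rw [real_inner_self_eq_norm_sq, hnorm y hy, one_pow]
      have hz := (hs.congr_of_eventuallyEq heq.symm).unique (hasFDerivAt_const (1 : ℝ) x)
      have := congrArg (fun L => L w) hz
      simp only [ContinuousLinearMap.coe_comp, Function.comp_apply, ContinuousLinearMap.prod_apply,
        fderivInnerCLM_apply, zero_apply] at this
      rw [real_inner_comm (r x) (fderiv ℝ r x w)] at this
      linarith
    by_contra hne
    have hsurj : Function.Surjective (fderiv ℝ r x).toLinearMap :=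
      LinearMap.injective_iff_surjective.1 (LinearMap.ker_eq_bot.1 (by
        by_contra hk
        exact hne (LinearMap.det_eq_zero_iff_ker_ne_bot.2 hk)))
    obtain ⟨w, hw⟩ := hsurj (r x)
    have := horth w
    rw [show fderiv ℝ r x w = r x from hw, real_inner_self_eq_norm_sq, hnorm x (hBU hx)] at this
    norm_num at this
  rw [hPQ, hQc, Polynomial.eval_C] at h1
  have : 0 < μ.real B :=
    ENNReal.toReal_pos (measure_closedBall_pos μ 0 one_pos).ne' measure_closedBall_lt_top.ne
  linarith

/-- A differentiable map of the ball into itself has a fixed point. -/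
theorem brouwer_smooth [Nontrivial E] {f : E → E} (hf : ContDiff ℝ 1 f)
    (hmaps : ∀ x, ‖x‖ ≤ 1 → ‖f x‖ ≤ 1) : ∃ x, ‖x‖ ≤ 1 ∧ f x = x := by
  by_contra hno
  push Not at hno
  set u : E → E := fun x => x - f x with hu
  set Δ : E → ℝ := fun x => ⟪x, u x⟫ ^ 2 + ⟪u x, u x⟫ * (1 - ⟪x, x⟫) with hΔ
  have huc : ContDiff ℝ 1 u := contDiff_id.sub hf
  have hΔc : ContDiff ℝ 1 Δ :=
    ((contDiff_id.inner ℝ huc).pow 2).add
      ((huc.inner ℝ huc).mul (contDiff_const.sub (contDiff_id.inner ℝ contDiff_id)))
  set U : Set E := {x | 0 < Δ x ∧ u x ≠ 0}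
  have hU : IsOpen U :=
    (isOpen_lt continuous_const hΔc.continuous).inter (isOpen_ne_fun huc.continuous continuous_const)
  have hboundary : ∀ x : E, ‖x‖ = 1 → 0 < ⟪x, u x⟫ := by
    intro x hx
    have hfx := hmaps x hx.le
    have hne := hno x hx.le
    have hs : 0 < ‖x - f x‖ := norm_pos_iff.2 (sub_ne_zero.2 (Ne.symm hne))
    have e := norm_sub_sq_real x (f x)
    show 0 < ⟪x, x - f x⟫
    rw [inner_sub_right, real_inner_self_eq_norm_sq]
    nlinarith [norm_nonneg (f x)]
  have hBU : closedBall (0 : E) 1 ⊆ U := by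
    intro x hx
    rw [mem_closedBall_zero_iff] at hx
    have hne : u x ≠ 0 := sub_ne_zero.2 (Ne.symm (hno x hx))
    refine ⟨?_, hne⟩
    have h2 : 0 < ⟪u x, u x⟫ := real_inner_self_pos.2 hne
    show 0 < ⟪x, u x⟫ ^ 2 + ⟪u x, u x⟫ * (1 - ⟪x, x⟫)
    rcases hx.lt_or_eq with h | h
    · have : ⟪x, x⟫ < 1 := by rw [real_inner_self_eq_norm_sq]; nlinarith [norm_nonneg x]
      nlinarith [sq_nonneg ⟪x, u x⟫]
    · have := hboundary x h
      rw [real_inner_self_eq_norm_sq x, h]
      nlinarith
  set r : E → E := fun x => x + ((-⟪x, u x⟫ + Real.sqrt (Δ x)) / ⟪u x, u x⟫) • u x with hr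
  have hrc : ContDiffOn ℝ 1 r U := by
    intro x hx
    refine ContDiffAt.contDiffWithinAt (contDiffAt_id.add (ContDiffAt.smul ?_ huc.contDiffAt))
    refine ContDiffAt.div ?_ (huc.inner ℝ huc).contDiffAt (real_inner_self_pos.2 hx.2).ne'
    exact (contDiff_id.inner ℝ huc).neg.contDiffAt.add (hΔc.contDiffAt.sqrt hx.1.ne')
  refine brouwer_no_retraction hU hBU hrc (fun x hx => ?_) (fun x hx => ?_)
  · have hq : 0 < ⟪u x, u x⟫ := real_inner_self_pos.2 hx.2
    have hsq : Real.sqrt (Δ x) ^ 2 = ⟪x, u x⟫ ^ 2 + ⟪u x, u x⟫ * (1 - ⟪x, x⟫) :=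
      Real.sq_sqrt hx.1.le
    have : ‖r x‖ ^ 2 = 1 := by
      rw [← real_inner_self_eq_norm_sq, hr]
      simp only [inner_add_left, inner_add_right, real_inner_smul_left, real_inner_smul_right,
        real_inner_comm x (u x)]
      field_simp
      linear_combination hsq
    exact (pow_eq_one_iff_of_nonneg (norm_nonneg _) two_ne_zero).1 this
  · have hp := hboundary x hx
    have : Δ x = ⟪x, u x⟫ ^ 2 := by
      rw [hΔ]; simp [hx]
    rw [hr]
    simp [this, Real.sqrt_sq hp.le]

/-- A continuous map of the space into the ball has a fixed point. -/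
theorem brouwer_continuous [Nontrivial E] {f : E → E} (hf : Continuous f)
    (hmaps : ∀ x, ‖f x‖ ≤ 1) : ∃ x, ‖x‖ ≤ 1 ∧ f x = x := by
  obtain ⟨x₀, hx₀, hmin⟩ := (isCompact_closedBall (0 : E) 1).exists_isMinOn
    ⟨0, by simp⟩ ((hf.sub continuous_id).norm.continuousOn)
  rw [mem_closedBall_zero_iff] at hx₀
  by_contra hno
  push Not at hno
  set c := ‖f x₀ - x₀‖
  have hc : 0 < c := norm_pos_iff.2 (sub_ne_zero.2 (hno x₀ hx₀))
  obtain ⟨g, hg, happ, -⟩ := hf.exists_contDiff_approx 1 continuous_const
    (fun _ => show (0 : ℝ) < c / 4 by linarith)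
  have hpos : 0 < 1 + c / 4 := by linarith
  have hgb : ∀ x, ‖g x‖ ≤ 1 + c / 4 := fun x => by
    have := happ x
    rw [dist_eq_norm] at this
    linarith [norm_le_norm_add_norm_sub' (g x) (f x), hmaps x]
  obtain ⟨x, hx, hfix⟩ := brouwer_smooth (f := fun x => (1 + c / 4)⁻¹ • g x)
    (hg.const_smul _) (fun x _ => by
      rw [norm_smul, Real.norm_eq_abs, abs_of_pos (by positivity), inv_mul_le_iff₀ hpos, mul_one]
      exact hgb x)
  have hgx : g x = (1 + c / 4) • x := by
    have := congrArg (fun y => (1 + c / 4) • y) hfix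
    simpa [smul_smul, hpos.ne'] using this
  have h1 : c ≤ ‖f x - x‖ := isMinOn_iff.1 hmin x (by simpa using hx)
  have h2 := happ x
  rw [dist_eq_norm] at h2
  have h3 : ‖f x - x‖ ≤ ‖f x - g x‖ + ‖g x - x‖ := norm_sub_le_norm_sub_add_norm_sub _ _ _
  have h4 : ‖g x - x‖ ≤ c / 4 := by
    rw [hgx, show (1 + c / 4) • x - x = (c / 4) • x by rw [add_smul, one_smul]; abel, norm_smul,
      Real.norm_eq_abs, abs_of_pos (by linarith)]
    exact mul_le_of_le_one_right (by linarith) hx
  rw [norm_sub_rev (g x) (f x)] at h2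
  linarith

/-- Brouwer's theorem for compact convex sets of a Euclidean space. -/
theorem brouwer_euclidean {K : Set E} (hK : IsCompact K) (hconv : Convex ℝ K) (hne : K.Nonempty)
    {f : E → E} (hf : ContinuousOn f K) (hmaps : MapsTo f K K) : ∃ x ∈ K, f x = x := by
  rcases subsingleton_or_nontrivial E with hE | hE
  · obtain ⟨x, hx⟩ := hne
    exact ⟨x, hx, Subsingleton.elim _ _⟩
  choose p hp hmin using exists_norm_eq_iInf_of_complete_convex hne hK.isComplete hconv
  have hvar : ∀ z, ∀ w ∈ K, ⟪z - p z, w - p z⟫ ≤ 0 := fun z =>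
    (norm_eq_iInf_iff_real_inner_le_zero hconv (hp z)).1 (hmin z)
  have hpl : LipschitzWith 1 p := by
    refine LipschitzWith.of_dist_le_mul fun a b => ?_
    rw [NNReal.coe_one, one_mul, dist_eq_norm, dist_eq_norm]
    have h1 := hvar a (p b) (hp b)
    have h2 := hvar b (p a) (hp a)
    have h3 : ‖p a - p b‖ ^ 2 ≤ ⟪a - b, p a - p b⟫ := by
      rw [← real_inner_self_eq_norm_sq]
      simp only [inner_sub_left, inner_sub_right] at h1 h2 ⊢
      linarith
    have h4 := real_inner_le_norm (a - b) (p a - p b)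
    nlinarith [norm_nonneg (p a - p b), norm_nonneg (a - b)]
  have hpfix : ∀ z ∈ K, p z = z := fun z hz => by
    have h : ⟪z - p z, z - p z⟫ = (0 : ℝ) := le_antisymm (hvar z z hz) real_inner_self_nonneg
    exact (sub_eq_zero.1 (inner_self_eq_zero.1 h)).symm
  obtain ⟨R₀, hR⟩ := hK.isBounded.exists_norm_le
  set R : ℝ := max R₀ 0 + 1
  have hR0 : 0 < R := by positivity
  have hFc : Continuous fun z => R⁻¹ • f (p (R • z)) :=
    ((hf.comp_continuous (hpl.continuous.comp (continuous_const_smul R))
      (fun z => hp _)).const_smul R⁻¹)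
  obtain ⟨z, -, hz⟩ := brouwer_continuous hFc fun z => by
    rw [norm_smul, Real.norm_eq_abs, abs_of_pos (inv_pos.2 hR0), inv_mul_le_iff₀ hR0, mul_one]
    exact (hR _ (hmaps (hp _))).trans (by linarith [le_max_left R₀ 0])
  refine ⟨p (R • z), hp _, ?_⟩
  have e : f (p (R • z)) = R • z := by
    have := congrArg (fun y => R • y) hz
    simpa [smul_smul, hR0.ne'] using this
  rw [e, hpfix _ (e ▸ hmaps (hp _))]

end Ball

/-- Brouwer's fixed point theorem. -/
theorem exists_fixedPoint {E : Type} [NormedAddCommGroup E] [NormedSpace ℝ E]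
    [FiniteDimensional ℝ E] {K : Set E} (hK : IsCompact K) (hconv : Convex ℝ K)
    (hne : K.Nonempty) {f : E → E} (hf : ContinuousOn f K) (hmaps : MapsTo f K K) :
    ∃ x ∈ K, f x = x := by
  let L : E ≃L[ℝ] EuclideanSpace ℝ (Fin (Module.finrank ℝ E)) := toEuclidean
  obtain ⟨y, ⟨x, hx, rfl⟩, hy⟩ := brouwer_euclidean (K := L '' K) (f := fun y => L (f (L.symm y)))
    (hK.image L.continuous) (hconv.linear_image L.toLinearEquiv.toLinearMap) (hne.image L)
    (L.continuous.comp_continuousOn (hf.comp L.symm.continuous.continuousOn (by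
      rintro _ ⟨x, hx, rfl⟩; simpa using hx)))
    (by rintro _ ⟨x, hx, rfl⟩; exact ⟨f x, hmaps hx, by simp⟩)
  exact ⟨x, hx, L.injective (by simpa using hy)⟩

end Vale.Agent.P371.All
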