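import Vale.Agent.P371.All.Defs

/-!
# P371: the one-bound-state constant and its optimiser
-/

namespace Vale.Agent.P371.All

open Matrix MeasureTheory Set Filter
open scoped ComplexOrder ComplexConjugate Topology

variable {N m : ℕ}

theorem trPowAt_diagonal {r : ℝ} (d : Fin N → ℝ) :
    trPowAt r (diagonal fun i => (d i : ℂ)) = ∑ i, d i ^ r := by
  have hH : (diagonal fun a => (d a : ℂ)).IsHermitian := by
    ext i j
    by_cases h : i = j
    · subst h; simp
    · simp [h, Ne.symm h]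
  rw [trPowAt, dif_pos hH]
  have h := hH.roots_charpoly_eq_eigenvalues
  have h2 : (diagonal fun a => (d a : ℂ)).charpoly.roots
      = Finset.univ.val.map fun a => (d a : ℂ) := by
    rw [charpoly_diagonal, Finset.prod_eq_multiset_prod,
      show (Finset.univ.val.map fun a => Polynomial.X - Polynomial.C (d a : ℂ)) =
        ((Finset.univ.val.map fun a => (d a : ℂ)).map fun z => Polynomial.X - Polynomial.C z) from by
          rw [Multiset.map_map]; rfl, Polynomial.roots_multiset_prod_X_sub_C]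
  rw [h2] at h
  have h3 := congrArg (fun s : Multiset ℂ => (s.map fun z => z.re ^ r).sum) h
  simp only [Multiset.map_map, Function.comp_def] at h3
  simpa [Finset.sum_eq_multiset_sum] using h3.symm

theorem halfI_pos {ν : ℝ} (h0 : 0 < ν) : 0 < halfI ν := by
  refine intervalIntegral.intervalIntegral_pos_of_pos_on ?_ (fun u hu => ?_) zero_lt_one
  · exact ((continuous_const.sub (continuous_id.pow 2)).rpow_const
      fun _ => Or.inr h0.le).intervalIntegrable _ _
  · exact Real.rpow_pos_of_pos (by nlinarith [hu.1, hu.2]) _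

lemma symm_halfI {ν : ℝ} (h0 : 0 < ν) :
    ∫ u in (-1 : ℝ)..1, (1 - u ^ 2) ^ ν = 2 * halfI ν := by
  have hi : ∀ a b : ℝ, IntervalIntegrable (fun u : ℝ => (1 - u ^ 2) ^ ν) volume a b := fun a b =>
    ((continuous_const.sub (continuous_id.pow 2)).rpow_const
      fun _ => Or.inr h0.le).intervalIntegrable _ _
  rw [← intervalIntegral.integral_add_adjacent_intervals (hi (-1) 0) (hi 0 1), two_mul, halfI]
  congr 1
  have := intervalIntegral.integral_comp_neg (fun u : ℝ => (1 - u ^ 2) ^ ν) (a := (-1 : ℝ)) (b := 0)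
  simpa [neg_sq] using this

lemma halfI_eq {ν : ℝ} (h0 : 0 < ν) :
    halfI ν = Real.sqrt Real.pi * Real.Gamma (ν + 1) / (2 * Real.Gamma (ν + 3 / 2)) := by
  have hb : ∫ x in (0 : ℝ)..1, x ^ ν * (1 - x) ^ ν
      = Real.Gamma (ν + 1) * Real.Gamma (ν + 1) / Real.Gamma (ν + 1 + (ν + 1)) := by
    have h1 : (0 : ℝ) < ν + 1 := by linarith
    have h := ProbabilityTheory.beta_eq_betaIntegralReal (ν + 1) (ν + 1) h1 h1
    rw [ProbabilityTheory.beta] at h
    rw [h, Complex.betaIntegral, intervalIntegral.integral_of_le zero_le_one,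
      intervalIntegral.integral_of_le zero_le_one, ← RCLike.re_to_complex, ← integral_re]
    · refine setIntegral_congr_fun measurableSet_Ioc fun x ⟨hx1, hx2⟩ => ?_
      norm_cast
      rw [← Complex.ofReal_cpow, ← Complex.ofReal_cpow, RCLike.re_to_complex,
        Complex.re_mul_ofReal, Complex.ofReal_re]
      · norm_num
      all_goals linarith
    · have hc := Complex.betaIntegral_convergent (u := ((ν + 1 : ℝ) : ℂ)) (v := ((ν + 1 : ℝ) : ℂ))
        (by simp; linarith) (by simp; linarith)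
      rwa [intervalIntegrable_iff_integrableOn_Ioc_of_le zero_le_one] at hc
  have hsub : ∫ u in (-1 : ℝ)..1, (1 - u ^ 2) ^ ν
      = 2 * (4 : ℝ) ^ ν * ∫ x in (0 : ℝ)..1, x ^ ν * (1 - x) ^ ν := by
    have h := intervalIntegral.mul_integral_comp_mul_add (a := (0 : ℝ)) (b := 1)
      (f := fun u : ℝ => (1 - u ^ 2) ^ ν) 2 (-1)
    norm_num at h
    rw [← h, mul_assoc, ← intervalIntegral.integral_const_mul ((4 : ℝ) ^ ν)]
    congr 1
    refine intervalIntegral.integral_congr fun x hx => ?_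
    rw [uIcc_of_le zero_le_one] at hx
    rw [← mul_assoc, ← Real.mul_rpow (by norm_num) hx.1,
      ← Real.mul_rpow (by linarith [hx.1]) (by linarith [hx.2])]
    ring_nf
  have hd := Real.Gamma_mul_Gamma_add_half (ν + 1)
  rw [show ν + 1 + 1 / 2 = ν + 3 / 2 by ring] at hd
  have g1 : 0 < Real.Gamma (ν + 1) := Real.Gamma_pos_of_pos (by linarith)
  have g2 : 0 < Real.Gamma (ν + 3 / 2) := Real.Gamma_pos_of_pos (by linarith)
  have g3 : 0 < Real.Gamma (ν + 1 + (ν + 1)) := Real.Gamma_pos_of_pos (by linarith)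
  have e4 : (2 : ℝ) ^ (1 - 2 * (ν + 1)) = 1 / (2 * (4 : ℝ) ^ ν) := by
    rw [show 1 - 2 * (ν + 1) = -(1 + 2 * ν) by ring, Real.rpow_neg zero_le_two,
      Real.rpow_add two_pos, Real.rpow_one, Real.rpow_mul zero_le_two]
    norm_num
  rw [show 2 * (ν + 1) = ν + 1 + (ν + 1) by ring] at hd
  rw [show 1 - (ν + 1 + (ν + 1)) = 1 - 2 * (ν + 1) by ring, e4] at hd
  have hh := symm_halfI h0
  rw [hsub, hb] at hh
  have h4 : (0 : ℝ) < 4 ^ ν := by positivity
  field_simp at hd hh ⊢
  grind

theorem dissConst_div_halfI {ν : ℝ} (h0 : 0 < ν) :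
    dissConst ν / (2 * halfI ν) = kellerConst (ν + 1 / 2) := by
  have g1 : 0 < Real.Gamma (ν + 1) := Real.Gamma_pos_of_pos (by linarith)
  have g2 : 0 < Real.Gamma (ν + 3 / 2) := Real.Gamma_pos_of_pos (by linarith)
  have hs : 0 < Real.sqrt Real.pi := Real.sqrt_pos.2 Real.pi_pos
  have hg : Real.Gamma (ν + 2) = (ν + 1) * Real.Gamma (ν + 1) := by
    rw [show ν + 2 = ν + 1 + 1 by ring, Real.Gamma_add_one (by linarith)]
  have hr : (ν / (1 + ν)) ^ (1 + ν) = ν / (1 + ν) * (ν / (1 + ν)) ^ ν := by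
    rw [Real.rpow_add (by positivity), Real.rpow_one]
  rw [halfI_eq h0, dissConst, kellerConst, ltClassical, hr,
    show ν + 1 / 2 - 1 / 2 = ν by ring, show ν + 1 / 2 + 1 / 2 = 1 + ν by ring,
    show ν + 1 / 2 + 1 = ν + 3 / 2 by ring, show ν + 1 / 2 + 3 / 2 = ν + 2 by ring, hg]
  have : 0 < ν + 1 := by linarith
  have : 0 < 1 + ν := by linarith
  field_simp
  ring

lemma hasDerivAt_tanh' (x : ℝ) :
    HasDerivAt (fun y => Real.sinh y / Real.cosh y) (Real.cosh x ^ (-(2 : ℝ))) x := by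
  have hc := Real.cosh_pos x
  refine ((Real.hasDerivAt_sinh x).div (Real.hasDerivAt_cosh x) hc.ne').congr_deriv ?_
  rw [Real.rpow_neg hc.le, Real.rpow_two]
  have := Real.cosh_sq_sub_sinh_sq x
  field_simp
  linarith

lemma integrable_cosh_rpow {a : ℝ} (ha : 0 < a) :
    Integrable (fun x : ℝ => Real.cosh x ^ (-a)) volume := by
  have hc : Continuous fun x : ℝ => Real.cosh x ^ (-a) :=
    Real.continuous_cosh.rpow_const fun x => Or.inl (Real.cosh_pos x).ne'
  have hb : ∀ x : ℝ, 0 ≤ x → Real.cosh x ^ (-a) ≤ (2 : ℝ) ^ a * Real.exp (-a * x) := by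
    intro x hx
    have hh : Real.exp x / 2 ≤ Real.cosh x := by
      rw [Real.cosh_eq]; linarith [Real.exp_pos (-x)]
    refine (Real.rpow_le_rpow_of_nonpos (by positivity) hh (by linarith)).trans_eq ?_
    rw [Real.div_rpow (Real.exp_pos x).le zero_le_two, Real.rpow_neg zero_le_two,
      ← Real.exp_mul, show x * -a = -a * x by ring]
    field_simp
  have hI : IntegrableOn (fun x : ℝ => Real.cosh x ^ (-a)) (Ioi 0) := by
    refine ((exp_neg_integrableOn_Ioi 0 ha).const_mul ((2 : ℝ) ^ a)).mono'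
      hc.aestronglyMeasurable ?_
    filter_upwards [self_mem_ae_restrict measurableSet_Ioi] with x hx
    rw [Real.norm_of_nonneg (Real.rpow_nonneg (Real.cosh_pos x).le _)]
    exact hb x (le_of_lt hx)
  have hI' : IntegrableOn (fun x : ℝ => Real.cosh x ^ (-a)) (Iic 0) := by
    rw [integrableOn_Iic_iff_integrableOn_Iio]
    have := hI.comp_neg
    simpa [Real.cosh_neg] using this
  rw [← integrableOn_univ, ← Iic_union_Ioi (a := (0 : ℝ))]
  exact hI'.union hI

lemma integral_cosh_rpow {ν : ℝ} (h0 : 0 < ν) :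
    ∫ x, Real.cosh x ^ (-(2 * (ν + 1))) = 2 * halfI ν := by
  set g : ℝ → ℝ := fun u => (1 - u ^ 2) ^ ν with hg
  have hgc : Continuous g :=
    (continuous_const.sub (continuous_id.pow 2)).rpow_const fun _ => Or.inr h0.le
  set t : ℝ → ℝ := fun y => Real.sinh y / Real.cosh y with ht
  have hcR : ∀ x, g (t x) * Real.cosh x ^ (-(2 : ℝ)) = Real.cosh x ^ (-(2 * (ν + 1))) := by
    intro x
    have hc := Real.cosh_pos x
    have e : 1 - (t x) ^ 2 = Real.cosh x ^ (-(2 : ℝ)) := by
      rw [ht, Real.rpow_neg hc.le, Real.rpow_two]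
      have := Real.cosh_sq_sub_sinh_sq x
      field_simp
      linarith
    simp only [hg, e]
    rw [← Real.rpow_mul hc.le, ← Real.rpow_add hc]
    ring_nf
  have hint := integrable_cosh_rpow (a := 2 * (ν + 1)) (by linarith)
  have hlim := intervalIntegral_tendsto_integral hint tendsto_neg_atTop_atBot tendsto_id
  have hone : Tendsto t atTop (𝓝 1) := by
    have h0' : Tendsto (fun x => 1 - t x) atTop (𝓝 0) := by
      refine squeeze_zero (fun x => ?_) (fun x => ?_) (Real.tendsto_exp_neg_atTop_nhds_zero)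
      · have := Real.tanh_lt_one x
        rw [Real.tanh_eq_sinh_div_cosh] at this
        simp only [ht]; linarith
      · have hc := Real.cosh_pos x
        simp only [ht]
        rw [one_sub_div hc.ne', Real.cosh_sub_sinh, div_le_iff₀ hc]
        exact le_mul_of_one_le_right (Real.exp_pos _).le (Real.one_le_cosh x)
    simpa using (tendsto_const_nhds (x := (1 : ℝ))).sub h0'
  have hodd : ∀ x, t (-x) = -t x := fun x => by
    simp only [ht, Real.sinh_neg, Real.cosh_neg, neg_div]
  have hR : ∀ R : ℝ, ∫ x in -R..R, Real.cosh x ^ (-(2 * (ν + 1))) = ∫ u in -t R..t R, g u := by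
    intro R
    rw [← hodd, ← intervalIntegral.integral_comp_mul_deriv (fun x _ => hasDerivAt_tanh' x)
      ((Real.continuous_cosh.rpow_const fun x => Or.inl (Real.cosh_pos x).ne').continuousOn) hgc]
    exact intervalIntegral.integral_congr fun x _ => (hcR x).symm
  have hcont : Continuous fun r => ∫ u in -r..r, g u := by
    have : (fun r => ∫ u in -r..r, g u)
        = fun r => (∫ u in (0 : ℝ)..r, g u) - ∫ u in (0 : ℝ)..-r, g u := by
      funext r
      rw [intervalIntegral.integral_interval_sub_left (hgc.intervalIntegrable _ _)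
        (hgc.intervalIntegrable _ _)]
    rw [this]
    exact (intervalIntegral.continuous_primitive (fun a b => hgc.intervalIntegrable a b) 0).sub
      ((intervalIntegral.continuous_primitive (fun a b => hgc.intervalIntegrable a b) 0).comp
        continuous_neg)
  have hlim2 : Tendsto (fun R : ℝ => ∫ x in -R..R, Real.cosh x ^ (-(2 * (ν + 1)))) atTop
      (𝓝 (2 * halfI ν)) := by
    rw [← symm_halfI h0]
    exact ((hcont.tendsto 1).comp hone).congr fun R => (hR R).symm
  exact tendsto_nhds_unique hlim hlim2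

/-- The optimising potential. -/
noncomputable def solW (ν x : ℝ) : ℝ := ν * (ν + 1) * Real.cosh x ^ (-(2 : ℝ))

/-- The normalising constant of the ground state. -/
noncomputable def solC (ν : ℝ) : ℝ := (Real.sqrt (∫ x, Real.cosh x ^ (-(2 * ν))))⁻¹

/-- The ground state of the optimising potential. -/
noncomputable def solF (ν x : ℝ) : ℝ := solC ν * Real.cosh x ^ (-ν)

/-- Its derivative. -/
noncomputable def solF1 (ν x : ℝ) : ℝ :=
  solC ν * (-ν * (Real.sinh x * Real.cosh x ^ (-ν - 1)))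

/-- Its second derivative. -/
noncomputable def solF2 (ν x : ℝ) : ℝ := (ν ^ 2 - solW ν x) * solF ν x

lemma solF_hasDerivAt (ν x : ℝ) : HasDerivAt (solF ν) (solF1 ν x) x := by
  refine (((Real.hasDerivAt_cosh x).rpow_const (p := -ν)
    (Or.inl (Real.cosh_pos x).ne')).const_mul (solC ν)).congr_deriv ?_
  rw [solF1]; ring

lemma solF1_hasDerivAt (ν x : ℝ) : HasDerivAt (solF1 ν) (solF2 ν x) x := by
  have hc := Real.cosh_pos x
  refine ((((Real.hasDerivAt_sinh x).mul ((Real.hasDerivAt_cosh x).rpow_const (p := -ν - 1)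
    (Or.inl hc.ne'))).const_mul (-ν)).const_mul (solC ν)).congr_deriv ?_
  have h := Real.cosh_sq_sub_sinh_sq x
  have e1 : Real.cosh x ^ (-ν - 1) = Real.cosh x ^ (-ν) / Real.cosh x := Real.rpow_sub_one hc.ne' _
  have e2 : Real.cosh x ^ (-ν - 1 - 1) = Real.cosh x ^ (-ν) / Real.cosh x / Real.cosh x := by
    rw [Real.rpow_sub_one hc.ne', e1]
  have e3 : Real.cosh x ^ (-(2 : ℝ)) = 1 / Real.cosh x ^ 2 := by
    rw [Real.rpow_neg hc.le, Real.rpow_two, one_div]
  rw [solF2, solW, solF, e1, e2, e3]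
  field_simp
  grind

lemma continuous_solW (ν : ℝ) : Continuous (solW ν) :=
  continuous_const.mul (Real.continuous_cosh.rpow_const fun x => Or.inl (Real.cosh_pos x).ne')

lemma continuous_solF (ν : ℝ) : Continuous (solF ν) :=
  continuous_iff_continuousAt.2 fun x => (solF_hasDerivAt ν x).continuousAt

lemma continuous_solF1 (ν : ℝ) : Continuous (solF1 ν) :=
  continuous_iff_continuousAt.2 fun x => (solF1_hasDerivAt ν x).continuousAt

lemma solW_nonneg {ν : ℝ} (h0 : 0 < ν) (x : ℝ) : 0 ≤ solW ν x := by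
  have := Real.cosh_pos x
  unfold solW; positivity

lemma solW_le {ν : ℝ} (h0 : 0 < ν) (x : ℝ) : solW ν x ≤ ν * (ν + 1) :=
  mul_le_of_le_one_right (by positivity)
    (Real.rpow_le_one_of_one_le_of_nonpos (Real.one_le_cosh x) (by norm_num))

lemma solF_sq (ν x : ℝ) :
    solF ν x ^ 2 = solC ν ^ 2 * Real.cosh x ^ (-(2 * ν)) := by
  rw [solF, mul_pow, ← Real.rpow_natCast (Real.cosh x ^ (-ν)) 2,
    ← Real.rpow_mul (Real.cosh_pos x).le]
  push_cast
  ring_nf

lemma memLp_solF {ν : ℝ} (h0 : 0 < ν) : MemLp (solF ν) 2 volume := by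
  rw [memLp_two_iff_integrable_sq (continuous_solF ν).aestronglyMeasurable]
  simp only [solF_sq]
  exact (integrable_cosh_rpow (by linarith)).const_mul _

lemma memLp_of_le_solF {ν C : ℝ} (h0 : 0 < ν) {g : ℝ → ℝ} (hg : Continuous g)
    (hb : ∀ x, |g x| ≤ C * |solF ν x|) : MemLp g 2 volume :=
  MemLp.of_le_mul (c := C) (memLp_solF h0) hg.aestronglyMeasurable
    (Eventually.of_forall fun x => by simpa [Real.norm_eq_abs] using hb x)

lemma memLp_solF1 {ν : ℝ} (h0 : 0 < ν) : MemLp (solF1 ν) 2 volume := by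
  refine memLp_of_le_solF h0 (continuous_solF1 ν) (C := ν) fun x => ?_
  have hc := Real.cosh_pos x
  have hs : |Real.sinh x| ≤ Real.cosh x := by
    nlinarith [Real.cosh_sq_sub_sinh_sq x, sq_abs (Real.sinh x), abs_nonneg (Real.sinh x)]
  rw [solF1, solF, Real.rpow_sub_one hc.ne', abs_mul, abs_mul, abs_mul, abs_mul, abs_neg,
    abs_of_pos h0, abs_div, abs_of_pos hc]
  have : |Real.sinh x| * (|Real.cosh x ^ (-ν)| / Real.cosh x) ≤ |Real.cosh x ^ (-ν)| := by
    rw [mul_div, div_le_iff₀ hc, mul_comm]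
    exact mul_le_mul_of_nonneg_left hs (abs_nonneg _)
  nlinarith [mul_le_mul_of_nonneg_left this (mul_nonneg (abs_nonneg (solC ν)) h0.le)]

lemma memLp_solF2 {ν : ℝ} (h0 : 0 < ν) : MemLp (solF2 ν) 2 volume := by
  refine memLp_of_le_solF h0 ((continuous_const.sub (continuous_solW ν)).mul (continuous_solF ν))
    (C := ν ^ 2 + ν * (ν + 1)) fun x => ?_
  rw [solF2, abs_mul]
  refine mul_le_mul_of_nonneg_right ?_ (abs_nonneg _)
  rw [abs_le]
  constructor <;> nlinarith [solW_nonneg h0 x, solW_le h0 x]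

lemma integral_solF_sq {ν : ℝ} (h0 : 0 < ν) : ∫ x, solF ν x ^ 2 = 1 := by
  simp only [solF_sq, integral_const_mul]
  have hI : 0 < ∫ x, Real.cosh x ^ (-(2 * ν)) :=
    integral_pos_of_integrable_nonneg_nonzero (x := 0)
      (Real.continuous_cosh.rpow_const fun x => Or.inl (Real.cosh_pos x).ne')
      (integrable_cosh_rpow (by linarith)) (fun x => Real.rpow_nonneg (Real.cosh_pos x).le _)
      (by simp)
  rw [solC, inv_pow, Real.sq_sqrt hI.le, inv_mul_cancel₀ hI.ne']

theorem keller_mem {γ : ℝ} (hγ0 : 1 / 2 < γ) (hm : 1 ≤ m) :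
    kellerConst γ ∈ mLtRatiosAt γ m := by
  obtain ⟨ν, rfl⟩ : ∃ ν, γ = ν + 1 / 2 := ⟨γ - 1 / 2, by ring⟩
  have h0 : 0 < ν := by linarith
  obtain ⟨a₀⟩ : Nonempty (Fin m) := ⟨⟨0, hm⟩⟩
  set d : ℝ → Fin m → ℝ := fun x a => if a = a₀ then solW ν x else 0 with hd
  set W : ℝ → Matrix (Fin m) (Fin m) ℂ := fun x => diagonal fun a => (d x a : ℂ) with hW
  have hd0 : ∀ x a, 0 ≤ d x a := fun x a => by
    simp only [hd]; split_ifs
    exacts [solW_nonneg h0 x, le_rfl]
  have hp : (0 : ℝ) < ν + 1 := by linarith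
  have htp : ∀ x, trPowAt (ν + 1 / 2 + 1 / 2) (W x)
      = (ν * (ν + 1)) ^ (ν + 1) * Real.cosh x ^ (-(2 * (ν + 1))) := fun x => by
    rw [show ν + 1 / 2 + 1 / 2 = ν + 1 by ring]
    simp only [hW]
    rw [trPowAt_diagonal, Finset.sum_eq_single a₀]
    · simp only [hd, if_true, solW]
      rw [Real.mul_rpow (by positivity) (Real.rpow_nonneg (Real.cosh_pos x).le _),
        ← Real.rpow_mul (Real.cosh_pos x).le]
      ring_nf
    · intro a _ ha; simp [hd, ha, Real.zero_rpow hp.ne']
    · simp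
  have hWp : IsMPotentialAt (ν + 1 / 2) W := by
    refine ⟨fun a c => ?_, fun x => ?_, ?_⟩
    · by_cases hac : a = c
      · subst hac
        simp only [hW, diagonal_apply_eq, hd]
        split_ifs
        exacts [(Complex.continuous_ofReal.comp (continuous_solW ν)).measurable, measurable_const]
      · simp only [hW, diagonal_apply_ne _ hac]
        exact measurable_const
    · exact PosSemidef.diagonal fun a => Complex.zero_le_real.mpr (hd0 x a)
    · simp only [htp]; exact (integrable_cosh_rpow (by linarith)).const_mul _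
  have hH : IsH1 (fun x => (solF ν x : ℂ)) (fun x => (solF1 ν x : ℂ)) :=
    ⟨fun x => (solF_hasDerivAt ν x).ofReal_comp,
      Complex.continuous_ofReal.comp (continuous_solF1 ν),
      (memLp_solF h0).ofReal, (memLp_solF1 h0).ofReal⟩
  set F : ℝ → Fin m → ℂ := fun x a => if a = a₀ then (solF ν x : ℂ) else 0 with hF
  set F' : ℝ → Fin m → ℂ := fun x a => if a = a₀ then (solF1 ν x : ℂ) else 0 with hF'
  have hFH : IsH1V F F' := fun a => by
    by_cases ha : a = a₀
    · simp only [hF, hF', ha, if_true]; exact hH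
    · simp only [hF, hF', ha, if_false]
      exact ⟨fun x => hasDerivAt_const x 0, continuous_const, MemLp.zero', MemLp.zero'⟩
  have hMF : ∀ x a, (W x *ᵥ F x) a = if a = a₀ then (solW ν x : ℂ) * solF ν x else 0 :=
    fun x a => by
      simp only [hW, mulVec_diagonal, hd, hF]
      split_ifs <;> simp
  have heig : IsMEigenfunction W (-(ν ^ 2)) F := by
    refine ⟨F', hFH, fun g g' hgg => ?_⟩
    obtain ⟨hgd, hgc, hg2, hg'2⟩ := hgg a₀
    simp only [hMF]
    simp only [hF, hF', mul_ite, mul_zero, Finset.sum_ite_eq', Finset.mem_univ, if_true]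
    have hA : Integrable (fun x => conj (g x a₀) * (solF2 ν x : ℂ)) :=
      MemLp.integrable_mul hg2.star ((memLp_solF2 h0).ofReal (K := ℂ))
    have hB : Integrable (fun x => conj (g' x a₀) * (solF1 ν x : ℂ)) :=
      MemLp.integrable_mul hg'2.star ((memLp_solF1 h0).ofReal (K := ℂ))
    have hC : Integrable (fun x => conj (g x a₀) * (solF1 ν x : ℂ)) :=
      MemLp.integrable_mul hg2.star ((memLp_solF1 h0).ofReal (K := ℂ))
    have hD : Integrable (fun x => conj (g x a₀) * (solF ν x : ℂ)) :=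
      MemLp.integrable_mul hg2.star ((memLp_solF h0).ofReal (K := ℂ))
    have hparts : ∫ x, conj (g x a₀) * (solF2 ν x : ℂ) = -∫ x, conj (g' x a₀) * (solF1 ν x : ℂ) :=
      integral_mul_deriv_eq_deriv_mul_of_integrable (fun x _ => (hgd x).star)
        (fun x _ => (solF1_hasDerivAt ν x).ofReal_comp) hA hB hC
    have e : (fun x => conj (g x a₀) * ((solW ν x : ℂ) * (solF ν x : ℂ)))
        = fun x => ((ν ^ 2 : ℝ) : ℂ) * (conj (g x a₀) * (solF ν x : ℂ))
          - conj (g x a₀) * (solF2 ν x : ℂ) := by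
      funext x; simp only [solF2]; push_cast; ring
    rw [e, integral_sub (hD.const_mul _) hA, integral_const_mul, hparts]
    push_cast; ring
  have hI : ∫ x, trPowAt (ν + 1 / 2 + 1 / 2) (W x) = (ν * (ν + 1)) ^ (ν + 1) * (2 * halfI ν) := by
    simp only [htp]; rw [integral_const_mul, integral_cosh_rpow h0]
  have hhalf := halfI_pos h0
  refine ⟨W, hWp, by rw [hI]; positivity, 1, fun _ => -(ν ^ 2), fun _ => F,
    fun i => ⟨by nlinarith [h0], heig⟩, fun i j => ?_, ?_⟩
  · simp only [hF, mul_ite, mul_zero, Finset.sum_ite_eq', Finset.mem_univ, if_true]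
    have e : (fun x => conj (solF ν x : ℂ) * (solF ν x : ℂ))
        = fun x => ((solF ν x ^ 2 : ℝ) : ℂ) := by
      funext x; rw [Complex.conj_ofReal, ← Complex.ofReal_mul, ← sq]
    rw [if_pos (Subsingleton.elim i j), e, integral_complex_ofReal, integral_solF_sq h0,
      Complex.ofReal_one]
  · rw [hI, ← dissConst_div_halfI h0, Fin.sum_univ_one, abs_neg, abs_of_pos (by positivity)]
    have hs : (ν ^ 2 : ℝ) ^ (ν + 1 / 2) = ν ^ ν * ν ^ (ν + 1) := by
      rw [← Real.rpow_natCast, ← Real.rpow_mul h0.le, ← Real.rpow_add h0]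
      push_cast; ring_nf
    have hq : (ν / (1 + ν)) ^ (1 + ν) = ν * ν ^ ν / (ν + 1) ^ (ν + 1) := by
      rw [Real.div_rpow h0.le (by linarith), add_comm 1 ν, Real.rpow_add h0, Real.rpow_one]
      ring
    rw [hs, Real.mul_rpow h0.le hp.le, dissConst, hq]
    have : 0 < ν ^ (ν + 1) := Real.rpow_pos_of_pos h0 _
    have : 0 < (ν + 1) ^ (ν + 1) := Real.rpow_pos_of_pos hp _
    field_simp

end Vale.Agent.P371.All
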