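import Vale.Agent.P371.All.Defs
import Vale.Agent.P371.All.Constant

/-!
# P371: trace inequalities for functions of Hermitian matrices

Everything reduces to the double sum `tr (φ(A) C ψ(B) Cᴴ) = ∑ |M i k|² φ(a i) ψ(b k)`, `M` being
`C` written in the two eigenbases.
-/

namespace Vale.Agent.P371.All

open Matrix Set Filter
open scoped ComplexOrder ComplexConjugate Topology

variable {N m : ℕ}

namespace TT

/-- The unitary of eigenvectors. -/
noncomputable def evU {A : Matrix (Fin N) (Fin N) ℂ} (hA : A.IsHermitian) :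
    Matrix (Fin N) (Fin N) ℂ :=
  hA.eigenvectorUnitary

theorem evU_left {A : Matrix (Fin N) (Fin N) ℂ} (hA : A.IsHermitian) :
    (evU hA)ᴴ * evU hA = 1 :=
  Unitary.coe_star_mul_self hA.eigenvectorUnitary

theorem evU_right {A : Matrix (Fin N) (Fin N) ℂ} (hA : A.IsHermitian) :
    evU hA * (evU hA)ᴴ = 1 :=
  Unitary.coe_mul_star_self hA.eigenvectorUnitary

theorem mfun_eq (φ : ℝ → ℝ) {A : Matrix (Fin N) (Fin N) ℂ} (hA : A.IsHermitian) :
    mfun φ A = evU hA * diagonal (fun i => (φ (hA.eigenvalues i) : ℂ)) * (evU hA)ᴴ := by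
  rw [mfun, dif_pos hA]; rfl

theorem mfun_id {A : Matrix (Fin N) (Fin N) ℂ} (hA : A.IsHermitian) :
    mfun (fun t => t) A = A := by
  rw [mfun_eq _ hA]
  have h := hA.spectral_theorem
  simp only [Unitary.conjStarAlgAut_apply, Function.comp_def, Matrix.star_eq_conjTranspose] at h
  exact h.symm

theorem mfun_one {A : Matrix (Fin N) (Fin N) ℂ} (hA : A.IsHermitian) :
    mfun (fun _ => 1) A = 1 := by
  simp [mfun_eq _ hA, evU_right hA]

theorem conj_mul_conj {U : Matrix (Fin N) (Fin N) ℂ} (hU : Uᴴ * U = 1)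
    (X Y : Matrix (Fin N) (Fin N) ℂ) : U * X * Uᴴ * (U * Y * Uᴴ) = U * (X * Y) * Uᴴ := by
  simp only [Matrix.mul_assoc]
  rw [← Matrix.mul_assoc Uᴴ U, hU, Matrix.one_mul]

theorem mfun_mul (φ ψ : ℝ → ℝ) {A : Matrix (Fin N) (Fin N) ℂ} (hA : A.IsHermitian) :
    mfun φ A * mfun ψ A = mfun (fun t => φ t * ψ t) A := by
  simp only [mfun_eq _ hA, conj_mul_conj (evU_left hA), diagonal_mul_diagonal]
  simp [Complex.ofReal_mul]

theorem pow_eq_mfun {A : Matrix (Fin N) (Fin N) ℂ} (hA : A.IsHermitian) (k : ℕ) :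
    A ^ k = mfun (fun t => t ^ k) A := by
  induction k with
  | zero => simp only [pow_zero, mfun_one hA]
  | succ k ih =>
    conv_lhs => rw [pow_succ, ih]; arg 2; rw [← mfun_id hA]
    rw [mfun_mul _ _ hA]
    simp only [pow_succ]

theorem trace_mfun (φ : ℝ → ℝ) {A : Matrix (Fin N) (Fin N) ℂ} (hA : A.IsHermitian) :
    (mfun φ A).trace.re = ∑ i, φ (hA.eigenvalues i) := by
  rw [mfun_eq _ hA, Matrix.trace_mul_comm, ← Matrix.mul_assoc, evU_left hA, Matrix.one_mul,
    Matrix.trace_diagonal, Complex.re_sum]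
  simp

theorem trPowAt_eq {r : ℝ} {A : Matrix (Fin N) (Fin N) ℂ} (hA : A.IsHermitian) :
    trPowAt r A = ∑ i, hA.eigenvalues i ^ r :=
  dif_pos hA

theorem isHermitian_conj_diag (U : Matrix (Fin N) (Fin N) ℂ) (d : Fin N → ℝ) :
    (U * diagonal (fun i => (d i : ℂ)) * Uᴴ).IsHermitian :=
  isHermitian_mul_mul_conjTranspose _
    (isHermitian_diagonal_of_self_adjoint _ (by ext i; simp [Complex.conj_ofReal]))

theorem trPowAt_conj_diag {r : ℝ} {U : Matrix (Fin N) (Fin N) ℂ} (hU : Uᴴ * U = 1)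
    (d : Fin N → ℝ) :
    trPowAt r (U * diagonal (fun i => (d i : ℂ)) * Uᴴ) = ∑ i, d i ^ r := by
  set D := diagonal (fun i => (d i : ℂ)) with hD
  have hc : (U * D * Uᴴ).charpoly = D.charpoly := by
    rw [Matrix.charpoly_mul_comm, ← Matrix.mul_assoc, hU, Matrix.one_mul]
  have hH := isHermitian_conj_diag U d
  have hDH : D.IsHermitian :=
    isHermitian_diagonal_of_self_adjoint _ (by ext i; simp [Complex.conj_ofReal])
  rw [← trPowAt_diagonal (r := r) d, ← hD, trPowAt_eq hH, trPowAt_eq hDH]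
  have h := (hH.roots_charpoly_eq_eigenvalues.symm.trans (congrArg Polynomial.roots hc)).trans
    hDH.roots_charpoly_eq_eigenvalues
  have h2 := congrArg (fun s : Multiset ℂ => (s.map fun z => z.re ^ r).sum) h
  simp only [Multiset.map_map, Function.comp_def] at h2
  simpa [Finset.sum_eq_multiset_sum] using h2

/-- The double sum behind every pairing. -/
theorem trace_pair (φ ψ : ℝ → ℝ) {A : Matrix (Fin N) (Fin N) ℂ} {B : Matrix (Fin m) (Fin m) ℂ}
    (hA : A.IsHermitian) (hB : B.IsHermitian) (C : Matrix (Fin N) (Fin m) ℂ) :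
    (mfun φ A * C * mfun ψ B * Cᴴ).trace.re =
      ∑ i, ∑ k, Complex.normSq (((evU hA)ᴴ * C * evU hB) i k) *
        (φ (hA.eigenvalues i) * ψ (hB.eigenvalues k)) := by
  set M := (evU hA)ᴴ * C * evU hB with hM
  have h : (mfun φ A * C * mfun ψ B * Cᴴ).trace =
      (diagonal (fun i => (φ (hA.eigenvalues i) : ℂ)) * M *
        diagonal (fun k => (ψ (hB.eigenvalues k) : ℂ)) * Mᴴ).trace := by
    simp only [mfun_eq _ hA, mfun_eq _ hB, hM, conjTranspose_mul, conjTranspose_conjTranspose,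
      Matrix.mul_assoc]
    rw [Matrix.trace_mul_comm]
    simp only [Matrix.mul_assoc]
  rw [h]
  simp only [Matrix.trace, Matrix.diag, Matrix.mul_apply, conjTranspose_apply, diagonal_apply,
    mul_ite, mul_zero, ite_mul, zero_mul, Finset.sum_ite_eq, Finset.sum_ite_eq', Finset.mem_univ,
    if_true, Complex.re_sum]
  refine Finset.sum_congr rfl fun i _ => Finset.sum_congr rfl fun k _ => ?_
  simp only [Complex.star_def, Complex.normSq_apply, Complex.mul_re, Complex.mul_im,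
    Complex.ofReal_re, Complex.ofReal_im, Complex.conj_re, Complex.conj_im]
  ring

theorem trace_pair_sq (φ ψ : ℝ → ℝ) {A B : Matrix (Fin N) (Fin N) ℂ}
    (hA : A.IsHermitian) (hB : B.IsHermitian) :
    (mfun φ A * mfun ψ B).trace.re =
      ∑ i, ∑ k, Complex.normSq (((evU hA)ᴴ * evU hB) i k) *
        (φ (hA.eigenvalues i) * ψ (hB.eigenvalues k)) := by
  simpa using trace_pair φ ψ hA hB 1

theorem normSq_sum_eq {ι κ : Type} [Fintype ι] [Fintype κ] (X : Matrix ι κ ℂ) :
    ∑ i, ∑ j, Complex.normSq (X i j) = (Xᴴ * X).trace.re := by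
  simp only [Matrix.trace, Matrix.diag, Matrix.mul_apply, Complex.re_sum, conjTranspose_apply]
  rw [Finset.sum_comm]
  refine Finset.sum_congr rfl fun a _ => Finset.sum_congr rfl fun i _ => ?_
  simp [Complex.normSq_apply, Complex.mul_re]

theorem isHermitian_mfun (φ : ℝ → ℝ) {A : Matrix (Fin N) (Fin N) ℂ} (hA : A.IsHermitian) :
    (mfun φ A).IsHermitian := by
  rw [mfun_eq _ hA]; exact isHermitian_conj_diag _ _

/-- Squared distance of two matrix functions as a double sum. -/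
theorem normSq_mfun_sub (φ ψ : ℝ → ℝ) {A B : Matrix (Fin N) (Fin N) ℂ}
    (hA : A.IsHermitian) (hB : B.IsHermitian) :
    ∑ i, ∑ j, Complex.normSq ((mfun φ A - mfun ψ B) i j) =
      ∑ i, ∑ k, Complex.normSq (((evU hA)ᴴ * evU hB) i k) *
        (φ (hA.eigenvalues i) - ψ (hB.eigenvalues k)) ^ 2 := by
  have hc : ((mfun ψ B * mfun φ A)).trace.re = (mfun φ A * mfun ψ B).trace.re := by
    rw [Matrix.trace_mul_comm]
  have hA1 := trace_pair_sq (fun t => φ t * φ t) (fun _ => 1) hA hB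
  have hB1 := trace_pair_sq (fun _ => 1) (fun t => ψ t * ψ t) hA hB
  rw [mfun_one hB, Matrix.mul_one, ← mfun_mul φ φ hA] at hA1
  rw [mfun_one hA, Matrix.one_mul, ← mfun_mul ψ ψ hB] at hB1
  rw [normSq_sum_eq, conjTranspose_sub, (isHermitian_mfun φ hA).eq, (isHermitian_mfun ψ hB).eq]
  simp only [Matrix.sub_mul, Matrix.mul_sub, Matrix.trace_sub, Complex.sub_re]
  rw [hc, hA1, hB1, trace_pair_sq φ ψ hA hB]
  simp only [← Finset.sum_sub_distrib]
  refine Finset.sum_congr rfl fun i _ => Finset.sum_congr rfl fun k _ => ?_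
  ring

theorem eig_nonneg {A : Matrix (Fin N) (Fin N) ℂ} (hA : A.PosSemidef) (i : Fin N) :
    0 ≤ hA.1.eigenvalues i := hA.eigenvalues_nonneg i

/-- Weighted sums over the pairing. -/
theorem col_row {A B : Matrix (Fin N) (Fin N) ℂ} (hA : A.IsHermitian) (hB : B.IsHermitian)
    (f g : ℝ → ℝ) :
    (∑ i, ∑ k, Complex.normSq (((evU hA)ᴴ * evU hB) i k) * f (hA.eigenvalues i)) =
        ∑ i, f (hA.eigenvalues i) ∧
      (∑ i, ∑ k, Complex.normSq (((evU hA)ᴴ * evU hB) i k) * g (hB.eigenvalues k)) =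
        ∑ k, g (hB.eigenvalues k) := by
  constructor
  · have h := trace_pair_sq f (fun _ => 1) hA hB
    rw [mfun_one hB, Matrix.mul_one, trace_mfun _ hA] at h
    simpa using h.symm
  · have h := trace_pair_sq (fun _ => 1) g hA hB
    rw [mfun_one hA, Matrix.one_mul, trace_mfun _ hB] at h
    simpa using h.symm

theorem rpow_tangent {r a b : ℝ} (h0 : 0 ≤ r) (h1 : r ≤ 1) (ha : 0 < a) (hb : 0 ≤ b) :
    b ^ r ≤ a ^ r + r * (a ^ (r - 1) * b - a ^ r) := by
  have hba : 0 ≤ b / a := div_nonneg hb ha.le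
  have h := rpow_one_add_le_one_add_mul_self (s := b / a - 1) (by linarith) h0 h1
  rw [add_sub_cancel, Real.div_rpow hb ha.le, div_le_iff₀ (Real.rpow_pos_of_pos ha r)] at h
  rw [Real.rpow_sub_one ha.ne']
  refine h.trans (le_of_eq ?_)
  field_simp

theorem rpow_young {r a b : ℝ} (hr : 1 ≤ r) (ha : 0 ≤ a) (hb : 0 ≤ b) :
    b ^ (r - 1) * a ≤ (1 - 1 / r) * b ^ r + 1 / r * a ^ r := by
  have hr0 : 0 < r := by linarith
  have hw : (0 : ℝ) ≤ 1 - 1 / r := by rw [sub_nonneg, div_le_one hr0]; exact hr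
  have h := Real.geom_mean_le_arith_mean2_weighted hw (by positivity : (0 : ℝ) ≤ 1 / r)
    (Real.rpow_nonneg hb r) (Real.rpow_nonneg ha r) (by ring)
  have e1 : (b ^ r) ^ (1 - 1 / r) = b ^ (r - 1) := by
    rw [← Real.rpow_mul hb]; congr 1; field_simp
  have e2 : (a ^ r) ^ (1 / r) = a := by
    rw [← Real.rpow_mul ha, mul_one_div_cancel hr0.ne', Real.rpow_one]
  rwa [e1, e2] at h

theorem rpow_shift {r δ ε v : ℝ} (hr : 0 < r) (hδ : 0 < δ) (hε : 0 < ε) (hv : 0 ≤ v) :
    (v + ε) ^ r ≤ (1 + δ) ^ r * v ^ r + (1 + 1 / δ) ^ r * ε ^ r := by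
  have hd : (0 : ℝ) ≤ 1 + 1 / δ := by positivity
  rcases le_total ε (δ * v) with h | h
  · refine le_add_of_le_of_nonneg ?_ (by positivity)
    rw [← Real.mul_rpow (by linarith) hv]
    exact Real.rpow_le_rpow (by linarith) (by nlinarith) hr.le
  · refine le_add_of_nonneg_of_le (by positivity) ?_
    rw [← Real.mul_rpow hd hε.le]
    refine Real.rpow_le_rpow (by linarith) ?_ hr.le
    have : v ≤ ε / δ := by rw [le_div_iff₀ hδ]; linarith
    calc v + ε ≤ ε / δ + ε := by linarith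
      _ = (1 + 1 / δ) * ε := by ring

/-- Rows and columns of a contraction. -/
theorem normSq_row_le {C : Matrix (Fin N) (Fin m) ℂ} (hC : (1 - C * Cᴴ).PosSemidef) (i : Fin N) :
    ∑ k, Complex.normSq (C i k) ≤ 1 := by
  have h := (Complex.le_def.1 (hC.diag_nonneg (i := i))).1
  simp only [Matrix.sub_apply, Matrix.one_apply_eq, Matrix.mul_apply, conjTranspose_apply,
    Complex.sub_re, Complex.re_sum, Complex.zero_re, Complex.one_re, Complex.star_def,
    Complex.mul_conj, Complex.ofReal_re] at h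
  linarith

theorem posSemidef_flip {C : Matrix (Fin N) (Fin m) ℂ} (hC : (1 - Cᴴ * C).PosSemidef) :
    (1 - C * Cᴴ).PosSemidef := by
  have hH : (1 - C * Cᴴ).IsHermitian := isHermitian_one.sub (isHermitian_mul_conjTranspose_self C)
  refine PosSemidef.of_dotProduct_mulVec_nonneg hH fun v => ?_
  set z := Cᴴ *ᵥ v with hz
  have e1 : star v ⬝ᵥ (1 - C * Cᴴ) *ᵥ v = star v ⬝ᵥ v - star z ⬝ᵥ z := by
    rw [sub_mulVec, one_mulVec, dotProduct_sub, ← mulVec_mulVec, dotProduct_mulVec, hz,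
      star_mulVec, conjTranspose_conjTranspose]
  have e2 : star (v - C *ᵥ z) ⬝ᵥ (v - C *ᵥ z) + star z ⬝ᵥ (1 - Cᴴ * C) *ᵥ z
      = star v ⬝ᵥ v - star z ⬝ᵥ z := by
    have a1 : star v ⬝ᵥ C *ᵥ z = star z ⬝ᵥ z := by
      rw [dotProduct_mulVec, hz, star_mulVec, conjTranspose_conjTranspose]
    have a2 : star (C *ᵥ z) ⬝ᵥ v = star z ⬝ᵥ z := by
      rw [star_mulVec, ← dotProduct_mulVec, ← hz]
    have a3 : star z ⬝ᵥ (Cᴴ * C) *ᵥ z = star (C *ᵥ z) ⬝ᵥ (C *ᵥ z) := by
      rw [← mulVec_mulVec, dotProduct_mulVec, ← star_mulVec]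
    rw [star_sub, sub_dotProduct, dotProduct_sub, dotProduct_sub, a1, a2, sub_mulVec, one_mulVec,
      dotProduct_sub, a3]
    ring
  rw [e1, ← e2]
  exact add_nonneg (dotProduct_star_self_nonneg _) (hC.dotProduct_mulVec_nonneg z)

theorem conj_contraction {U : Matrix (Fin N) (Fin N) ℂ} {V : Matrix (Fin m) (Fin m) ℂ}
    (hU : U * Uᴴ = 1) (hV : Vᴴ * V = 1) {C : Matrix (Fin N) (Fin m) ℂ}
    (hC : (1 - Cᴴ * C).PosSemidef) :
    (1 - (Uᴴ * C * V)ᴴ * (Uᴴ * C * V)).PosSemidef := by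
  have e : 1 - (Uᴴ * C * V)ᴴ * (Uᴴ * C * V) = Vᴴ * (1 - Cᴴ * C) * V := by
    simp only [conjTranspose_mul, conjTranspose_conjTranspose, Matrix.mul_sub, Matrix.sub_mul,
      Matrix.mul_one, Matrix.mul_assoc, hV]
    rw [← Matrix.mul_assoc U Uᴴ, hU, Matrix.one_mul]
  rw [e]
  exact hC.conjTranspose_mul_mul_same V

end TT

open TT

theorem mfun_lipschitz {φ : ℝ → ℝ} {K : ℝ} {A B : Matrix (Fin N) (Fin N) ℂ} (hA : A.IsHermitian)
    (hB : B.IsHermitian)
    (hφ : ∀ i j, |φ (hA.eigenvalues i) - φ (hB.eigenvalues j)|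
      ≤ K * |hA.eigenvalues i - hB.eigenvalues j|) :
    ∑ i, ∑ j, Complex.normSq ((mfun φ A - mfun φ B) i j)
      ≤ K ^ 2 * ∑ i, ∑ j, Complex.normSq ((A - B) i j) := by
  have h2 := normSq_mfun_sub (fun t => t) (fun t => t) hA hB
  rw [mfun_id hA, mfun_id hB] at h2
  rw [normSq_mfun_sub φ φ hA hB, h2, Finset.mul_sum]
  refine Finset.sum_le_sum fun i _ => ?_
  rw [Finset.mul_sum]
  refine Finset.sum_le_sum fun k _ => ?_
  rw [mul_left_comm]
  refine mul_le_mul_of_nonneg_left ?_ (Complex.normSq_nonneg _)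
  have h := pow_le_pow_left₀ (abs_nonneg _) (hφ i k) 2
  rwa [mul_pow, sq_abs, sq_abs] at h

theorem trPowAt_tangent {r : ℝ} (h0 : 0 < r) (h1 : r ≤ 1) {A B : Matrix (Fin N) (Fin N) ℂ}
    (hA : A.PosDef) (hB : B.PosSemidef) :
    trPowAt r B ≤ trPowAt r A + r * (mfun (fun t => t ^ (r - 1)) A * (B - A)).trace.re := by
  have hAh := hA.1
  have hBh := hB.1
  have eB := trace_pair_sq (fun t => t ^ (r - 1)) (fun t => t) hAh hBh
  rw [mfun_id hBh] at eB
  have eA : (mfun (fun t => t ^ (r - 1)) A * A).trace.re = ∑ i, hAh.eigenvalues i ^ r := by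
    conv_lhs => arg 1; arg 1; arg 2; rw [← mfun_id hAh]
    rw [mfun_mul _ _ hAh, trace_mfun _ hAh]
    refine Finset.sum_congr rfl fun i _ => ?_
    rw [← Real.rpow_add_one (hA.eigenvalues_pos i).ne', sub_add_cancel]
  obtain ⟨ha, hb⟩ := col_row hAh hBh (fun t => t ^ r) (fun t => t ^ r)
  rw [Matrix.mul_sub, Matrix.trace_sub, Complex.sub_re, eB, eA, trPowAt_eq hAh, trPowAt_eq hBh,
    ← ha, ← hb, ← Finset.sum_sub_distrib, Finset.mul_sum, ← Finset.sum_add_distrib]
  refine Finset.sum_le_sum fun i _ => ?_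
  rw [← Finset.sum_sub_distrib, Finset.mul_sum, ← Finset.sum_add_distrib]
  refine Finset.sum_le_sum fun k _ => ?_
  have hp := mul_le_mul_of_nonneg_left
    (rpow_tangent h0.le h1 (hA.eigenvalues_pos i) (hB.eigenvalues_nonneg k))
    (Complex.normSq_nonneg (((evU hAh)ᴴ * evU hBh) i k))
  linarith [hp]

theorem trPowAt_le_of_pair {r : ℝ} (hr : 1 ≤ r) {A B : Matrix (Fin N) (Fin N) ℂ}
    (hA : A.PosSemidef) (hB : B.PosDef) {e : ℝ}
    (h : (mfun (fun t => t ^ (r - 1)) B * B).trace.re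
      ≤ (mfun (fun t => t ^ (r - 1)) B * A).trace.re + e) :
    trPowAt r B ≤ trPowAt r A + r * e := by
  have hAh := hA.1
  have hBh := hB.1
  have eA := trace_pair_sq (fun t => t ^ (r - 1)) (fun t => t) hBh hAh
  rw [mfun_id hAh] at eA
  have eB : (mfun (fun t => t ^ (r - 1)) B * B).trace.re = ∑ i, hBh.eigenvalues i ^ r := by
    conv_lhs => arg 1; arg 1; arg 2; rw [← mfun_id hBh]
    rw [mfun_mul _ _ hBh, trace_mfun _ hBh]
    refine Finset.sum_congr rfl fun i _ => ?_
    rw [← Real.rpow_add_one (hB.eigenvalues_pos i).ne', sub_add_cancel]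
  obtain ⟨hb, ha⟩ := col_row hBh hAh (fun t => t ^ r) (fun t => t ^ r)
  have hy : (mfun (fun t => t ^ (r - 1)) B * A).trace.re
      ≤ (1 - 1 / r) * trPowAt r B + 1 / r * trPowAt r A := by
    rw [eA, trPowAt_eq hBh, trPowAt_eq hAh, ← ha, ← hb, Finset.mul_sum, Finset.mul_sum,
      ← Finset.sum_add_distrib]
    refine Finset.sum_le_sum fun i _ => ?_
    rw [Finset.mul_sum, Finset.mul_sum, ← Finset.sum_add_distrib]
    refine Finset.sum_le_sum fun k _ => ?_
    have hp := mul_le_mul_of_nonneg_left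
      (rpow_young hr (hA.eigenvalues_nonneg k) (hB.eigenvalues_pos i).le)
      (Complex.normSq_nonneg (((evU hBh)ᴴ * evU hAh) i k))
    linarith [hp]
  rw [eB, ← trPowAt_eq hBh] at h
  have hr0 : 0 < r := by linarith
  have hkey : 1 / r * trPowAt r B ≤ 1 / r * trPowAt r A + e := by linarith
  have := mul_le_mul_of_nonneg_left hkey hr0.le
  rw [mul_add, ← mul_assoc, ← mul_assoc, mul_one_div_cancel hr0.ne', one_mul, one_mul] at this
  exact this

theorem trPowAt_nonneg {r : ℝ} {A : Matrix (Fin N) (Fin N) ℂ} (hA : A.PosSemidef) :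
    0 ≤ trPowAt r A := by
  rw [trPowAt_eq hA.1]
  exact Finset.sum_nonneg fun i _ => Real.rpow_nonneg (hA.eigenvalues_nonneg i) r

theorem trPowAt_contract {r : ℝ} (hr : 1 ≤ r) {C : Matrix (Fin N) (Fin m) ℂ}
    {W : Matrix (Fin m) (Fin m) ℂ} (hC : (1 - Cᴴ * C).PosSemidef) (hW : W.PosSemidef) :
    trPowAt r (C * W * Cᴴ) ≤ trPowAt r W := by
  set V := C * W * Cᴴ with hV
  have hVp : V.PosSemidef := hW.mul_mul_conjTranspose_same C
  have hVh := hVp.1
  have hWh := hW.1
  set M := (evU hVh)ᴴ * C * evU hWh with hM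
  have hMc : (1 - Mᴴ * M).PosSemidef := conj_contraction (evU_right hVh) (evU_left hWh) hC
  have hrow : ∀ i, ∑ k, Complex.normSq (M i k) ≤ 1 := normSq_row_le (posSemidef_flip hMc)
  have hcol : ∀ k, ∑ i, Complex.normSq (M i k) ≤ 1 := fun k => by
    have := normSq_row_le (C := Mᴴ) (by rwa [conjTranspose_conjTranspose]) k
    simpa [Complex.normSq_conj] using this
  have e : (mfun (fun t => t ^ (r - 1)) V * V).trace.re = trPowAt r V := by
    conv_lhs => arg 1; arg 1; arg 2; rw [← mfun_id hVh]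
    rw [mfun_mul _ _ hVh, trace_mfun _ hVh, trPowAt_eq hVh]
    refine Finset.sum_congr rfl fun i _ => ?_
    rw [← Real.rpow_add_one' (hVp.eigenvalues_nonneg i) (by linarith), sub_add_cancel]
  have e2 := trace_pair (fun t => t ^ (r - 1)) (fun t => t) hVh hWh C
  rw [mfun_id hWh] at e2
  have hy : trPowAt r V ≤ (1 - 1 / r) * trPowAt r V + 1 / r * trPowAt r W := by
    have e3 : (mfun (fun t => t ^ (r - 1)) V * V).trace.re =
        (mfun (fun t => t ^ (r - 1)) V * C * W * Cᴴ).trace.re := by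
      rw [Matrix.mul_assoc _ C W, Matrix.mul_assoc _ (C * W), ← hV]
    conv_lhs => rw [← e, e3, e2]
    refine (Finset.sum_le_sum fun i _ => Finset.sum_le_sum fun k _ =>
      mul_le_mul_of_nonneg_left (rpow_young hr (hW.eigenvalues_nonneg k) (hVp.eigenvalues_nonneg i))
        (Complex.normSq_nonneg _)).trans ?_
    simp only [mul_add, Finset.sum_add_distrib]
    refine add_le_add ?_ ?_
    · rw [trPowAt_eq hVh, Finset.mul_sum]
      refine Finset.sum_le_sum fun i _ => ?_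
      rw [← Finset.sum_mul]
      exact mul_le_of_le_one_left (mul_nonneg (by rw [sub_nonneg, div_le_one (by linarith)]; exact hr)
        (Real.rpow_nonneg (hVp.eigenvalues_nonneg i) r)) (hrow i)
    · rw [trPowAt_eq hWh, Finset.mul_sum, Finset.sum_comm]
      refine Finset.sum_le_sum fun k _ => ?_
      rw [← Finset.sum_mul]
      exact mul_le_of_le_one_left (mul_nonneg (by positivity)
        (Real.rpow_nonneg (hW.eigenvalues_nonneg k) r)) (hcol k)
  have hr0 : 0 < r := by linarith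
  have hkey : 1 / r * trPowAt r V ≤ 1 / r * trPowAt r W := by linarith
  exact le_of_mul_le_mul_left hkey (by positivity)

theorem trPowAt_shift {r δ ε : ℝ} (hr : 0 < r) (hδ : 0 < δ) (hε : 0 < ε)
    {V : Matrix (Fin N) (Fin N) ℂ} (hV : V.PosSemidef) :
    trPowAt r (V + (ε : ℂ) • 1) ≤
      (1 + δ) ^ r * trPowAt r V + N * ((1 + 1 / δ) ^ r * ε ^ r) := by
  have e : V + (ε : ℂ) • 1 =
      evU hV.1 * diagonal (fun i => ((hV.1.eigenvalues i + ε : ℝ) : ℂ)) * (evU hV.1)ᴴ := by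
    have h2 : diagonal (fun i => ((hV.1.eigenvalues i + ε : ℝ) : ℂ)) =
        diagonal (fun i => (hV.1.eigenvalues i : ℂ)) + (ε : ℂ) • 1 := by
      rw [Matrix.smul_one_eq_diagonal, diagonal_add]
      simp
    rw [h2, Matrix.mul_add, Matrix.add_mul, Matrix.mul_smul, Matrix.smul_mul, Matrix.mul_one,
      evU_right hV.1, ← mfun_eq (fun t => t) hV.1, mfun_id hV.1]
  rw [e, trPowAt_conj_diag (evU_left hV.1), trPowAt_eq hV.1]
  refine (Finset.sum_le_sum fun i _ =>
    rpow_shift hr hδ hε (hV.eigenvalues_nonneg i)).trans (le_of_eq ?_)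
  rw [Finset.sum_add_distrib, Finset.mul_sum]
  simp

theorem trPowAt_sq {r : ℝ} {A : Matrix (Fin N) (Fin N) ℂ} (hA : A.PosDef) :
    trPowAt r (A * A) = ∑ i, hA.1.eigenvalues i ^ (2 * r) := by
  have e : A * A = evU hA.1 *
      diagonal (fun i => ((hA.1.eigenvalues i * hA.1.eigenvalues i : ℝ) : ℂ)) * (evU hA.1)ᴴ := by
    rw [← mfun_eq (fun t => t * t) hA.1, ← mfun_mul (fun t => t) (fun t => t) hA.1, mfun_id hA.1]
  rw [e, trPowAt_conj_diag (evU_left hA.1)]
  refine Finset.sum_congr rfl fun i _ => ?_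
  rw [← sq, ← Real.rpow_natCast _ 2, ← Real.rpow_mul (hA.eigenvalues_pos i).le]
  norm_num

theorem continuousOn_trPowAt {r : ℝ} (hr : 0 < r) {s : Set ℝ}
    {V : ℝ → Matrix (Fin N) (Fin N) ℂ} (hV : ∀ i j, ContinuousOn (fun x => V x i j) s)
    (hp : ∀ x ∈ s, (V x).PosSemidef) : ContinuousOn (fun x => trPowAt r (V x)) s := by
  intro x₀ hx₀
  have hcV : ContinuousWithinAt V s x₀ :=
    continuousWithinAt_pi.2 fun i => continuousWithinAt_pi.2 fun j => hV i j x₀ hx₀
  have htr : ContinuousWithinAt (fun x => (V x).trace.re) s x₀ :=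
    (Complex.continuous_re.comp (continuous_id.matrix_trace)).continuousAt.comp_continuousWithinAt hcV
  set M := (V x₀).trace.re + 1 with hM
  refine continuousWithinAt_of_locally_uniform_approx_of_continuousWithinAt hx₀ fun u hu => ?_
  obtain ⟨e, he, heu⟩ := Metric.mem_uniformity_dist.1 hu
  obtain ⟨p, hpp⟩ := exists_polynomial_near_of_continuousOn 0 M (fun t => t ^ r)
    (Real.continuous_rpow_const hr.le).continuousOn (e / (N + 1)) (by positivity)
  refine ⟨{x | (V x).trace.re < M} ∩ s, ?_,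
    fun x => ∑ k ∈ Finset.range (p.natDegree + 1), p.coeff k * ((V x) ^ k).trace.re, ?_, ?_⟩
  · exact inter_mem (htr.eventually_lt continuousWithinAt_const (by linarith))
      self_mem_nhdsWithin
  · refine tendsto_finsetSum _ fun k _ => Tendsto.const_mul _ ?_
    exact (Complex.continuous_re.comp ((continuous_pow k).matrix_trace)).continuousAt.tendsto.comp
      hcV
  · rintro x ⟨hxM, hxs⟩
    refine heu ?_
    have hh := (hp x hxs).1
    have hsum : ∑ k ∈ Finset.range (p.natDegree + 1), p.coeff k * ((V x) ^ k).trace.re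
        = ∑ i, p.eval (hh.eigenvalues i) := by
      simp only [pow_eq_mfun hh, trace_mfun _ hh, Finset.mul_sum]
      rw [Finset.sum_comm]
      exact Finset.sum_congr rfl fun i _ => (Polynomial.eval_eq_sum_range _).symm
    simp only [Real.dist_eq]
    rw [hsum, trPowAt_eq hh, ← Finset.sum_sub_distrib]
    have hle : ∀ i, hh.eigenvalues i ≤ M := fun i => by
      have h1 : hh.eigenvalues i ≤ ∑ k, hh.eigenvalues k :=
        Finset.single_le_sum (fun k _ => (hp x hxs).eigenvalues_nonneg k) (Finset.mem_univ i)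
      have h2 : (V x).trace.re = ∑ k, hh.eigenvalues k := by
        have h := trace_mfun (fun t => t) hh
        rwa [mfun_id hh] at h
      linarith [show (V x).trace.re < M from hxM]
    refine (Finset.abs_sum_le_sum_abs _ _).trans_lt ?_
    refine (Finset.sum_le_card_nsmul _ _ (e / (N + 1)) fun i _ => ?_).trans_lt ?_
    · rw [abs_sub_comm]
      exact (hpp _ ⟨(hp x hxs).eigenvalues_nonneg i, hle i⟩).le
    · simp only [Finset.card_univ, Fintype.card_fin, nsmul_eq_mul]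
      rw [mul_div_assoc', div_lt_iff₀ (by positivity)]
      nlinarith

end Vale.Agent.P371.All
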