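import Vale.Agent.P371.All.Defs
import Vale.Agent.P371.All.TraceTools

/-!
# P371: from continuous potentials on an interval to general potentials (K8)
-/

namespace Vale.Agent.P371.All

open Matrix MeasureTheory Set Filter
open scoped ComplexOrder ComplexConjugate Topology

variable {N m : ℕ}

namespace Approx

/-! ### The entrywise `ℓ¹` size of a matrix -/

/-- `∑ |A a b|`. -/
noncomputable def ent (A : Matrix (Fin N) (Fin N) ℂ) : ℝ := ∑ a, ∑ b, ‖A a b‖

lemma ent_nonneg (A : Matrix (Fin N) (Fin N) ℂ) : 0 ≤ ent A :=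
  Finset.sum_nonneg fun _ _ => Finset.sum_nonneg fun _ _ => norm_nonneg _

lemma norm_entry_le_ent (A : Matrix (Fin N) (Fin N) ℂ) (a b : Fin N) : ‖A a b‖ ≤ ent A :=
  (Finset.single_le_sum (f := fun b => ‖A a b‖) (fun _ _ => norm_nonneg _)
    (Finset.mem_univ b)).trans
    (Finset.single_le_sum (f := fun a => ∑ b, ‖A a b‖)
      (fun _ _ => Finset.sum_nonneg fun _ _ => norm_nonneg _) (Finset.mem_univ a))

lemma ent_add_le (A B : Matrix (Fin N) (Fin N) ℂ) : ent (A + B) ≤ ent A + ent B := by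
  unfold ent
  simp only [← Finset.sum_add_distrib, Matrix.add_apply]
  exact Finset.sum_le_sum fun _ _ => Finset.sum_le_sum fun _ _ => norm_add_le _ _

lemma ent_neg (A : Matrix (Fin N) (Fin N) ℂ) : ent (-A) = ent A := by simp [ent]

lemma ent_smul_one_le {c : ℝ} (hc : 0 ≤ c) :
    ent ((c : ℂ) • (1 : Matrix (Fin N) (Fin N) ℂ)) ≤ N * c := by
  unfold ent
  simp [Matrix.one_apply, apply_ite, abs_of_nonneg hc]

lemma ent_le_of_entry {A : Matrix (Fin N) (Fin N) ℂ} {c : ℝ} (h : ∀ a b, ‖A a b‖ ≤ c) :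
    ent A ≤ (N : ℝ) ^ 2 * c := by
  refine (Finset.sum_le_sum fun a _ => Finset.sum_le_sum fun b _ => h a b).trans (le_of_eq ?_)
  simp
  ring

lemma abs_trace_mul_le (X Y : Matrix (Fin N) (Fin N) ℂ) :
    |(X * Y).trace.re| ≤ ent X * ent Y := by
  refine (Complex.abs_re_le_norm _).trans ?_
  rw [ent, Finset.sum_mul, Matrix.trace]
  refine (norm_sum_le _ _).trans (Finset.sum_le_sum fun a _ => ?_)
  rw [Finset.sum_mul, diag_apply, Matrix.mul_apply]
  refine (norm_sum_le _ _).trans (Finset.sum_le_sum fun b _ => ?_)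
  rw [norm_mul]
  exact mul_le_mul_of_nonneg_left (norm_entry_le_ent Y b a) (norm_nonneg _)

lemma abs_qf_le_ent (A : Matrix (Fin N) (Fin N) ℂ) (v : Fin N → ℂ) :
    |General.qf A v| ≤ ent A * General.nsq v := by
  rw [General.qf_eq_sum, ent, Finset.sum_mul]
  refine (Finset.abs_sum_le_sum_abs _ _).trans (Finset.sum_le_sum fun i _ => ?_)
  rw [Finset.sum_mul]
  refine (Finset.abs_sum_le_sum_abs _ _).trans (Finset.sum_le_sum fun j _ => ?_)
  refine (Complex.abs_re_le_norm _).trans ?_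
  have hle : ∀ i, ‖v i‖ ^ 2 ≤ General.nsq v := fun i => by
    rw [← Complex.normSq_eq_norm_sq]
    exact Finset.single_le_sum (f := fun i => Complex.normSq (v i))
      (fun i _ => Complex.normSq_nonneg _) (Finset.mem_univ i)
  rw [norm_mul, norm_mul, Complex.norm_conj, mul_comm ‖v i‖, mul_assoc]
  refine mul_le_mul_of_nonneg_left ?_ (norm_nonneg _)
  nlinarith [sq_nonneg (‖v i‖ - ‖v j‖), hle i, hle j]

lemma entry_diag_le {U : Matrix (Fin N) (Fin N) ℂ} (hU : U ∈ Matrix.unitaryGroup (Fin N) ℂ)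
    (d : Fin N → ℂ) (a b : Fin N) : ‖(U * diagonal d * Uᴴ) a b‖ ≤ ∑ k, ‖d k‖ := by
  rw [Matrix.mul_apply]
  refine (norm_sum_le _ _).trans (Finset.sum_le_sum fun k _ => ?_)
  rw [Matrix.mul_diagonal, conjTranspose_apply, norm_mul, norm_mul, norm_star]
  have ha := entry_norm_bound_of_unitary hU a k
  have hb := entry_norm_bound_of_unitary hU b k
  calc ‖U a k‖ * ‖d k‖ * ‖U b k‖ ≤ 1 * ‖d k‖ * 1 := by gcongr
    _ = ‖d k‖ := by ring

lemma ent_mfun_le (φ : ℝ → ℝ) {A : Matrix (Fin N) (Fin N) ℂ} (hA : A.IsHermitian) :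
    ent (mfun φ A) ≤ (N : ℝ) ^ 2 * ∑ k, |φ (hA.eigenvalues k)| := by
  refine ent_le_of_entry fun a b => ?_
  rw [mfun, dif_pos hA]
  refine (entry_diag_le hA.eigenvectorUnitary.2 _ a b).trans (le_of_eq ?_)
  simp

lemma sum_eigenvalues_le_ent {A : Matrix (Fin N) (Fin N) ℂ} (hA : A.IsHermitian) :
    ∑ k, hA.eigenvalues k ≤ ent A := by
  have h : (∑ k, hA.eigenvalues k) = A.trace.re := by
    rw [hA.trace_eq_sum_eigenvalues]
    simp
  rw [h, Matrix.trace, Complex.re_sum]
  refine Finset.sum_le_sum fun a _ => (Complex.re_le_norm _).trans ?_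
  exact Finset.single_le_sum (f := fun b => ‖A a b‖) (fun _ _ => norm_nonneg _) (Finset.mem_univ a)

lemma ent_mfun_rpow_le {r : ℝ} (hr : 1 ≤ r) {B : Matrix (Fin N) (Fin N) ℂ} (hB : B.PosSemidef) :
    ent (mfun (fun t => t ^ (r - 1)) B) ≤ (N : ℝ) ^ 3 * ent B ^ (r - 1) := by
  refine (ent_mfun_le _ hB.isHermitian).trans ?_
  have h : ∀ k, |hB.isHermitian.eigenvalues k ^ (r - 1)| ≤ ent B ^ (r - 1) := fun k => by
    rw [abs_of_nonneg (Real.rpow_nonneg (hB.eigenvalues_nonneg k) _)]
    refine Real.rpow_le_rpow (hB.eigenvalues_nonneg k) ?_ (by linarith)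
    exact (Finset.single_le_sum (fun i _ => hB.eigenvalues_nonneg i)
      (Finset.mem_univ k)).trans (sum_eigenvalues_le_ent hB.isHermitian)
  refine (mul_le_mul_of_nonneg_left (Finset.sum_le_sum fun k _ => h k) (by positivity)).trans
    (le_of_eq ?_)
  simp
  ring

lemma ent_rpow_le_trPow {p : ℝ} (hp : 1 ≤ p) {A : Matrix (Fin N) (Fin N) ℂ} (hA : A.PosSemidef) :
    ent A ^ p ≤ ((N : ℝ) ^ 2) ^ p * (N : ℝ) ^ (p - 1) * trPowAt p A := by
  set lam := hA.isHermitian.eigenvalues with hlam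
  have h0 : ∀ k, 0 ≤ lam k := hA.eigenvalues_nonneg
  have he : ent A ≤ (N : ℝ) ^ 2 * ∑ k, lam k := by
    refine ent_le_of_entry fun a b => ?_
    have hs : A = (hA.isHermitian.eigenvectorUnitary : Matrix (Fin N) (Fin N) ℂ) *
        diagonal (fun i => (lam i : ℂ)) *
        (hA.isHermitian.eigenvectorUnitary : Matrix (Fin N) (Fin N) ℂ)ᴴ := by
      conv_lhs => rw [hA.isHermitian.spectral_theorem, Unitary.conjStarAlgAut_apply,
        star_eq_conjTranspose]
      rfl
    have h := entry_diag_le hA.isHermitian.eigenvectorUnitary.2 (fun i => (lam i : ℂ)) a b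
    rw [← hs] at h
    refine h.trans (le_of_eq (Finset.sum_congr rfl fun k _ => ?_))
    simp [abs_of_nonneg (h0 k)]
  have h1 : (∑ k, lam k) ^ p ≤ (N : ℝ) ^ (p - 1) * ∑ k, lam k ^ p := by
    simpa using Real.rpow_sum_le_const_mul_sum_rpow_of_nonneg (s := Finset.univ) hp
      fun k _ => h0 k
  rw [trPowAt, dif_pos hA.isHermitian, mul_assoc]
  refine (Real.rpow_le_rpow (ent_nonneg A) he (by linarith)).trans ?_
  rw [Real.mul_rpow (by positivity) (Finset.sum_nonneg fun k _ => h0 k)]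
  exact mul_le_mul_of_nonneg_left h1 (by positivity)

lemma add_rpow_le_two {a b p : ℝ} (ha : 0 ≤ a) (hb : 0 ≤ b) (hp : 0 ≤ p) :
    (a + b) ^ p ≤ (2 : ℝ) ^ p * (a ^ p + b ^ p) := by
  have hm : 0 ≤ max a b := ha.trans (le_max_left _ _)
  calc (a + b) ^ p ≤ (2 * max a b) ^ p := by
        refine Real.rpow_le_rpow (by positivity) ?_ hp
        linarith [le_max_left a b, le_max_right a b]
    _ = (2 : ℝ) ^ p * (max a b) ^ p := Real.mul_rpow zero_le_two hm
    _ ≤ _ := by
        refine mul_le_mul_of_nonneg_left ?_ (by positivity)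
        rcases le_total a b with h | h
        · rw [max_eq_right h]; linarith [Real.rpow_nonneg ha p]
        · rw [max_eq_left h]; linarith [Real.rpow_nonneg hb p]

lemma ent_rpow_triangle {p : ℝ} (hp : 0 ≤ p) (A B : Matrix (Fin N) (Fin N) ℂ) :
    ent A ^ p ≤ (2 : ℝ) ^ p * (ent (A - B) ^ p + ent B ^ p) := by
  refine le_trans ?_ (add_rpow_le_two (ent_nonneg _) (ent_nonneg _) hp)
  refine Real.rpow_le_rpow (ent_nonneg _) ?_ hp
  calc ent A = ent (A - B + B) := by rw [sub_add_cancel]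
    _ ≤ _ := ent_add_le _ _

lemma measurable_ent {M : ℝ → Matrix (Fin N) (Fin N) ℂ}
    (hM : ∀ a b, Measurable fun x => M x a b) : Measurable fun x => ent (M x) :=
  Finset.measurable_sum _ fun a _ => Finset.measurable_sum _ fun b _ => (hM a b).norm

lemma posSemidef_of_qf {A : Matrix (Fin N) (Fin N) ℂ} (hA : A.IsHermitian)
    (h : ∀ v, 0 ≤ General.qf A v) : A.PosSemidef := by
  refine PosSemidef.of_dotProduct_mulVec_nonneg hA fun v => Complex.le_def.2 ⟨h v, ?_⟩
  have him : RCLike.im (star v ⬝ᵥ A *ᵥ v) = 0 := hA.im_star_dotProduct_mulVec_self v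
  simpa using him.symm

lemma qf_nonneg_of_posSemidef {A : Matrix (Fin N) (Fin N) ℂ} (hA : A.PosSemidef)
    (v : Fin N → ℂ) : 0 ≤ General.qf A v :=
  (Complex.le_def.1 (hA.dotProduct_mulVec_nonneg v)).1

/-! ### Approximation of a potential -/

lemma exists_approx {p δ : ℝ} (hp : 1 ≤ p) (hδ : 0 < δ)
    {W : ℝ → Matrix (Fin m) (Fin m) ℂ} (hWm : ∀ a b, Measurable fun x => W x a b)
    (hW0 : ∀ x, (W x).PosSemidef) (hWi : Integrable fun x => ent (W x) ^ p) :
    ∃ L η : ℝ, 0 < L ∧ 0 < η ∧ ∃ V : ℝ → Matrix (Fin m) (Fin m) ℂ,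
      (∀ a b, Continuous fun x => V x a b) ∧ (∀ x, (V x - (η : ℂ) • 1).PosSemidef) ∧
      Integrable (fun x => ent (cutW L V x - W x) ^ p) ∧
      ∫ x, ent (cutW L V x - W x) ^ p ≤ δ := by
  have hp0 : 0 < p := by linarith
  set Wf : ℝ → Fin m → Fin m → ℂ := fun x a b => W x a b with hWf
  have hWfm : Measurable Wf :=
    measurable_pi_iff.2 fun a => measurable_pi_iff.2 fun b => hWm a b
  have hnorm : ∀ x, ‖Wf x‖ ≤ ent (W x) := fun x =>
    (pi_norm_le_iff_of_nonneg (ent_nonneg _)).2 fun a =>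
      (pi_norm_le_iff_of_nonneg (ent_nonneg _)).2 fun b => norm_entry_le_ent (W x) a b
  have hmem : MemLp Wf (ENNReal.ofReal p) volume := by
    rw [← integrable_norm_rpow_iff hWfm.aestronglyMeasurable (by simp [hp0]) ENNReal.ofReal_ne_top,
      ENNReal.toReal_ofReal hp0.le]
    refine hWi.mono' (hWfm.norm.pow_const p).aestronglyMeasurable
      (Eventually.of_forall fun x => ?_)
    rw [Real.norm_of_nonneg (by positivity)]
    exact Real.rpow_le_rpow (norm_nonneg _) (hnorm x) hp0.le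
  set C : ℝ := (1 + (m : ℝ) ^ 3) * (m : ℝ) ^ 2 with hC
  set ε : ℝ := δ / (2 * ((2 : ℝ) ^ p * (C ^ p + 1))) with hε
  have hε0 : 0 < ε := by positivity
  obtain ⟨G, hGsupp, hGε, hGc, hGmem⟩ :=
    hmem.exists_hasCompactSupport_integral_rpow_sub_le hp0 hε0
  obtain ⟨R, hR⟩ := hGsupp.isCompact.isBounded.subset_closedBall 0
  set L : ℝ := max R 1 with hL
  have hL0 : 0 < L := lt_of_lt_of_le one_pos (le_max_right _ _)
  have hout : ∀ x, x ∉ Icc (-L) L → G x = 0 := by
    intro x hx
    by_contra h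
    have h1 := hR (subset_tsupport _ h)
    rw [Metric.mem_closedBall, Real.dist_eq, sub_zero, abs_le] at h1
    exact hx ⟨by linarith [le_max_left R 1, h1.1], by linarith [le_max_left R 1, h1.2]⟩
  set Gs : ℝ → Fin m → Fin m → ℂ := fun x a b => (G x a b + conj (G x b a)) / 2 with hGs
  set P : Set (Fin m → Fin m → ℂ) := {X | (Matrix.of X).PosSemidef} with hP
  have hP0 : (0 : Fin m → Fin m → ℂ) ∈ P := (PosSemidef.zero : (0 : Matrix (Fin m) (Fin m) ℂ).PosSemidef)
  set c : ℝ → ℝ := fun x => (m : ℝ) ^ 2 * Metric.infDist (Gs x) P with hc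
  have hc0 : ∀ x, 0 ≤ c x := fun x => mul_nonneg (by positivity) Metric.infDist_nonneg
  set V1 : ℝ → Matrix (Fin m) (Fin m) ℂ := fun x => Matrix.of (Gs x) + (c x : ℂ) • 1 with hV1
  have hGsc : Continuous Gs := by
    refine continuous_pi fun a => continuous_pi fun b => ?_
    have h : ∀ a b, Continuous fun x => G x a b := fun a b =>
      (continuous_apply b).comp ((continuous_apply a).comp hGc)
    exact ((h a b).add (Complex.continuous_conj.comp (h b a))).div_const _
  have hcc : Continuous c :=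
    continuous_const.mul ((Metric.continuous_infDist_pt P).comp hGsc)
  have hV1c : ∀ a b, Continuous fun x => V1 x a b := fun a b => by
    simp only [hV1, Matrix.add_apply, Matrix.of_apply, Matrix.smul_apply, smul_eq_mul]
    exact ((continuous_apply b).comp ((continuous_apply a).comp hGsc)).add
      ((Complex.continuous_ofReal.comp hcc).mul continuous_const)
  have hV1h : ∀ x, (V1 x).IsHermitian := fun x => by
    ext a b
    simp only [hV1, hGs, conjTranspose_apply, Matrix.add_apply, Matrix.of_apply,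
      Matrix.smul_apply, Matrix.one_apply, smul_eq_mul, eq_comm (a := b) (b := a)]
    split_ifs <;> simp [Complex.conj_ofReal, add_comm]
  have hV1p : ∀ x, (V1 x).PosSemidef := fun x => by
    refine posSemidef_of_qf (hV1h x) fun v => ?_
    rw [hV1, General.qf_add, General.qf_smul, General.qf_one]
    set n := General.nsq v
    have hn : 0 ≤ n := General.nsq_nonneg v
    rcases le_or_gt 0 (General.qf (Matrix.of (Gs x)) v) with h | h
    · nlinarith [hc0 x]
    · set q := General.qf (Matrix.of (Gs x)) v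
      have hb : ∀ X ∈ P, -q ≤ (m : ℝ) ^ 2 * n * dist (Gs x) X := by
        intro X hX
        have h1 := abs_le.1 (abs_qf_le_ent (Matrix.of (Gs x) - Matrix.of X) v)
        rw [General.qf_sub] at h1
        have h2 : ent (Matrix.of (Gs x) - Matrix.of X) ≤ (m : ℝ) ^ 2 * dist (Gs x) X := by
          refine ent_le_of_entry fun a b => ?_
          rw [dist_eq_norm, Matrix.sub_apply, Matrix.of_apply, Matrix.of_apply]
          exact ((norm_le_pi_norm ((Gs x - X) a) b)).trans (norm_le_pi_norm (Gs x - X) a)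
        nlinarith [qf_nonneg_of_posSemidef hX v, h1.1, mul_le_mul_of_nonneg_right h2 hn]
      have hd : -q ≤ (m : ℝ) ^ 2 * n * Metric.infDist (Gs x) P := by
        rcases (show 0 ≤ (m : ℝ) ^ 2 * n by positivity).eq_or_lt with h0 | h0
        · have := hb 0 hP0
          rw [← h0, zero_mul] at this ⊢
          linarith
        · rw [← div_le_iff₀' h0, Metric.le_infDist ⟨0, hP0⟩]
          intro X hX
          rw [div_le_iff₀' h0]
          exact hb X hX
      simp only [hc]
      nlinarith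
  have hV1W : ∀ x, ent (V1 x - W x) ≤ C * ‖Wf x - G x‖ := fun x => by
    have hsym : ent (Matrix.of (Gs x) - W x) ≤ (m : ℝ) ^ 2 * ‖Wf x - G x‖ := by
      refine ent_le_of_entry fun a b => ?_
      have hab : ∀ a b, ‖W x a b - G x a b‖ ≤ ‖Wf x - G x‖ := fun a b =>
        (norm_le_pi_norm ((Wf x - G x) a) b).trans (norm_le_pi_norm (Wf x - G x) a)
      have hh : conj (W x b a) = W x a b := (hW0 x).isHermitian.apply a b
      have e : (Matrix.of (Gs x) - W x) a b
          = -((W x a b - G x a b) + conj (W x b a - G x b a)) / 2 := by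
        rw [map_sub, hh]
        simp only [hGs, Matrix.sub_apply, Matrix.of_apply]
        ring
      rw [e, norm_div, norm_neg, Complex.norm_two, div_le_iff₀ zero_lt_two]
      refine (norm_add_le _ _).trans ?_
      rw [Complex.norm_conj]
      linarith [hab a b, hab b a]
    have hd : Metric.infDist (Gs x) P ≤ ent (Matrix.of (Gs x) - W x) := by
      refine (Metric.infDist_le_dist_of_mem (y := Wf x) (show Wf x ∈ P from hW0 x)).trans ?_
      rw [dist_eq_norm]
      exact (pi_norm_le_iff_of_nonneg (ent_nonneg _)).2 fun a =>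
        (pi_norm_le_iff_of_nonneg (ent_nonneg _)).2 fun b =>
          norm_entry_le_ent (Matrix.of (Gs x) - W x) a b
    have e : V1 x - W x = (Matrix.of (Gs x) - W x) + (c x : ℂ) • 1 := by simp only [hV1]; abel
    rw [e]
    refine (ent_add_le _ _).trans ?_
    have h1 := ent_smul_one_le (N := m) (hc0 x)
    have h2 : c x ≤ (m : ℝ) ^ 2 * ent (Matrix.of (Gs x) - W x) :=
      mul_le_mul_of_nonneg_left hd (by positivity)
    have hm : (0 : ℝ) ≤ m := m.cast_nonneg
    have hm3 : (0 : ℝ) ≤ 1 + (m : ℝ) ^ 3 := by positivity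
    rw [hC]
    nlinarith [mul_le_mul_of_nonneg_left h2 hm, mul_le_mul_of_nonneg_left hsym hm3]
  set η : ℝ := (δ / (4 * L * (2 : ℝ) ^ p)) ^ (1 / p) / ((m : ℝ) + 1) with hη
  have hη0 : 0 < η := by positivity
  have hηb : (2 : ℝ) ^ p * ((2 * L) * ((m : ℝ) * η) ^ p) ≤ δ / 2 := by
    have h1 : (m : ℝ) * η ≤ (δ / (4 * L * (2 : ℝ) ^ p)) ^ (1 / p) := by
      rw [hη, mul_div_assoc']
      rw [div_le_iff₀ (by positivity)]
      nlinarith [Real.rpow_nonneg (show 0 ≤ δ / (4 * L * (2 : ℝ) ^ p) by positivity) (1 / p),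
        (m.cast_nonneg : (0 : ℝ) ≤ m)]
    have h2 := Real.rpow_le_rpow (by positivity) h1 hp0.le
    rw [← Real.rpow_mul (by positivity), one_div_mul_cancel hp0.ne', Real.rpow_one] at h2
    calc (2 : ℝ) ^ p * ((2 * L) * ((m : ℝ) * η) ^ p)
        ≤ (2 : ℝ) ^ p * ((2 * L) * (δ / (4 * L * (2 : ℝ) ^ p))) := by gcongr
      _ = δ / 2 := by field_simp; ring
  refine ⟨L, η, hL0, hη0, fun x => V1 x + (η : ℂ) • 1, fun a b => ?_, fun x => ?_, ?_⟩
  · simp only [Matrix.add_apply]
    exact (hV1c a b).add continuous_const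
  · rw [add_sub_cancel_right]
    exact hV1p x
  set V : ℝ → Matrix (Fin m) (Fin m) ℂ := fun x => V1 x + (η : ℂ) • 1 with hV
  have hVm : ∀ a b, Measurable fun x => cutW L V x a b := fun a b => by
    have e : (fun x => cutW L V x a b) = fun x => if x ∈ Icc (-L) L then V x a b else 0 := by
      funext x
      rw [cutW]
      split_ifs <;> rfl
    rw [e]
    exact Measurable.ite measurableSet_Icc ((hV1c a b).measurable.add measurable_const)
      measurable_const
  have hmeas : Measurable fun x => ent (cutW L V x - W x) ^ p :=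
    (measurable_ent fun a b => (hVm a b).sub (hWm a b)).pow_const p
  set B : ℝ → ℝ := fun x => (2 : ℝ) ^ p *
    (C ^ p * ‖Wf x - G x‖ ^ p + (Icc (-L) L).indicator (fun _ => ((m : ℝ) * η) ^ p) x) with hB
  have hle : ∀ x, ent (cutW L V x - W x) ^ p ≤ B x := fun x => by
    have h1 : ent (V1 x - W x) ^ p ≤ C ^ p * ‖Wf x - G x‖ ^ p := by
      rw [← Real.mul_rpow (by positivity) (norm_nonneg _)]
      exact Real.rpow_le_rpow (ent_nonneg _) (hV1W x) hp0.le
    have h2 : 0 < (2 : ℝ) ^ p := by positivity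
    by_cases hx : x ∈ Icc (-L) L
    · simp only [hB, indicator_of_mem hx, cutW, if_pos hx, hV]
      rw [show V1 x + (η : ℂ) • 1 - W x = (V1 x - W x) + (η : ℂ) • 1 by abel]
      refine (Real.rpow_le_rpow (ent_nonneg _) ((ent_add_le _ _).trans
        (add_le_add le_rfl (ent_smul_one_le hη0.le))) hp0.le).trans ?_
      refine (add_rpow_le_two (ent_nonneg _) (by positivity) hp0.le).trans ?_
      gcongr
    · have hz : V1 x = 0 := by
        have hg : Gs x = 0 := by
          funext a b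
          simp [hGs, hout x hx]
        ext a b
        simp [hV1, hc, hg, Metric.infDist_zero_of_mem hP0]
      simp only [hB, indicator_of_notMem hx, add_zero, cutW, if_neg hx]
      rw [← hz]
      exact h1.trans (le_mul_of_one_le_left (by positivity) (Real.one_le_rpow one_le_two hp0.le))
  have hi1 : Integrable (fun x => ‖Wf x - G x‖ ^ p) volume := by
    have h := (integrable_norm_rpow_iff (hmem.sub hGmem).aestronglyMeasurable (by simp [hp0])
      ENNReal.ofReal_ne_top).2 (hmem.sub hGmem)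
    simpa [ENNReal.toReal_ofReal hp0.le] using h
  have hi2 : Integrable ((Icc (-L) L).indicator fun _ => ((m : ℝ) * η) ^ p) volume :=
    (integrable_indicator_iff measurableSet_Icc).2
      (integrableOn_const (by rw [Real.volume_Icc]; exact ENNReal.ofReal_ne_top))
  have hBi : Integrable B volume := ((hi1.const_mul _).add hi2).const_mul _
  have hint : Integrable (fun x => ent (cutW L V x - W x) ^ p) volume :=
    hBi.mono' hmeas.aestronglyMeasurable (Eventually.of_forall fun x => by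
      rw [Real.norm_of_nonneg (Real.rpow_nonneg (ent_nonneg _) p)]
      exact hle x)
  refine ⟨hint, (integral_mono hint hBi hle).trans ?_⟩
  simp only [hB]
  rw [integral_const_mul, integral_add (hi1.const_mul _) hi2, integral_const_mul,
    integral_indicator measurableSet_Icc, setIntegral_const, Real.volume_real_Icc_of_le (by linarith),
    smul_eq_mul, mul_add, show L - -L = 2 * L by ring]
  have h3 : (2 : ℝ) ^ p * (C ^ p * ∫ x, ‖Wf x - G x‖ ^ p) ≤ δ / 2 := by
    refine (mul_le_mul_of_nonneg_left (mul_le_mul_of_nonneg_left hGε (by positivity))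
      (by positivity)).trans ?_
    have hCp : 0 ≤ C ^ p := by positivity
    calc (2 : ℝ) ^ p * (C ^ p * ε) ≤ (2 : ℝ) ^ p * ((C ^ p + 1) * ε) := by gcongr; linarith
      _ = δ / 2 := by rw [hε]; field_simp
  linarith

/-! ### The form matrix -/

lemma h1_bounded {f f' : ℝ → ℂ} (hf : IsH1 f f') : ∃ C, 0 ≤ C ∧ ∀ x, ‖f x‖ ≤ C := by
  obtain ⟨hd, hc', hf2, hf'2⟩ := hf
  have hc : Continuous f := continuous_iff_continuousAt.2 fun x => (hd x).continuousAt
  set D : ℝ → ℂ := fun x => f' x * conj (f x) + f x * conj (f' x) with hD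
  have hi : Integrable D volume := (hf'2.integrable_mul hf2.star).add (hf2.integrable_mul hf'2.star)
  have hDc : Continuous D :=
    (hc'.mul (Complex.continuous_conj.comp hc)).add (hc.mul (Complex.continuous_conj.comp hc'))
  refine ⟨‖f 0‖ ^ 2 + (∫ x, ‖D x‖) + 1, ?_, fun x => ?_⟩
  · have : 0 ≤ ∫ x, ‖D x‖ := integral_nonneg fun _ => norm_nonneg _
    positivity
  · have h := intervalIntegral.integral_eq_sub_of_hasDerivAt (a := 0) (b := x)
      (f := fun y => f y * conj (f y)) (f' := D) (fun y _ => (hd y).mul (hd y).star)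
      (hDc.intervalIntegrable _ _)
    have h2 : ‖∫ y in (0 : ℝ)..x, D y‖ ≤ ∫ y, ‖D y‖ :=
      intervalIntegral.norm_integral_le_integral_norm_uIoc.trans
        (setIntegral_le_integral hi.norm (Eventually.of_forall fun _ => norm_nonneg _))
    have h3 : ‖f x‖ ^ 2 ≤ ‖f 0‖ ^ 2 + ∫ y, ‖D y‖ := by
      have e : f x * conj (f x) = f 0 * conj (f 0) + ∫ y in (0 : ℝ)..x, D y := by rw [h]; ring
      have h4 := norm_add_le (f 0 * conj (f 0)) (∫ y in (0 : ℝ)..x, D y)
      rw [← e, norm_mul, Complex.norm_conj, norm_mul, Complex.norm_conj] at h4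
      rw [sq, sq]
      linarith
    nlinarith [sq_nonneg (‖f x‖ - 1)]

/-- The total density of a finite family. -/
noncomputable def fam (f : Fin N → ℝ → Fin m → ℂ) (x : ℝ) : ℝ := ∑ i, (∑ a, ‖f i x a‖) ^ 2

lemma fam_nonneg (f : Fin N → ℝ → Fin m → ℂ) (x : ℝ) : 0 ≤ fam f x :=
  Finset.sum_nonneg fun _ _ => sq_nonneg _

lemma fam_bounds {f f' : Fin N → ℝ → Fin m → ℂ} (hf : ∀ i, IsH1V (f i) (f' i)) :
    Integrable (fam f) volume ∧ ∃ B, 0 ≤ B ∧ ∀ x, fam f x ≤ B := by
  constructor
  · refine integrable_finsetSum _ fun i _ => ?_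
    have h : MemLp (fun x => ∑ a, ‖f i x a‖) 2 volume :=
      memLp_finsetSum _ fun a _ => (hf i a).2.2.1.norm
    exact h.integrable_sq
  · choose C hC0 hC using fun i a => h1_bounded (hf i a)
    exact ⟨∑ i, (∑ a, C i a) ^ 2, Finset.sum_nonneg fun _ _ => sq_nonneg _, fun x =>
      Finset.sum_le_sum fun i _ => pow_le_pow_left₀
        (Finset.sum_nonneg fun _ _ => norm_nonneg _) (Finset.sum_le_sum fun a _ => hC i a x) 2⟩

lemma le_split {p δ t : ℝ} (hp : 1 ≤ p) (hδ : 0 < δ) (ht : 0 ≤ t) :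
    t ≤ δ + δ ^ (1 - p) * t ^ p := by
  rcases le_or_gt t δ with h | h
  · have : 0 ≤ δ ^ (1 - p) * t ^ p := by positivity
    linarith
  · have ht0 : 0 < t := hδ.trans h
    have h1 : t ^ (1 - p) ≤ δ ^ (1 - p) := Real.rpow_le_rpow_of_nonpos hδ h.le (by linarith)
    have h2 : t = t ^ (1 - p) * t ^ p := by
      rw [← Real.rpow_add ht0, sub_add_cancel, Real.rpow_one]
    calc t = t ^ (1 - p) * t ^ p := h2
      _ ≤ δ ^ (1 - p) * t ^ p := mul_le_mul_of_nonneg_right h1 (by positivity)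
      _ ≤ _ := le_add_of_nonneg_left hδ.le

lemma pair_split {p δ S T : ℝ} (hp : 1 ≤ p) (hδ : 0 < δ) (hS : 0 ≤ S) (hT : 0 ≤ T) :
    S ^ (p - 1) * T ≤ δ * S ^ p + δ ^ (1 - p) * T ^ p := by
  rcases le_or_gt T (δ * S) with h | h
  · have h1 : S ^ (p - 1) * T ≤ δ * S ^ p := by
      refine (mul_le_mul_of_nonneg_left h (by positivity)).trans (le_of_eq ?_)
      rcases hS.eq_or_lt with h0 | h0
      · rw [← h0, Real.zero_rpow (show p ≠ 0 by linarith)]; simp
      · conv_rhs => rw [show p = p - 1 + 1 by ring, Real.rpow_add h0, Real.rpow_one]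
        ring
    have : 0 ≤ δ ^ (1 - p) * T ^ p := by positivity
    linarith
  · have hT0 : 0 < T := lt_of_le_of_lt (by positivity) h
    have h1 : S ≤ T / δ := by rw [le_div_iff₀ hδ]; linarith
    have h2 : S ^ (p - 1) * T ≤ δ ^ (1 - p) * T ^ p := by
      refine (mul_le_mul_of_nonneg_right (Real.rpow_le_rpow hS h1 (by linarith)) hT).trans
        (le_of_eq ?_)
      rw [Real.div_rpow hT hδ.le, show (1 - p) = -(p - 1) by ring, Real.rpow_neg hδ.le]
      conv_rhs => rw [show p = p - 1 + 1 by ring, Real.rpow_add hT0, Real.rpow_one]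
      rw [show p - 1 + 1 - 1 = p - 1 by ring]
      field_simp
    have : 0 ≤ δ * S ^ p := by positivity
    linarith

lemma form_bound {p : ℝ} (hp : 1 ≤ p) {M : ℝ → Matrix (Fin m) (Fin m) ℂ}
    (hMm : ∀ a b, Measurable fun x => M x a b) (hMi : Integrable fun x => ent (M x) ^ p)
    {f f' : Fin N → ℝ → Fin m → ℂ} (hf : ∀ i, IsH1V (f i) (f' i)) {B : ℝ}
    (hB : ∀ x, fam f x ≤ B) (i j : Fin N) :
    Integrable (fun x => ∑ a, conj (f i x a) * (M x *ᵥ f j x) a) volume ∧
    ∀ δ, 0 < δ → ‖∫ x, ∑ a, conj (f i x a) * (M x *ᵥ f j x) a‖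
      ≤ δ * (∫ x, fam f x) + δ ^ (1 - p) * (B * ∫ x, ent (M x) ^ p) := by
  have hfm : ∀ i a, Continuous fun x => f i x a := fun i a =>
    continuous_iff_continuousAt.2 fun x => ((hf i a).1 x).continuousAt
  set g : ℝ → ℂ := fun x => ∑ a, conj (f i x a) * (M x *ᵥ f j x) a with hg
  have hgm : Measurable g := by
    simp only [hg, mulVec, dotProduct]
    exact Finset.measurable_sum _ fun a _ => (Complex.continuous_conj.comp (hfm i a)).measurable.mul
      (Finset.measurable_sum _ fun b _ => (hMm a b).mul (hfm j b).measurable)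
  have hgle : ∀ x, ‖g x‖ ≤ ent (M x) * fam f x := fun x => by
    set u : Fin N → ℝ := fun i => ∑ a, ‖f i x a‖ with hu
    have hu0 : ∀ i, 0 ≤ u i := fun i => Finset.sum_nonneg fun _ _ => norm_nonneg _
    have h1 : ‖g x‖ ≤ ent (M x) * (u i * u j) := by
      have hi' : ∀ a, ‖f i x a‖ ≤ u i := fun a => Finset.single_le_sum
        (f := fun a => ‖f i x a‖) (fun _ _ => norm_nonneg _) (Finset.mem_univ a)
      have hj' : ∀ a, ‖f j x a‖ ≤ u j := fun a => Finset.single_le_sum
        (f := fun a => ‖f j x a‖) (fun _ _ => norm_nonneg _) (Finset.mem_univ a)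
      rw [ent, Finset.sum_mul]
      refine (norm_sum_le _ _).trans (Finset.sum_le_sum fun a _ => ?_)
      rw [mulVec, dotProduct, Finset.mul_sum, Finset.sum_mul]
      refine (norm_sum_le _ _).trans (Finset.sum_le_sum fun b _ => ?_)
      rw [norm_mul, norm_mul, Complex.norm_conj, ← mul_assoc, mul_comm ‖f i x a‖, mul_assoc]
      exact mul_le_mul_of_nonneg_left
        (mul_le_mul (hi' a) (hj' b) (norm_nonneg _) (hu0 i)) (norm_nonneg _)
    refine h1.trans (mul_le_mul_of_nonneg_left ?_ (ent_nonneg _))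
    have h2 : ∀ i, u i ^ 2 ≤ fam f x := fun i =>
      Finset.single_le_sum (f := fun i => u i ^ 2) (fun _ _ => sq_nonneg _) (Finset.mem_univ i)
    nlinarith [sq_nonneg (u i - u j), h2 i, h2 j]
  obtain ⟨hFi, -⟩ := fam_bounds hf
  have hB0 : 0 ≤ B := (fam_nonneg f 0).trans (hB 0)
  have hdom : ∀ δ, 0 < δ → ∀ x,
      ‖g x‖ ≤ δ * fam f x + δ ^ (1 - p) * (B * ent (M x) ^ p) := fun δ hδ x => by
    refine (hgle x).trans ?_
    refine (mul_le_mul_of_nonneg_right (le_split hp hδ (ent_nonneg (M x))) (fam_nonneg f x)).trans ?_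
    rw [add_mul, mul_assoc (δ ^ (1 - p))]
    refine add_le_add le_rfl (mul_le_mul_of_nonneg_left ?_ (by positivity))
    rw [mul_comm B]
    exact mul_le_mul_of_nonneg_left (hB x) (Real.rpow_nonneg (ent_nonneg _) p)
  have hbi : ∀ δ : ℝ, Integrable (fun x => δ * fam f x + δ ^ (1 - p) * (B * ent (M x) ^ p)) :=
    fun δ => (hFi.const_mul δ).add ((hMi.const_mul B).const_mul _)
  refine ⟨(hbi 1).mono' hgm.aestronglyMeasurable (Eventually.of_forall (hdom 1 one_pos)),
    fun δ hδ => ?_⟩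
  refine (norm_integral_le_of_norm_le (hbi δ) (Eventually.of_forall (hdom δ hδ))).trans (le_of_eq ?_)
  rw [integral_add (hFi.const_mul δ) ((hMi.const_mul B).const_mul _)]
  simp only [integral_const_mul]

lemma formMat_isHermitian {W : ℝ → Matrix (Fin m) (Fin m) ℂ} (hW : ∀ x, (W x).IsHermitian)
    (f f' : Fin N → ℝ → Fin m → ℂ) : (formMat W f f').IsHermitian := by
  ext i j
  simp only [formMat, conjTranspose_apply, Matrix.of_apply, Complex.star_def, map_sub,
    ← integral_conj]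
  congr 1
  · refine integral_congr_ae (Eventually.of_forall fun x => ?_)
    simp only [mulVec, dotProduct, map_sum, Finset.mul_sum, map_mul, Complex.conj_conj]
    rw [Finset.sum_comm]
    refine Finset.sum_congr rfl fun a _ => Finset.sum_congr rfl fun b _ => ?_
    have hh : conj (W x b a) = W x a b := (hW x).apply a b
    rw [hh]
    ring
  · refine integral_congr_ae (Eventually.of_forall fun x => ?_)
    simp only [map_sum, map_mul, Complex.conj_conj]
    exact Finset.sum_congr rfl fun a _ => mul_comm _ _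

lemma exists_qf_lower {A : Matrix (Fin N) (Fin N) ℂ} (hA : A.PosDef) :
    ∃ c, 0 < c ∧ ∀ v, c * General.nsq v ≤ General.qf A v := by
  obtain ⟨C, hC, hb⟩ := General.exists_qf_bound A⁻¹
  refine ⟨1 / (C + 1), by positivity, fun v => ?_⟩
  have h := General.qf_inv_ge hA v (((C + 1 : ℝ) : ℂ) • v)
  have e1 : (star v ⬝ᵥ (((C + 1 : ℝ) : ℂ) • v)).re = (C + 1) * General.nsq v := by
    rw [← General.qf_one v, ← General.qf_smul, General.qf, smul_mulVec, one_mulVec]
  have e2 : General.qf A (((C + 1 : ℝ) : ℂ) • v) = (C + 1) ^ 2 * General.qf A v := by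
    simp only [General.qf, mulVec_smul, dotProduct_smul, star_smul, smul_dotProduct, smul_eq_mul,
      Complex.star_def, Complex.conj_ofReal]
    rw [← mul_assoc, ← Complex.ofReal_mul, Complex.re_ofReal_mul]
    ring
  rw [e1, e2] at h
  have hn := General.nsq_nonneg v
  have hu := (abs_le.1 (hb v)).2
  rw [div_mul_eq_mul_div, div_le_iff₀ (by positivity), one_mul]
  refine le_of_mul_le_mul_left ?_ (show 0 < C + 1 by positivity)
  nlinarith

lemma posDef_of_qf {A : Matrix (Fin N) (Fin N) ℂ} (hA : A.IsHermitian) {c : ℝ} (hc : 0 < c)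
    (h : ∀ v, c * General.nsq v ≤ General.qf A v) :
    A.PosDef ∧ ∀ k, c ≤ hA.eigenvalues k := by
  refine ⟨?_, fun k => ?_⟩
  · refine PosDef.of_dotProduct_mulVec_pos hA fun v hv => ?_
    have hn : 0 < General.nsq v := by
      obtain ⟨i, hi⟩ := Function.ne_iff.1 hv
      exact lt_of_lt_of_le (Complex.normSq_pos.2 hi) (Finset.single_le_sum
        (f := fun i => Complex.normSq (v i)) (fun i _ => Complex.normSq_nonneg _) (Finset.mem_univ i))
    refine Complex.lt_def.2 ⟨lt_of_lt_of_le (mul_pos hc hn) (h v), ?_⟩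
    have him : RCLike.im (star v ⬝ᵥ A *ᵥ v) = 0 := hA.im_star_dotProduct_mulVec_self v
    simpa using him.symm
  · have h1 := h (⇑(hA.eigenvectorBasis k))
    have hn : General.nsq (⇑(hA.eigenvectorBasis k)) = 1 := by
      have h2 := hA.eigenvectorBasis.orthonormal.1 k
      rw [EuclideanSpace.norm_eq, Real.sqrt_eq_one] at h2
      simpa [General.nsq, Complex.normSq_eq_norm_sq] using h2
    have he : General.qf A (⇑(hA.eigenvectorBasis k)) = hA.eigenvalues k := by
      rw [hA.eigenvalues_eq k]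
      rfl
    rw [hn, he, mul_one] at h1
    exact h1

/-! ### Stability of the left side -/

lemma trPowAt_upper {γ c : ℝ} (hγ : 0 < γ) (hc : 0 < c) {A : Matrix (Fin N) (Fin N) ℂ}
    (hA : A.PosDef) (hlow : ∀ v, c * General.nsq v ≤ General.qf A v) :
    ∃ C, 0 ≤ C ∧ ∀ B : Matrix (Fin N) (Fin N) ℂ, B.IsHermitian → ent (A - B) ≤ c / 2 →
      B.PosDef ∧ trPowAt γ A ≤ trPowAt γ B + C * ent (A - B) := by
  refine ⟨γ * ((N : ℝ) ^ 3 * (c / 2) ^ (γ - 1) + ent (mfun (fun t => t ^ (γ - 1)) A)), ?_, ?_⟩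
  · have := ent_nonneg (mfun (fun t => t ^ (γ - 1)) A)
    positivity
  intro B hB hAB
  have hlowB : ∀ v, c / 2 * General.nsq v ≤ General.qf B v := fun v => by
    have h := (abs_le.1 (abs_qf_le_ent (A - B) v)).2
    rw [General.qf_sub] at h
    have := hlow v
    nlinarith [mul_le_mul_of_nonneg_right hAB (General.nsq_nonneg v)]
  obtain ⟨hBd, heig⟩ := posDef_of_qf hB (by linarith) hlowB
  refine ⟨hBd, ?_⟩
  have he0 := ent_nonneg (A - B)
  have hX0 := ent_nonneg (mfun (fun t => t ^ (γ - 1)) A)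
  have hY0 : (0 : ℝ) ≤ (N : ℝ) ^ 3 * (c / 2) ^ (γ - 1) := by positivity
  rcases le_total γ 1 with hg | hg
  · have h1 := trPowAt_tangent hγ hg hBd hA.posSemidef
    have h2 : ent (mfun (fun t => t ^ (γ - 1)) B) ≤ (N : ℝ) ^ 3 * (c / 2) ^ (γ - 1) := by
      refine (ent_mfun_le _ hB).trans ?_
      have h3 : ∀ k, |hB.eigenvalues k ^ (γ - 1)| ≤ (c / 2) ^ (γ - 1) := fun k => by
        rw [abs_of_nonneg (Real.rpow_nonneg (le_trans (by linarith) (heig k)) _)]
        exact Real.rpow_le_rpow_of_nonpos (by linarith) (heig k) (by linarith)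
      refine (mul_le_mul_of_nonneg_left (Finset.sum_le_sum fun k _ => h3 k) (by positivity)).trans
        (le_of_eq ?_)
      simp
      ring
    refine h1.trans (add_le_add le_rfl ?_)
    rw [mul_assoc]
    refine mul_le_mul_of_nonneg_left ?_ hγ.le
    refine (le_abs_self _).trans ((abs_trace_mul_le _ _).trans ?_)
    exact mul_le_mul_of_nonneg_right (le_add_of_le_of_nonneg h2 hX0) he0
  · refine (trPowAt_le_of_pair hg hBd.posSemidef hA
      (e := ent (mfun (fun t => t ^ (γ - 1)) A) * ent (A - B)) ?_).trans (add_le_add le_rfl ?_)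
    · rw [← sub_le_iff_le_add', ← Complex.sub_re, ← Matrix.trace_sub, ← Matrix.mul_sub]
      exact (le_abs_self _).trans (abs_trace_mul_le _ _)
    · rw [mul_assoc]
      refine mul_le_mul_of_nonneg_left ?_ hγ.le
      exact mul_le_mul_of_nonneg_right (le_add_of_nonneg_left hY0) he0

/-! ### Stability of the right side -/

lemma trPowAt_right {p δ : ℝ} (hp : 1 ≤ p) (hδ : 0 < δ) (hδ1 : δ ≤ 1)
    {A B : Matrix (Fin m) (Fin m) ℂ} (hA : A.PosSemidef) (hB : B.PosDef) :
    trPowAt p B ≤ (1 + δ * (p * (m : ℝ) ^ 3 * (2 : ℝ) ^ p *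
        (((m : ℝ) ^ 2) ^ p * (m : ℝ) ^ (p - 1)))) * trPowAt p A
      + δ ^ (1 - p) * (p * (m : ℝ) ^ 3 * ((2 : ℝ) ^ p + 1)) * ent (B - A) ^ p := by
  set Cw := ((m : ℝ) ^ 2) ^ p * (m : ℝ) ^ (p - 1) with hCw
  set S := ent B
  set T := ent (B - A)
  have hT : 0 ≤ T := ent_nonneg _
  have hS : 0 ≤ S := ent_nonneg _
  have hm : (0 : ℝ) ≤ (m : ℝ) ^ 3 := by positivity
  have h1 := trPowAt_le_of_pair hp hA hB (e := (m : ℝ) ^ 3 * (S ^ (p - 1) * T)) (by
    rw [← sub_le_iff_le_add', ← Complex.sub_re, ← Matrix.trace_sub, ← Matrix.mul_sub]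
    refine (le_abs_self _).trans ((abs_trace_mul_le _ _).trans ?_)
    rw [← mul_assoc]
    exact mul_le_mul_of_nonneg_right (ent_mfun_rpow_le hp hB.posSemidef) hT)
  have h2 : S ^ p ≤ (2 : ℝ) ^ p * (T ^ p + Cw * trPowAt p A) :=
    (ent_rpow_triangle (by linarith) B A).trans
      (mul_le_mul_of_nonneg_left (add_le_add le_rfl (ent_rpow_le_trPow hp hA)) (by positivity))
  have h3 := pair_split hp hδ hS hT
  have hδp : δ ≤ δ ^ (1 - p) :=
    hδ1.trans (Real.one_le_rpow_of_pos_of_le_one_of_nonpos hδ hδ1 (by linarith))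
  have hTp : 0 ≤ T ^ p := Real.rpow_nonneg hT p
  calc trPowAt p B ≤ trPowAt p A + p * ((m : ℝ) ^ 3 * (S ^ (p - 1) * T)) := h1
    _ ≤ trPowAt p A + p * ((m : ℝ) ^ 3 *
          (δ * ((2 : ℝ) ^ p * (T ^ p + Cw * trPowAt p A)) + δ ^ (1 - p) * T ^ p)) := by
        gcongr
        exact h3.trans (add_le_add (mul_le_mul_of_nonneg_left h2 hδ.le) le_rfl)
    _ ≤ trPowAt p A + p * ((m : ℝ) ^ 3 * (δ * (2 : ℝ) ^ p * (Cw * trPowAt p A)
          + δ ^ (1 - p) * ((2 : ℝ) ^ p + 1) * T ^ p)) := by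
        refine add_le_add le_rfl (mul_le_mul_of_nonneg_left
          (mul_le_mul_of_nonneg_left ?_ hm) (by linarith))
        nlinarith [mul_le_mul_of_nonneg_right hδp
          (mul_nonneg (show (0 : ℝ) ≤ (2 : ℝ) ^ p by positivity) hTp)]
    _ = _ := by ring

end Approx

open Approx in
/-- K8: the bound for continuous potentials on intervals gives it for every potential. -/
theorem bound_general {γ K : ℝ} (hγ0 : 1 / 2 < γ) (_hγ1 : γ < 3 / 2) (hK : 0 ≤ K)
    (hc : ∀ (N' : ℕ) (L η : ℝ), 0 < L → 0 < η → ∀ W : ℝ → Matrix (Fin m) (Fin m) ℂ,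
      (∀ a b, ContinuousOn (fun x => W x a b) (Icc (-L) L)) →
      (∀ x ∈ Icc (-L) L, (W x - (η : ℂ) • 1).PosSemidef) →
      ∀ f f' : Fin N' → ℝ → Fin m → ℂ, (∀ i, IsH1V (f i) (f' i)) →
      (∀ i j, ∫ x, ∑ a, conj (f i x a) * f j x a = if i = j then 1 else 0) →
      (formMat (cutW L W) f f').PosDef →
      trPowAt γ (formMat (cutW L W) f f') ≤
        K * ∫ x in (-L)..L, trPowAt (γ + 1 / 2) (W x))
    {W : ℝ → Matrix (Fin m) (Fin m) ℂ} (hW : IsMPotentialAt γ W)
    {f f' : Fin N → ℝ → Fin m → ℂ} (hf : ∀ i, IsH1V (f i) (f' i))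
    (horth : ∀ i j, ∫ x, ∑ a, conj (f i x a) * f j x a = if i = j then 1 else 0)
    (hpos : (formMat W f f').PosDef) :
    trPowAt γ (formMat W f f') ≤ K * ∫ x, trPowAt (γ + 1 / 2) (W x) := by
  obtain ⟨hWm, hW0, hWi⟩ := hW
  set p := γ + 1 / 2 with hp_def
  have hp : 1 ≤ p := by linarith
  have hp0 : 0 < p := by linarith
  set Cw := ((m : ℝ) ^ 2) ^ p * (m : ℝ) ^ (p - 1) with hCw
  have hWe : Integrable (fun x => ent (W x) ^ p) volume := by
    refine (hWi.const_mul Cw).mono' ((measurable_ent hWm).pow_const p).aestronglyMeasurable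
      (Eventually.of_forall fun x => ?_)
    rw [Real.norm_of_nonneg (Real.rpow_nonneg (ent_nonneg _) p)]
    exact ent_rpow_le_trPow hp (hW0 x)
  set Λ := formMat W f f' with hΛ
  obtain ⟨c, hc0, hlow⟩ := exists_qf_lower hpos
  obtain ⟨C3, hC3, hupper⟩ := trPowAt_upper (γ := γ) (by linarith) hc0 hpos hlow
  obtain ⟨hFi, B, hB0, hB⟩ := fam_bounds hf
  set I := ∫ x, trPowAt p (W x) with hI
  have hI0 : 0 ≤ I := integral_nonneg fun x => trPowAt_nonneg (hW0 x)
  set F1 := ∫ x, fam f x with hF1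
  have hF0 : 0 ≤ F1 := integral_nonneg (fam_nonneg f)
  set D1 := (N : ℝ) ^ 2 * (F1 + B) with hD1
  have hD0 : 0 ≤ D1 := by positivity
  set E1 := p * (m : ℝ) ^ 3 * (2 : ℝ) ^ p * Cw with hE1
  set E2 := p * (m : ℝ) ^ 3 * ((2 : ℝ) ^ p + 1) with hE2
  have hE10 : 0 ≤ E1 := by positivity
  have hE20 : 0 ≤ E2 := by positivity
  set Ct := K * (E1 * I + E2) + C3 * D1 with hCt
  have hCt0 : 0 ≤ Ct := by positivity
  refine le_of_forall_pos_le_add fun ε hε => ?_
  obtain ⟨δ, hδ0, hδ1, hδc, hδε⟩ : ∃ δ : ℝ, 0 < δ ∧ δ ≤ 1 ∧ δ * D1 ≤ c / 2 ∧ δ * Ct ≤ ε := by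
    refine ⟨min (min 1 (c / 2 / (D1 + 1))) (ε / (Ct + 1)),
      lt_min (lt_min one_pos (by positivity)) (by positivity),
      (min_le_left _ _).trans (min_le_left _ _), ?_, ?_⟩
    · refine (mul_le_mul_of_nonneg_right ((min_le_left _ _).trans (min_le_right _ _)) hD0).trans ?_
      rw [div_mul_eq_mul_div, div_le_iff₀ (by positivity)]
      nlinarith
    · refine (mul_le_mul_of_nonneg_right (min_le_right _ _) hCt0).trans ?_
      rw [div_mul_eq_mul_div, div_le_iff₀ (by positivity)]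
      nlinarith
  obtain ⟨L, η, hL, hη, V, hVc, hVη, hDi, hDle⟩ :=
    exists_approx hp (Real.rpow_pos_of_pos hδ0 p) hWm hW0 hWe
  set Wc := cutW L V with hWc
  have hWcm : ∀ a b, Measurable fun x => Wc x a b := fun a b => by
    have e : (fun x => Wc x a b) = fun x => if x ∈ Icc (-L) L then V x a b else 0 := by
      funext x
      rw [hWc, cutW]
      split_ifs <;> rfl
    rw [e]
    exact Measurable.ite measurableSet_Icc (hVc a b).measurable measurable_const
  have hVpd : ∀ x, (V x).PosDef := fun x => by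
    have h := (PosDef.one (n := Fin m) (R := ℂ)).smul (Complex.zero_lt_real.2 hη)
    have h2 := h.add_posSemidef (hVη x)
    rwa [add_sub_cancel] at h2
  have hWch : ∀ x, (Wc x).IsHermitian := fun x => by
    rw [hWc, cutW]
    split_ifs
    · exact (hVpd x).isHermitian
    · exact isHermitian_zero
  have hWce : Integrable (fun x => ent (Wc x) ^ p) volume := by
    refine ((hDi.add hWe).const_mul ((2 : ℝ) ^ p)).mono'
      ((measurable_ent hWcm).pow_const p).aestronglyMeasurable (Eventually.of_forall fun x => ?_)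
    rw [Real.norm_of_nonneg (Real.rpow_nonneg (ent_nonneg _) p)]
    exact ent_rpow_triangle hp0.le _ _
  have hδp : δ ^ (1 - p) * δ ^ p = δ := by
    rw [← Real.rpow_add hδ0, sub_add_cancel, Real.rpow_one]
  have hclose : ent (Λ - formMat Wc f f') ≤ δ * D1 := by
    have hentry : ∀ i j, ‖(Λ - formMat Wc f f') i j‖ ≤ δ * (F1 + B) := fun i j => by
      have h := (form_bound hp (M := fun x => Wc x - W x)
        (fun a b => (hWcm a b).sub (hWm a b)) hDi hf hB i j).2 δ hδ0
      have e : ∫ x, ∑ a, conj (f i x a) * ((Wc x - W x) *ᵥ f j x) a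
          = (∫ x, ∑ a, conj (f i x a) * (Wc x *ᵥ f j x) a)
            - ∫ x, ∑ a, conj (f i x a) * (W x *ᵥ f j x) a := by
        rw [← integral_sub (form_bound hp hWcm hWce hf hB i j).1 (form_bound hp hWm hWe hf hB i j).1]
        simp only [sub_mulVec, Pi.sub_apply, mul_sub, Finset.sum_sub_distrib]
      rw [e] at h
      rw [Matrix.sub_apply, hΛ, formMat, formMat, Matrix.of_apply, Matrix.of_apply,
        sub_sub_sub_cancel_right, norm_sub_rev]
      refine h.trans ?_
      have h2 : δ ^ (1 - p) * (B * ∫ x, ent (Wc x - W x) ^ p) ≤ δ ^ (1 - p) * (B * δ ^ p) :=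
        mul_le_mul_of_nonneg_left (mul_le_mul_of_nonneg_left hDle hB0) (by positivity)
      have h4 : δ ^ (1 - p) * (B * δ ^ p) = δ * B := by
        rw [mul_left_comm, hδp, mul_comm]
      rw [mul_add]
      linarith
    refine (ent_le_of_entry hentry).trans (le_of_eq ?_)
    rw [hD1]
    ring
  obtain ⟨hcpd, hleft⟩ := hupper _ (formMat_isHermitian hWch f f') (hclose.trans hδc)
  have hmain := hc N L η hL hη V (fun a b => (hVc a b).continuousOn) (fun x _ => hVη x) f f' hf
    horth hcpd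
  have hVi : IntegrableOn (fun x => trPowAt p (V x)) (Icc (-L) L) volume :=
    (continuousOn_trPowAt hp0 (fun a b => (hVc a b).continuousOn)
      fun x _ => (hVpd x).posSemidef).integrableOn_Icc
  have hright : (∫ x in (-L)..L, trPowAt p (V x)) ≤ (1 + δ * E1) * I + δ * E2 := by
    rw [intervalIntegral.integral_of_le (by linarith), ← integral_Icc_eq_integral_Ioc]
    have hR : Integrable (fun x => (1 + δ * E1) * trPowAt p (W x)
        + δ ^ (1 - p) * E2 * ent (Wc x - W x) ^ p) volume :=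
      (hWi.const_mul _).add (hDi.const_mul _)
    refine (setIntegral_mono_on hVi hR.integrableOn measurableSet_Icc fun x hx => ?_).trans ?_
    · have h := trPowAt_right hp hδ0 hδ1 (hW0 x) (hVpd x)
      rwa [show Wc x = V x by rw [hWc, cutW, if_pos hx]]
    refine (setIntegral_le_integral hR (Eventually.of_forall fun x => ?_)).trans ?_
    · have h1 := trPowAt_nonneg (r := p) (hW0 x)
      have h2 := ent_nonneg (Wc x - W x)
      positivity
    rw [integral_add (hWi.const_mul _) (hDi.const_mul _)]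
    simp only [integral_const_mul]
    refine add_le_add le_rfl ?_
    refine (mul_le_mul_of_nonneg_left hDle (by positivity)).trans (le_of_eq ?_)
    rw [mul_right_comm, hδp]
  calc trPowAt γ Λ ≤ trPowAt γ (formMat Wc f f') + C3 * ent (Λ - formMat Wc f f') := hleft
    _ ≤ K * ((1 + δ * E1) * I + δ * E2) + C3 * (δ * D1) :=
        add_le_add (hmain.trans (mul_le_mul_of_nonneg_left hright hK))
          (mul_le_mul_of_nonneg_left hclose hC3)
    _ = K * I + δ * Ct := by rw [hCt]; ring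
    _ ≤ K * I + ε := by linarith

end Vale.Agent.P371.All
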