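import Vale.Agent.P371.All.Defs

/-!
# P371 (all `γ`): the energy identity along a flow
-/

namespace Vale.Agent.P371.All

open Matrix MeasureTheory Set Filter
open scoped ComplexOrder ComplexConjugate Topology

variable {N m : ℕ}

/-- `Re tr (Xᴴ M Y)`. -/
noncomputable def trForm (X : Matrix (Fin N) (Fin m) ℂ) (M : Matrix (Fin N) (Fin N) ℂ)
    (Y : Matrix (Fin N) (Fin m) ℂ) : ℝ := (Xᴴ * M * Y).trace.re

lemma trForm_eq_sum (X : Matrix (Fin N) (Fin m) ℂ) (M : Matrix (Fin N) (Fin N) ℂ)
    (Y : Matrix (Fin N) (Fin m) ℂ) :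
    trForm X M Y = (∑ a, ∑ j, ∑ i, conj (X i a) * M i j * Y j a).re := by
  simp only [trForm, Matrix.trace, Matrix.diag_apply, Matrix.mul_apply, Finset.sum_mul,
    Matrix.conjTranspose_apply, Complex.star_def]

lemma trForm_comm {X Y : Matrix (Fin N) (Fin m) ℂ} {M : Matrix (Fin N) (Fin N) ℂ}
    (hM : M.IsHermitian) : trForm X M Y = trForm Y M X := by
  unfold trForm
  rw [← Complex.conj_re, ← Complex.star_def, ← Matrix.trace_conjTranspose]
  simp only [Matrix.conjTranspose_mul, Matrix.conjTranspose_conjTranspose, hM.eq, Matrix.mul_assoc]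

lemma square_expand (U V : Matrix (Fin N) (Fin m) ℂ) {M : Matrix (Fin N) (Fin N) ℂ}
    (hM : M.IsHermitian) :
    0 ≤ (∑ i, ∑ a, Complex.normSq (V i a)) - 2 * trForm U M V + trForm U (M * M) U := by
  have hn : ∀ X : Matrix (Fin N) (Fin m) ℂ,
      ∑ i, ∑ a, Complex.normSq (X i a) = (Xᴴ * X).trace.re := by
    intro X
    simp only [Matrix.trace, Matrix.diag_apply, Matrix.mul_apply, Matrix.conjTranspose_apply,
      Complex.re_sum, Complex.star_def]
    rw [Finset.sum_comm]
    exact Finset.sum_congr rfl fun a _ => Finset.sum_congr rfl fun i _ => by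
      rw [← Complex.normSq_eq_conj_mul_self, Complex.ofReal_re]
  have h : 0 ≤ ∑ i, ∑ a, Complex.normSq ((V - M * U) i a) :=
    Finset.sum_nonneg fun i _ => Finset.sum_nonneg fun a _ => Complex.normSq_nonneg _
  have e : ∑ i, ∑ a, Complex.normSq ((V - M * U) i a)
      = (∑ i, ∑ a, Complex.normSq (V i a)) - trForm V M U - trForm U M V
        + trForm U (M * M) U := by
    rw [hn, hn]
    simp only [trForm, conjTranspose_sub, conjTranspose_mul, hM.eq, Matrix.sub_mul, Matrix.mul_sub,
      Matrix.trace_sub, Complex.sub_re, Matrix.mul_assoc]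
    ring
  rw [e, trForm_comm hM] at h
  linarith

lemma integrable_trForm {X Y : ℝ → Matrix (Fin N) (Fin m) ℂ}
    (hX : ∀ i a, MemLp (fun x => X x i a) 2 volume) (hY : ∀ i a, MemLp (fun x => Y x i a) 2 volume)
    (M : Matrix (Fin N) (Fin N) ℂ) : Integrable (fun x => trForm (X x) M (Y x)) := by
  simp only [trForm_eq_sum]
  refine Integrable.re (𝕜 := ℂ) (integrable_finsetSum Finset.univ fun a _ =>
    integrable_finsetSum Finset.univ fun j _ => integrable_finsetSum Finset.univ fun i _ => ?_)
  have h : Integrable (fun x => conj (X x i a) * Y x j a) :=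
    MemLp.integrable_mul (hX i a).star (hY j a)
  have e : (fun x => conj (X x i a) * M i j * Y x j a)
      = fun x => M i j * (conj (X x i a) * Y x j a) := funext fun x => by ring
  rw [e]
  exact h.const_mul _

lemma hasDerivAt_trForm {U U' : ℝ → Matrix (Fin N) (Fin m) ℂ} {x : ℝ}
    (hU : ∀ i a, HasDerivAt (fun y => U y i a) (U' x i a) x) {M : Matrix (Fin N) (Fin N) ℂ}
    (hM : M.IsHermitian) :
    HasDerivAt (fun y => trForm (U y) M (U y)) (2 * trForm (U x) M (U' x)) x := by
  have h : HasDerivAt (fun y => trForm (U y) M (U y))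
      (trForm (U' x) M (U x) + trForm (U x) M (U' x)) x := by
    simp only [trForm_eq_sum, ← Complex.add_re, ← Finset.sum_add_distrib]
    refine Complex.reCLM.hasFDerivAt.comp_hasDerivAt x ?_
    refine HasDerivAt.fun_sum fun a _ => HasDerivAt.fun_sum fun j _ => HasDerivAt.fun_sum fun i _ => ?_
    exact (((hU i a).star).mul_const (M i j)).mul (hU j a)
  rwa [trForm_comm hM, ← two_mul] at h

lemma hasDerivWithinAt_trForm {U U' : ℝ → Matrix (Fin N) (Fin m) ℂ}
    {F : ℝ → Matrix (Fin N) (Fin N) ℂ} {F' : Matrix (Fin N) (Fin N) ℂ} {s : Set ℝ} {x : ℝ}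
    (hU : ∀ i a, HasDerivAt (fun y => U y i a) (U' x i a) x)
    (hF : ∀ i j, HasDerivWithinAt (fun y => F y i j) (F' i j) s x) (hH : (F x).IsHermitian) :
    HasDerivWithinAt (fun y => trForm (U y) (F y) (U y))
      (2 * trForm (U x) (F x) (U' x) + trForm (U x) F' (U x)) s x := by
  have h : HasDerivWithinAt (fun y => trForm (U y) (F y) (U y))
      (trForm (U' x) (F x) (U x) + trForm (U x) F' (U x) + trForm (U x) (F x) (U' x)) s x := by
    simp only [trForm_eq_sum, ← Complex.add_re, ← Finset.sum_add_distrib]
    refine Complex.reCLM.hasFDerivAt.comp_hasDerivWithinAt x ?_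
    refine HasDerivWithinAt.fun_sum fun a _ => HasDerivWithinAt.fun_sum fun j _ =>
      HasDerivWithinAt.fun_sum fun i _ => ?_
    exact ((((hU i a).star).hasDerivWithinAt.mul (hF i j)).mul
      (hU j a).hasDerivWithinAt).congr_deriv (by simp only [Pi.mul_apply, Complex.star_def]; ring)
  rw [trForm_comm hH] at h
  exact h.congr_deriv (by ring)

/-- The energy inequality along a flow. -/
theorem flow_energy {L : ℝ} (hL : 0 < L) {A : Matrix (Fin N) (Fin N) ℂ} (hA : A.PosSemidef)
    {V F : ℝ → Matrix (Fin N) (Fin N) ℂ} (hflow : IsFlow L A V F)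
    (hV : ∀ i j, ContinuousOn (fun x => V x i j) (Icc (-L) L))
    (U U' : ℝ → Matrix (Fin N) (Fin m) ℂ)
    (hU : ∀ i a, IsH1 (fun x => U x i a) (fun x => U' x i a)) :
    ∫ x in (-L)..L, ((U x)ᴴ * V x * U x).trace.re ≤
      (A * A * Matrix.of fun i j => ∫ x, (U x * (U x)ᴴ) i j).trace.re +
        ∫ x, ∑ i, ∑ a, Complex.normSq (U' x i a) := by
  obtain ⟨hd, hstart, hend, hH, -⟩ := hflow
  have hU2 : ∀ i a, MemLp (fun x => U x i a) 2 volume := fun i a => (hU i a).2.2.1
  have hU2' : ∀ i a, MemLp (fun x => U' x i a) 2 volume := fun i a => (hU i a).2.2.2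
  have hUd : ∀ x i a, HasDerivAt (fun y => U y i a) (U' x i a) x := fun x i a => (hU i a).1 x
  set k : ℝ → ℝ := fun x => ∑ i, ∑ a, Complex.normSq (U' x i a) with hk
  set s : ℝ → ℝ := fun x => trForm (U x) (A * A) (U x) with hs
  set e : ℝ → ℝ := fun x => trForm (U x) A (U x) with he
  set d : ℝ → ℝ := fun x => 2 * trForm (U x) A (U' x) with hdd
  have hki : Integrable k := integrable_finsetSum _ fun i _ => integrable_finsetSum _ fun a _ => by
    simpa [Complex.normSq_eq_norm_sq] using (hU2' i a).integrable_norm_pow two_ne_zero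
  have hsi : Integrable s := integrable_trForm hU2 hU2 _
  have hei : Integrable e := integrable_trForm hU2 hU2 _
  have hdi : Integrable d := (integrable_trForm hU2 hU2' _).const_mul 2
  have hed : ∀ x, HasDerivAt e (d x) x := fun x => hasDerivAt_trForm (hUd x) hA.isHermitian
  -- the tails
  have hright : e L ≤ ∫ x in Ioi L, (k x + s x) := by
    have ht := tendsto_zero_of_hasDerivAt_of_integrableOn_Ioi (a := L) (fun x _ => hed x)
      hdi.integrableOn hei.integrableOn
    have hv := integral_Ioi_of_hasDerivAt_of_tendsto' (a := L) (fun x _ => hed x) hdi.integrableOn ht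
    have hm := setIntegral_mono_on (μ := volume) (hdi.neg.integrableOn (s := Ioi L))
      (hki.add hsi).integrableOn measurableSet_Ioi fun x _ => by
        have := square_expand (U x) (U' x) (M := -A) hA.isHermitian.neg
        simp only [trForm, Matrix.mul_neg, Matrix.neg_mul, neg_neg, Matrix.trace_neg,
          Complex.neg_re] at this
        simp only [hk, hs, hdd, Pi.neg_apply, Pi.add_apply, trForm]
        linarith
    simp only [Pi.neg_apply, Pi.add_apply, integral_neg, hv] at hm
    linarith
  have hleft : e (-L) ≤ ∫ x in Iic (-L), (k x + s x) := by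
    have ht := tendsto_zero_of_hasDerivAt_of_integrableOn_Iic (a := -L) (fun x _ => hed x)
      hdi.integrableOn hei.integrableOn
    have hv := integral_Iic_of_hasDerivAt_of_tendsto' (a := -L) (fun x _ => hed x) hdi.integrableOn ht
    have hm := setIntegral_mono_on (μ := volume) (hdi.integrableOn (s := Iic (-L)))
      (hki.add hsi).integrableOn measurableSet_Iic fun x _ => by
        have := square_expand (U x) (U' x) hA.isHermitian
        simp only [hk, hs, hdd, Pi.add_apply]
        linarith
    simp only [Pi.add_apply, hv] at hm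
    linarith
  -- the middle
  have hll : -L ≤ L := by linarith
  have hFc : ∀ i j, ContinuousOn (fun x => F x i j) (Icc (-L) L) := fun i j x hx =>
    (hd x hx i j).continuousWithinAt
  have hUc : ∀ i a, Continuous fun x => U x i a := fun i a =>
    continuous_iff_continuousAt.2 fun x => ((hU i a).1 x).continuousAt
  have hform : ∀ M : ℝ → Matrix (Fin N) (Fin N) ℂ,
      (∀ i j, ContinuousOn (fun x => M x i j) (Icc (-L) L)) →
      ContinuousOn (fun x => trForm (U x) (M x) (U x)) (Icc (-L) L) := fun M hM => by
    simp only [trForm_eq_sum]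
    exact Complex.continuous_re.comp_continuousOn (continuousOn_finsetSum _ fun a _ =>
      continuousOn_finsetSum _ fun j _ => continuousOn_finsetSum _ fun i _ =>
        (((Complex.continuous_conj.comp (hUc i a)).continuousOn).mul (hM i j)).mul
          (hUc j a).continuousOn)
  set w : ℝ → ℝ := fun x => trForm (U x) (V x) (U x) with hw
  have hwi : IntervalIntegrable w volume (-L) L :=
    (hform V hV).intervalIntegrable_of_Icc hll
  have hmid : trForm (U L) (F L) (U L) - trForm (U (-L)) (F (-L)) (U (-L))
      ≤ ∫ x in (-L)..L, (k x + s x - w x) := by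
    refine intervalIntegral.sub_le_integral_of_hasDeriv_right_of_le hll (hform F hFc)
      (g' := fun x => 2 * trForm (U x) (F x) (U' x)
        + trForm (U x) (A * A - F x * F x - V x) (U x))
      (fun x hx => ?_) ?_ fun x hx => ?_
    · exact ((hasDerivWithinAt_trForm (hUd x) (hd x (Ioo_subset_Icc_self hx))
        (hH x (Ioo_subset_Icc_self hx))).mono_of_mem_nhdsWithin
        (mem_nhdsWithin_of_mem_nhds (Icc_mem_nhds hx.1 hx.2)))
    · exact (hki.add hsi).integrableOn.sub
        ((hform V hV).integrableOn_compact isCompact_Icc)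
    · have := square_expand (U x) (U' x) (hH x (Ioo_subset_Icc_self hx))
      simp only [hk, hs, hw, trForm, Matrix.mul_sub, Matrix.sub_mul, Matrix.trace_sub,
        Complex.sub_re] at this ⊢
      linarith
  have hsA : (A * A * Matrix.of fun i j => ∫ x, (U x * (U x)ᴴ) i j).trace.re = ∫ x, s x := by
    have hint : ∀ i j, Integrable (fun x => (U x * (U x)ᴴ) j i) := fun i j => by
      simp only [Matrix.mul_apply, Matrix.conjTranspose_apply]
      exact integrable_finsetSum _ fun a _ => MemLp.integrable_mul (hU2 j a) (hU2 i a).star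
    have e1 : ∀ x, s x = ((A * A) * (U x * (U x)ᴴ)).trace.re := fun x => by
      simp only [hs, trForm]
      rw [Matrix.trace_mul_cycle, Matrix.trace_mul_comm]
    simp only [e1]
    rw [show (fun x => ((A * A) * (U x * (U x)ᴴ)).trace.re)
      = fun x => RCLike.re (((A * A) * (U x * (U x)ᴴ)).trace) from rfl]
    simp only [Matrix.trace, Matrix.diag_apply, Matrix.mul_apply (M := A * A), Matrix.of_apply]
    refine Eq.trans ?_ (integral_re (𝕜 := ℂ) (integrable_finsetSum Finset.univ fun i _ =>
      integrable_finsetSum Finset.univ fun j _ => (hint i j).const_mul ((A * A) i j))).symm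
    rw [integral_finsetSum Finset.univ fun i _ => integrable_finsetSum Finset.univ fun j _ =>
      (hint i j).const_mul ((A * A) i j)]
    refine congrArg Complex.re (Finset.sum_congr rfl fun i _ => ?_)
    rw [integral_finsetSum Finset.univ fun j _ => (hint i j).const_mul ((A * A) i j)]
    exact Finset.sum_congr rfl fun j _ => (integral_const_mul _ _).symm
  rw [hsA]
  have hsplit : ∫ x, (k x + s x) = (∫ x in Iic (-L), (k x + s x))
      + (∫ x in (-L)..L, (k x + s x)) + ∫ x in Ioi L, (k x + s x) := by
    have hi : Integrable (fun x => k x + s x) := hki.add hsi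
    rw [← intervalIntegral.integral_Iic_add_Ioi hi.integrableOn hi.integrableOn (b := -L),
      ← intervalIntegral.integral_Ioi_sub_Ioi hi.integrableOn hll]
    ring
  rw [integral_add hki hsi] at hsplit
  have hks : Integrable (fun x => k x + s x) := hki.add hsi
  rw [intervalIntegral.integral_sub hks.intervalIntegrable hwi] at hmid
  rw [hstart, hend] at hmid
  simp only [he] at hright hleft
  have hneg : trForm (U L) (-A) (U L) = -trForm (U L) A (U L) := by
    simp [trForm]
  rw [hneg] at hmid
  show ∫ x in (-L)..L, w x ≤ _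
  linarith

end Vale.Agent.P371.All
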