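import Vale.Agent.P371.All.CompareTools
import Vale.Agent.P371.All.Energy

/-!
# P371: comparison of the form matrix with a flow
-/

namespace Vale.Agent.P371.All

open Matrix Set Filter MeasureTheory
open scoped ComplexOrder ComplexConjugate Topology Matrix.Norms.Frobenius

variable {N m : ℕ}

/-- The `N × m` matrix of a family: `U i a = conj (f i a)`. -/
noncomputable def famMat (f : Fin N → ℝ → Fin m → ℂ) (x : ℝ) : Matrix (Fin N) (Fin m) ℂ :=
  Matrix.of fun i a => conj (f i x a)

theorem famMat_gram (f : Fin N → ℝ → Fin m → ℂ) (x : ℝ) (i j : Fin N) :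
    (famMat f x * (famMat f x)ᴴ) i j = ∑ a, conj (f i x a) * f j x a := by
  simp [famMat, Matrix.mul_apply]

theorem famMat_sandwich (f : Fin N → ℝ → Fin m → ℂ) (M : Matrix (Fin m) (Fin m) ℂ) (x : ℝ)
    (i j : Fin N) :
    (famMat f x * M * (famMat f x)ᴴ) i j = ∑ a, conj (f i x a) * (M *ᵥ f j x) a := by
  rw [Matrix.mul_assoc, Matrix.mul_apply]
  exact Finset.sum_congr rfl fun a _ => by simp [famMat, Matrix.mul_apply, mulVec, dotProduct]

theorem continuousOn_mmul {X : Type*} [TopologicalSpace X] {a b c : ℕ}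
    {f : X → Matrix (Fin a) (Fin b) ℂ} {g : X → Matrix (Fin b) (Fin c) ℂ} {s : Set X}
    (hf : ContinuousOn f s) (hg : ContinuousOn g s) : ContinuousOn (fun x => f x * g x) s :=
  continuousOn_iff_continuous_restrict.2 (hf.restrict.matrix_mul hg.restrict)

theorem continuousOn_mct {X : Type*} [TopologicalSpace X] {a b : ℕ}
    {f : X → Matrix (Fin a) (Fin b) ℂ} {s : Set X}
    (hf : ContinuousOn f s) : ContinuousOn (fun x => (f x)ᴴ) s :=
  continuousOn_iff_continuous_restrict.2 hf.restrict.matrix_conjTranspose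

theorem continuous_famMat {f f' : Fin N → ℝ → Fin m → ℂ} (hf : ∀ i, IsH1V (f i) (f' i)) :
    Continuous (famMat f) :=
  continuous_matrix fun i a => Complex.continuous_conj.comp
    (continuous_iff_continuousAt.2 fun x => ((hf i a).1 x).continuousAt)

theorem integrable_gram {f f' : Fin N → ℝ → Fin m → ℂ} (hf : ∀ i, IsH1V (f i) (f' i))
    (i j : Fin N) :
    Integrable (fun x => (famMat f x * (famMat f x)ᴴ) i j) volume ∧
      Integrable (fun x => (famMat f' x * (famMat f' x)ᴴ) i j) volume := by
  simp only [famMat_gram]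
  exact ⟨integrable_finsetSum _ fun a _ => (hf i a).2.2.1.star.integrable_mul (hf j a).2.2.1,
    integrable_finsetSum _ fun a _ => (hf i a).2.2.2.star.integrable_mul (hf j a).2.2.2⟩

/-- The form matrix of a potential on an interval. -/
theorem formMat_cut {L : ℝ} (hL : 0 < L) (W : ℝ → Matrix (Fin m) (Fin m) ℂ)
    (f f' : Fin N → ℝ → Fin m → ℂ) :
    formMat (cutW L W) f f' =
      (Matrix.of fun i j => ∫ x in Icc (-L) L, (famMat f x * W x * (famMat f x)ᴴ) i j) -
        Matrix.of fun i j => ∫ x, (famMat f' x * (famMat f' x)ᴴ) i j := by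
  ext i j
  simp only [formMat, Matrix.of_apply, Matrix.sub_apply, famMat_gram, famMat_sandwich]
  congr 1
  rw [← integral_indicator measurableSet_Icc]
  refine integral_congr_ae (Eventually.of_forall fun x => ?_)
  by_cases hx : x ∈ Icc (-L) L
  · simp [cutW, hx]
  · simp [cutW, hx]

theorem integrableOn_sandwich {L : ℝ} {f f' : Fin N → ℝ → Fin m → ℂ}
    (hf : ∀ i, IsH1V (f i) (f' i)) {W : ℝ → Matrix (Fin m) (Fin m) ℂ}
    (hWc : ∀ a b, ContinuousOn (fun x => W x a b) (Icc (-L) L)) (i j : Fin N) :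
    Integrable (fun x => (famMat f x * W x * (famMat f x)ᴴ) i j)
      (volume.restrict (Icc (-L) L)) := by
  have hW : ContinuousOn W (Icc (-L) L) :=
    continuousOn_pi.2 fun a => continuousOn_pi.2 fun b => hWc a b
  have hU := continuous_famMat hf
  have hc : ContinuousOn (fun x => famMat f x * W x * (famMat f x)ᴴ) (Icc (-L) L) :=
    continuousOn_mmul (continuousOn_mmul hU.continuousOn hW) (continuousOn_mct hU.continuousOn)
  exact (((continuous_id.matrix_elem i j).comp_continuousOn hc).integrableOn_compact isCompact_Icc)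

theorem sandwich_pair {S : Matrix (Fin N) (Fin N) ℂ} (hS : S.IsHermitian) {p : ℕ}
    (U : Matrix (Fin N) (Fin p) ℂ) (M : Matrix (Fin p) (Fin p) ℂ) :
    (M * ((S * U)ᴴ * (S * U))).trace = (S * S * (U * M * Uᴴ)).trace ∧
      (S * U) * (S * U)ᴴ = S * (U * Uᴴ) * S := by
  refine ⟨?_, ?_⟩
  · rw [conjTranspose_mul, hS.eq,
      show M * (Uᴴ * S * (S * U)) = M * Uᴴ * (S * S) * U by simp only [Matrix.mul_assoc],
      trace_mul_comm (M * Uᴴ * (S * S)) U, trace_mul_comm (S * S) (U * M * Uᴴ)]
    simp only [Matrix.mul_assoc]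
  · rw [conjTranspose_mul, hS.eq]
    simp only [Matrix.mul_assoc]

/-- The energy inequality for a fixed weight `S`. -/
theorem weighted_energy {L η : ℝ} (hL : 0 < L) (hη : 0 < η)
    {W : ℝ → Matrix (Fin m) (Fin m) ℂ} (hWc : ∀ a b, ContinuousOn (fun x => W x a b) (Icc (-L) L))
    (hW : ∀ x ∈ Icc (-L) L, (W x).PosSemidef)
    {f f' : Fin N → ℝ → Fin m → ℂ} (hf : ∀ i, IsH1V (f i) (f' i))
    (horth : ∀ i j, ∫ x, ∑ a, conj (f i x a) * f j x a = if i = j then 1 else 0)
    {A S : Matrix (Fin N) (Fin N) ℂ} (hA : A.PosSemidef) (hS : S.IsHermitian)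
    {F : ℝ → Matrix (Fin N) (Fin N) ℂ}
    (hflow : IsFlow L A (fun x => compV η (S * famMat f x) (W x)) F)
    (hVc : ∀ i j, ContinuousOn (fun x => compV η (S * famMat f x) (W x) i j) (Icc (-L) L)) :
    (S * S * formMat (cutW L W) f f').trace.re ≤
      (S * S * (A * A)).trace.re + η * ∫ x in Icc (-L) L, (W x).trace.re := by
  set U : ℝ → Matrix (Fin N) (Fin m) ℂ := fun x => S * famMat f x with hU
  set U' : ℝ → Matrix (Fin N) (Fin m) ℂ := fun x => S * famMat f' x with hU'
  have hH : ∀ i a, IsH1 (fun x => U x i a) (fun x => U' x i a) := fun i a => by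
    simpa [hU, hU', Matrix.mul_apply, famMat] using
      isH1_sum (fun k => S i k) fun k => isH1_conj (hf k a)
  have he := flow_energy hL hA hflow hVc U U' hH
  have hgram : (Matrix.of fun i j => ∫ x, (U x * (U x)ᴴ) i j) = S * S := by
    ext i j
    have e : ∀ x, (U x * (U x)ᴴ) i j =
        ∑ k, ∑ l, S i k * S l j * (famMat f x * (famMat f x)ᴴ) k l := fun x => by
      rw [hU, show (fun x => S * famMat f x) x = S * famMat f x from rfl,
        (sandwich_pair hS (famMat f x) 1).2, Matrix.mul_apply]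
      simp only [Matrix.mul_apply (M := S), Finset.sum_mul]
      rw [Finset.sum_comm]
      exact Finset.sum_congr rfl fun k _ => Finset.sum_congr rfl fun l _ => by ring
    simp only [Matrix.of_apply, e]
    have hi : ∀ k l, Integrable (fun x => S i k * S l j * (famMat f x * (famMat f x)ᴴ) k l) volume :=
      fun k l => (integrable_gram hf k l).1.const_mul _
    rw [integral_finsetSum _ fun k _ => integrable_finsetSum _ fun l _ => hi k l, Matrix.mul_apply]
    refine Finset.sum_congr rfl fun k _ => ?_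
    rw [integral_finsetSum _ fun l _ => hi k l]
    simp only [integral_const_mul, famMat_gram, horth, mul_ite, mul_one, mul_zero]
    simp
  rw [hgram] at he
  have hX := integrableOn_sandwich hf hWc
  obtain ⟨hi1, hv1⟩ := integral_trace_mul hX (S * S)
  obtain ⟨hi2, hv2⟩ := integral_trace_mul (fun i j => (integrable_gram hf i j).2) (S * S)
  have hkin : ∫ x, ∑ i, ∑ a, Complex.normSq (U' x i a) =
      (S * S * Matrix.of fun i j => ∫ x, (famMat f' x * (famMat f' x)ᴴ) i j).trace.re := by
    rw [← hv2]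
    refine integral_congr_ae (Eventually.of_forall fun x => ?_)
    have e := (sandwich_pair hS (famMat f' x) 1).1
    rw [Matrix.one_mul, Matrix.mul_one] at e
    dsimp only
    rw [← e]
    simp only [hU', trace, diag, Matrix.mul_apply (M := (S * famMat f' x)ᴴ),
      conjTranspose_apply, Complex.re_sum, Complex.star_def,
      ← Complex.normSq_eq_conj_mul_self, Complex.ofReal_re]
    rw [Finset.sum_comm]
  have hWi : IntegrableOn (fun x => (W x).trace.re) (Icc (-L) L) := by
    refine ContinuousOn.integrableOn_compact isCompact_Icc ?_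
    simp only [trace, diag]
    exact Complex.continuous_re.comp_continuousOn (continuousOn_finsetSum _ fun a _ => hWc a a)
  have hUc : Continuous U := continuous_const.matrix_mul (continuous_famMat hf)
  have hlhs : IntegrableOn
      (fun x => ((U x)ᴴ * compV η (S * famMat f x) (W x) * U x).trace.re) (Icc (-L) L) := by
    refine ContinuousOn.integrableOn_compact isCompact_Icc ?_
    have hV : ContinuousOn (fun x => compV η (S * famMat f x) (W x)) (Icc (-L) L) :=
      continuousOn_pi.2 fun i => continuousOn_pi.2 fun j => hVc i j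
    exact Complex.continuous_re.comp_continuousOn (continuous_id.matrix_trace.comp_continuousOn
      (continuousOn_mmul (continuousOn_mmul (continuousOn_mct hUc.continuousOn) hV)
        hUc.continuousOn))
  have hmono := setIntegral_mono_on (hi1.sub (hWi.const_mul η)) hlhs measurableSet_Icc
    fun x hx => by
      have h := compV_energy hη (U x) (hW x hx)
      rw [(sandwich_pair hS (famMat f x) (W x)).1] at h
      exact h
  simp only [Pi.sub_apply] at hmono
  rw [integral_sub hi1 (hWi.const_mul η), integral_const_mul, hv1] at hmono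
  have hle : -L ≤ L := by linarith
  rw [intervalIntegral.integral_of_le hle, ← integral_Icc_eq_integral_Ioc, hkin,
    trace_mul_comm (A * A) (S * S)] at he
  rw [formMat_cut hL, Matrix.mul_sub, trace_sub, Complex.sub_re]
  linarith

/-- The positive part of the form controls the family on the interval. -/
theorem exists_mass_lower {L : ℝ} (hL : 0 < L)
    {W : ℝ → Matrix (Fin m) (Fin m) ℂ} (hWc : ∀ a b, ContinuousOn (fun x => W x a b) (Icc (-L) L))
    (hW : ∀ x ∈ Icc (-L) L, (W x).PosSemidef)
    {f f' : Fin N → ℝ → Fin m → ℂ} (hf : ∀ i, IsH1V (f i) (f' i))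
    (hpos : (formMat (cutW L W) f f').PosDef) :
    ∃ c, 0 < c ∧ ∀ v, c * General.nsq v ≤
      ∫ x in (-L)..L, General.nsq ((famMat f x)ᴴ *ᵥ v) := by
  set Λ := formMat (cutW L W) f f' with hΛ
  obtain ⟨B, hB⟩ := isCompact_Icc.exists_bound_of_continuousOn (f := fun x => (W x).trace.re) <| by
    simp only [trace, diag]
    exact Complex.continuous_re.comp_continuousOn (continuousOn_finsetSum _ fun a _ => hWc a a)
  obtain ⟨l, hl, hlb⟩ : ∃ l, 0 < l ∧ ∀ v, l * General.nsq v ≤ General.qf Λ v := by
    rcases isEmpty_or_nonempty (Fin N) with h | h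
    · exact ⟨1, one_pos, fun v => by simp [General.nsq, General.qf]⟩
    · obtain ⟨i, -, hi⟩ := Finset.exists_min_image Finset.univ hpos.1.eigenvalues
        Finset.univ_nonempty
      refine ⟨_, hpos.eigenvalues_pos i, fun v => ?_⟩
      have := (qf_mfun_bounds (φ := fun t => t) (b := ∑ j, hpos.1.eigenvalues j) hpos.1
        (fun j => ⟨hi j (Finset.mem_univ j), Finset.single_le_sum
          (fun k _ => (hpos.eigenvalues_pos k).le) (Finset.mem_univ j)⟩) v).1
      rwa [mfun_eq_self hpos.1 fun _ => rfl] at this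
  refine ⟨l / (|B| + 1), by positivity, fun v => ?_⟩
  set P := vecMulVec v (star v) with hP
  obtain ⟨hi1, hv1⟩ := integral_trace_mul (integrableOn_sandwich hf hWc) P
  obtain ⟨hi2, hv2⟩ := integral_trace_mul (fun i j => (integrable_gram hf i j).2) P
  simp only [hP, trace_vecMulVec_mul] at hv1 hv2 hi1
  have h := hlb v
  rw [hΛ, formMat_cut hL, General.qf_sub, ← hv1, ← hv2] at h
  have h2 : 0 ≤ ∫ x, General.qf (famMat f' x * (famMat f' x)ᴴ) v :=
    integral_nonneg fun x => (posSemidef_iff_qf.1 (posSemidef_self_mul_conjTranspose _)).2 v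
  have hUc := continuous_famMat hf
  have hi3 : IntegrableOn (fun x => General.nsq ((famMat f x)ᴴ *ᵥ v)) (Icc (-L) L) := by
    refine ContinuousOn.integrableOn_compact isCompact_Icc (Continuous.continuousOn ?_)
    have : Continuous fun x => (famMat f x)ᴴ *ᵥ v := hUc.matrix_conjTranspose.matrix_mulVec
      continuous_const
    unfold General.nsq
    fun_prop
  have h3 := setIntegral_mono_on hi1 (hi3.const_mul (|B| + 1)) measurableSet_Icc fun x hx => by
    rw [qf_conj]
    refine (qf_le_trace (hW x hx) _).trans (mul_le_mul_of_nonneg_right ?_ (General.nsq_nonneg _))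
    have := hB x hx
    rw [Real.norm_eq_abs] at this
    linarith [le_abs_self ((W x).trace.re), le_abs_self B]
  rw [integral_const_mul] at h3
  rw [intervalIntegral.integral_of_le (by linarith), ← integral_Icc_eq_integral_Ioc,
    div_mul_eq_mul_div, div_le_iff₀ (by positivity)]
  linarith

/-- Matching for the potentials compressed by a family of weights. -/
theorem exists_weighted_flow {L η θ δ D c : ℝ} (hL : 0 < L) (hη : 0 < η) (hθ : 0 < θ)
    (hδ : 0 < δ) (hD : 0 < D)
    {W : ℝ → Matrix (Fin m) (Fin m) ℂ} (hWc : ∀ a b, ContinuousOn (fun x => W x a b) (Icc (-L) L))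
    (hWθ : ∀ x ∈ Icc (-L) L, ∀ u, θ * General.nsq u ≤ General.qf (W x) u)
    (hW : ∀ x ∈ Icc (-L) L, (W x).PosSemidef)
    {f f' : Fin N → ℝ → Fin m → ℂ} (hf : ∀ i, IsH1V (f i) (f' i))
    (hmass : ∀ v, c * General.nsq v ≤ ∫ x in (-L)..L, General.nsq ((famMat f x)ᴴ *ᵥ v))
    (S : Matrix (Fin N) (Fin N) ℂ → Matrix (Fin N) (Fin N) ℂ)
    (hSc : ∀ R, ContinuousOn S (boxSet N δ R)) (hSh : ∀ A, (S A).IsHermitian)
    (hSD : ∀ R, ∀ A ∈ boxSet N δ R, ∀ w, General.nsq w = 1 → A *ᵥ w = (δ : ℂ) • w →
      ∀ x ∈ Icc (-L) L, ‖S A * famMat f x‖ ^ 2 + η ≤ D * General.nsq (S A *ᵥ w))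
    (hsmall : 2 * δ + 2 * L * δ ^ 2 < θ * c / D) :
    ∃ A F, A.PosDef ∧ (A - (δ : ℂ) • 1).PosSemidef ∧
      IsFlow L A (fun x => compV η (S A * famMat f x) (W x)) F ∧
      ∀ i j, ContinuousOn (fun x => compV η (S A * famMat f x) (W x) i j) (Icc (-L) L) := by
  obtain ⟨B, hB⟩ := isCompact_Icc.exists_bound_of_continuousOn (f := fun x => (W x).trace.re) <| by
    simp only [trace, diag]
    exact Complex.continuous_re.comp_continuousOn (continuousOn_finsetSum _ fun a _ => hWc a a)
  set R := δ + L * (|B| + 1) + 1 with hR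
  have hWc' : ContinuousOn W (Icc (-L) L) :=
    continuousOn_pi.2 fun a => continuousOn_pi.2 fun b => hWc a b
  set V := fun (A : Matrix (Fin N) (Fin N) ℂ) (x : ℝ) => compV η (S A * famMat f x) (W x) with hV
  have hVc : ContinuousOn (fun p : Matrix (Fin N) (Fin N) ℂ × ℝ => V p.1 p.2)
      (boxSet N δ R ×ˢ Icc (-L) L) := by
    have h1 : ContinuousOn (fun p : Matrix (Fin N) (Fin N) ℂ × ℝ => S p.1 * famMat f p.2)
        (boxSet N δ R ×ˢ Icc (-L) L) :=
      continuousOn_mmul ((hSc R).comp continuousOn_fst fun p hp => hp.1)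
        ((continuous_famMat hf).comp continuous_snd).continuousOn
    have h2 := (continuous_polarC (N := N) (m := m) hη).comp_continuousOn h1
    have h3 := (hWc'.comp continuousOn_snd fun (p : Matrix (Fin N) (Fin N) ℂ × ℝ)
      (hp : p ∈ boxSet N δ R ×ˢ Icc (-L) L) => hp.2)
    exact continuousOn_mmul (continuousOn_mmul h2 h3) (continuousOn_mct h2)
  have hUpper : ∀ x ∈ Icc (-L) L, ∀ A v, General.qf (V A x) v ≤ (|B| + 1) * General.nsq v := by
    intro x hx A v
    refine (compV_upper hη _ (hW x hx) v).trans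
      (mul_le_mul_of_nonneg_right ?_ (General.nsq_nonneg v))
    have := hB x hx
    rw [Real.norm_eq_abs] at this
    linarith [le_abs_self ((W x).trace.re), le_abs_self B]
  obtain ⟨A, F, hA1, hA2, hflow⟩ := exists_matching (δ := δ) (R := R) (M := |B| + 1) hL hδ
    (by rw [hR]; nlinarith [abs_nonneg B]) (by rw [hR]; nlinarith) V
    (fun i j => (continuous_id.matrix_elem i j).comp_continuousOn hVc)
    (fun A _ _ x hx => ⟨compV_posSemidef _ (hW x hx), hUpper x hx A⟩)
    (fun A hA1 hA2 w hn hw => by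
      refine lt_of_lt_of_le hsmall ?_
      set u := General.nsq (S A *ᵥ w) with hu
      have hmem : A ∈ boxSet N δ R := ⟨hA1, hA2⟩
      have hu0 : 0 < u := by
        have := hSD R A hmem w hn hw 0 ⟨by linarith, by linarith⟩
        by_contra hle
        push Not at hle
        nlinarith [sq_nonneg ‖S A * famMat f 0‖, mul_nonpos_of_nonneg_of_nonpos hD.le hle]
      have hi : IntervalIntegrable
          (fun x => General.nsq ((famMat f x)ᴴ *ᵥ (S A *ᵥ w))) volume (-L) L := by
        have : Continuous fun x => (famMat f x)ᴴ *ᵥ (S A *ᵥ w) :=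
          (continuous_famMat hf).matrix_conjTranspose.matrix_mulVec continuous_const
        refine Continuous.intervalIntegrable ?_ _ _
        unfold General.nsq
        fun_prop
      have hq : Continuous fun X : Matrix (Fin N) (Fin N) ℂ => General.qf X w := by
        unfold General.qf; fun_prop
      have hi2 : IntervalIntegrable (fun x => General.qf (V A x) w) volume (-L) L :=
        (hq.comp_continuousOn (hVc.comp (continuousOn_const.prodMk continuousOn_id)
          fun x hx => ⟨hmem, hx⟩)).intervalIntegrable_of_Icc (by linarith)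
      have hmono := intervalIntegral.integral_mono_on (show -L ≤ L by linarith)
        (hi.const_mul (θ / (D * u))) hi2 fun x hx => by
          refine le_trans ?_ (compV_lower hη _ (hWθ x hx) hθ.le w)
          rw [conjTranspose_mul, (hSh A).eq, ← mulVec_mulVec]
          rw [div_mul_eq_mul_div]
          exact div_le_div_of_nonneg_left (mul_nonneg hθ.le (General.nsq_nonneg _))
            (by positivity) (hSD R A hmem w hn hw x hx)
      rw [intervalIntegral.integral_const_mul] at hmono
      refine le_trans ?_ hmono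
      have hm := mul_le_mul_of_nonneg_left (hmass (S A *ᵥ w))
        (show 0 ≤ θ / (D * u) by positivity)
      refine le_trans (le_of_eq ?_) hm
      rw [← hu]
      field_simp)
  have hcA : ContinuousOn (fun x => V A x) (Icc (-L) L) :=
    hVc.comp (f := fun x : ℝ => (A, x)) (continuousOn_const.prodMk continuousOn_id)
      fun x hx => ⟨⟨hA1, hA2⟩, hx⟩
  refine ⟨A, F, ?_, hA1, hflow, fun i j => ?_⟩
  swap
  · exact (continuous_id.matrix_elem i j).comp_continuousOn hcA
  have h1 := (PosDef.one (n := Fin N) (R := ℂ)).smul (Complex.zero_lt_real.2 hδ)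
  have h2 := h1.add_posSemidef hA1
  rwa [add_sub_cancel] at h2

theorem abs_rpow_sub_le {g d : ℝ} (hd : 0 < d) (hg : g ≤ 0) {a b : ℝ} (ha : d ≤ a) (hb : d ≤ b) :
    |a ^ g - b ^ g| ≤ |g| * d ^ (g - 1) * |a - b| := by
  have h := Convex.norm_image_sub_le_of_norm_hasDerivWithin_le (f := fun t : ℝ => t ^ g)
    (f' := fun t => g * t ^ (g - 1)) (C := |g| * d ^ (g - 1)) (s := Ici d)
    (fun t ht => (Real.hasDerivAt_rpow_const (Or.inl (hd.trans_le ht).ne')).hasDerivWithinAt)
    (fun t ht => by
      rw [Real.norm_eq_abs, abs_mul, abs_of_nonneg (Real.rpow_nonneg (hd.le.trans ht) _)]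
      exact mul_le_mul_of_nonneg_left (Real.rpow_le_rpow_of_nonpos hd ht (by linarith))
        (abs_nonneg g)) (convex_Ici d) hb ha
  rwa [Real.norm_eq_abs, Real.norm_eq_abs] at h

theorem exists_compare {γ L η : ℝ} (hγ0 : 1 / 2 < γ) (hγ1 : γ < 3 / 2) (hL : 0 < L) (hη : 0 < η)
    {W : ℝ → Matrix (Fin m) (Fin m) ℂ} (hWc : ∀ a b, ContinuousOn (fun x => W x a b) (Icc (-L) L))
    (hWη : ∀ x ∈ Icc (-L) L, (W x - (η : ℂ) • 1).PosSemidef)
    {f f' : Fin N → ℝ → Fin m → ℂ} (hf : ∀ i, IsH1V (f i) (f' i))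
    (horth : ∀ i j, ∫ x, ∑ a, conj (f i x a) * f j x a = if i = j then 1 else 0)
    (hpos : (formMat (cutW L W) f f').PosDef) {e : ℝ} (he : 0 < e) :
    ∃ (A : Matrix (Fin N) (Fin N) ℂ) (V F : ℝ → Matrix (Fin N) (Fin N) ℂ),
      A.PosDef ∧ IsFlow L A V F ∧
      (∀ i j, ContinuousOn (fun x => V x i j) (Icc (-L) L)) ∧
      (∀ x ∈ Icc (-L) L, (V x).PosSemidef ∧
        trPowAt (γ + 1 / 2) (V x) ≤ trPowAt (γ + 1 / 2) (W x)) ∧
      trPowAt γ (formMat (cutW L W) f f') ≤ trPowAt γ (A * A) + e := by
  set Λ := formMat (cutW L W) f f' with hΛ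
  have hW : ∀ x ∈ Icc (-L) L, (W x).PosSemidef := fun x hx => by
    simpa using (hWη x hx).add (PosSemidef.one.smul (Complex.zero_le_real.2 hη.le))
  have hWθ : ∀ x ∈ Icc (-L) L, ∀ u, η * General.nsq u ≤ General.qf (W x) u := fun x hx u => by
    have := (posSemidef_iff_qf.1 (hWη x hx)).2 u
    rw [General.qf_sub, General.qf_smul, General.qf_one] at this
    linarith
  obtain ⟨c, hc, hmass⟩ := exists_mass_lower hL hWc hW hf hpos
  obtain ⟨Bu, hBu⟩ := isCompact_Icc.exists_bound_of_continuousOn (s := Icc (-L) L)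
    (continuous_famMat hf).continuousOn
  set T := ∫ x in Icc (-L) L, (W x).trace.re with hT
  have hT0 : 0 ≤ T := setIntegral_nonneg measurableSet_Icc fun x hx =>
    (Complex.le_def.1 (hW x hx).trace_nonneg).1
  set η' := e / (γ * T + 1) with hη'
  have hη'0 : 0 < η' := div_pos he (by nlinarith)
  have herr : γ * (η' * T) ≤ e := by
    rw [hη', div_mul_eq_mul_div, ← mul_div_assoc, div_le_iff₀ (by nlinarith)]
    nlinarith
  have choose_small : ∀ D : ℝ, 0 < D → ∃ δ, 0 < δ ∧ δ ≤ 1 ∧
      2 * δ + 2 * L * δ ^ 2 < η * c / D := fun D hD => by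
    have hq : 0 < η * c / D := by positivity
    refine ⟨min 1 (η * c / D / (2 * (1 + L) + 1)), lt_min one_pos (by positivity), min_le_left _ _, ?_⟩
    set d := min 1 (η * c / D / (2 * (1 + L) + 1)) with hd
    have h1 : d ≤ 1 := min_le_left _ _
    have h2 : d * (2 * (1 + L) + 1) ≤ η * c / D :=
      (le_div_iff₀ (by positivity)).1 (min_le_right _ _)
    have h0 : 0 < d := lt_min one_pos (by positivity)
    nlinarith [mul_le_mul_of_nonneg_left h1 (mul_nonneg hL.le h0.le)]
  have hVp : ∀ (S : Matrix (Fin N) (Fin N) ℂ), ∀ x ∈ Icc (-L) L,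
      (compV η' (S * famMat f x) (W x)).PosSemidef ∧
      trPowAt (γ + 1 / 2) (compV η' (S * famMat f x) (W x)) ≤ trPowAt (γ + 1 / 2) (W x) :=
    fun S x hx => ⟨compV_posSemidef _ (hW x hx),
      trPowAt_contract (by linarith) (polarC_contraction hη'0 _) (hW x hx)⟩
  rcases lt_or_ge γ 1 with hlt | hge
  · set D := ((N : ℝ) * N * (|Bu| + 1)) ^ 2 + η' with hD
    have hD0 : 0 < D := by positivity
    obtain ⟨δ, hδ, hδ1, hsmall⟩ := choose_small D hD0
    set g := γ - 1 with hg
    set φ : ℝ → ℝ := fun t => t ^ g with hφ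
    have heig : ∀ R, ∀ A ∈ boxSet N δ R, ∀ hA : A.IsHermitian, ∀ i, hA.eigenvalues i ∈ Ici δ :=
      fun R A hA hAh i => by
        obtain ⟨-, hb⟩ := mem_boxSet_iff.1 hA
        exact (eig_mem hAh (fun v => (hb v).1) (fun v => (hb v).2) i).1
    have hSc : ∀ R, ContinuousOn (fun A => mfun φ A) (boxSet N δ R) := fun R =>
      (lipschitzOn_mfun (K := Real.toNNReal (|g| * δ ^ (g - 1))) (fun A hA => boxSet_herm hA)
        (heig R) fun a ha b hb => by
          rw [Real.coe_toNNReal _ (by positivity)]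
          exact abs_rpow_sub_le hδ (by linarith) ha hb).continuousOn
    have hp1 : 1 ≤ δ ^ g := Real.one_le_rpow_of_pos_of_le_one_of_nonpos hδ hδ1 (by linarith)
    obtain ⟨A, F, hA, hAδ, hflow, hVc⟩ := exists_weighted_flow (θ := η) hL hη'0 hη hδ hD0 hWc hWθ hW
      hf hmass (fun A => mfun φ A) hSc (fun A => mfun_isHermitian' _ _)
      (fun R A hA w hn hw x hx => by
        have hAh := boxSet_herm hA
        rw [mfun_eigvec φ hAh hw, nsq_smul_vec, hn, mul_one]
        have h1 : ‖mfun φ A‖ ≤ N * (N * δ ^ g) := by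
          rw [mfun_of_hermitian φ hAh]
          refine (frob_le_of_conj (Subtype.prop _) (c := δ ^ g) fun i => ?_).trans_eq
            (by rw [abs_of_pos (by positivity)])
          have := heig R A hA hAh i
          rw [hφ, abs_of_nonneg (Real.rpow_nonneg (hδ.le.trans this) _)]
          exact Real.rpow_le_rpow_of_nonpos hδ this (by linarith)
        have h2 : ‖mfun φ A * famMat f x‖ ≤ (N : ℝ) * N * (|Bu| + 1) * δ ^ g := by
          refine (frobenius_norm_mul _ _).trans ((mul_le_mul h1 (((hBu x hx).trans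
            ((le_abs_self Bu).trans (le_add_of_nonneg_right zero_le_one)))) (norm_nonneg _)
            (by positivity)).trans_eq (by ring))
        have h3 := pow_le_pow_left₀ (norm_nonneg _) h2 2
        rw [mul_pow] at h3
        rw [hD, add_mul, hφ]
        refine add_le_add h3 (le_mul_of_one_le_right hη'0.le ?_)
        exact one_le_pow₀ hp1) hsmall
    refine ⟨A, _, F, hA, hflow, hVc, fun x hx => hVp _ x hx, ?_⟩
    have hE := weighted_energy hL hη'0 hWc hW hf horth hA.posSemidef (mfun_isHermitian' φ A)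
      hflow hVc
    have hA2 : (A * A).PosDef := by
      have h := PosDef.conjTranspose_mul_self A
        (Matrix.mulVec_injective_iff_isUnit.2 hA.isUnit)
      rwa [hA.1.eq] at h
    have hsq : mfun φ A * mfun φ A = mfun (fun t => t ^ g) (A * A) := by
      rw [mfun_mul' _ _ hA.1, mfun_comp_sq _ hA.1]
      refine mfun_congr_eig hA.1 fun i => ?_
      have ht := hA.eigenvalues_pos i
      simp only [hφ]
      rw [← Real.rpow_add ht, ← Real.rpow_natCast _ 2, ← Real.rpow_mul ht.le]
      norm_num
      ring_nf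
    rw [hsq] at hE
    refine (trPowAt_tangent (r := γ) (by linarith) hlt.le hA2 hpos.posSemidef).trans
      (add_le_add le_rfl (le_trans (mul_le_mul_of_nonneg_left ?_ (by linarith)) herr))
    rw [Matrix.mul_sub, trace_sub, Complex.sub_re]
    linarith
  · set g := (γ - 1) / 2 with hg
    set φ : ℝ → ℝ := fun t => t ^ g with hφ
    set S := mfun φ Λ with hS
    obtain ⟨l, hl, hlow⟩ : ∃ l, 0 < l ∧ ∀ w, General.nsq w = 1 → l ≤ General.nsq (S *ᵥ w) := by
      rcases isEmpty_or_nonempty (Fin N) with h | h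
      · exact ⟨1, one_pos, fun w hw => absurd hw (by simp [General.nsq])⟩
      · obtain ⟨i, -, hi⟩ := Finset.exists_min_image Finset.univ
          (fun j => φ (hpos.1.eigenvalues j) * φ (hpos.1.eigenvalues j)) Finset.univ_nonempty
        have hpos' : ∀ j, 0 < φ (hpos.1.eigenvalues j) := fun j =>
          Real.rpow_pos_of_pos (hpos.eigenvalues_pos j) _
        refine ⟨_, mul_pos (hpos' i) (hpos' i), fun w hw => ?_⟩
        have := (qf_mfun_bounds (φ := fun t => φ t * φ t)
          (b := ∑ j, φ (hpos.1.eigenvalues j) * φ (hpos.1.eigenvalues j)) hpos.1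
          (fun j => ⟨hi j (Finset.mem_univ j), Finset.single_le_sum
            (f := fun k => φ (hpos.1.eigenvalues k) * φ (hpos.1.eigenvalues k))
            (fun k _ => mul_self_nonneg _) (Finset.mem_univ j)⟩) w).1
        rw [← mfun_mul' _ _ hpos.1, qf_mul_self (mfun_isHermitian' φ Λ), hw, mul_one] at this
        exact this
    set D := ((‖S‖ * (|Bu| + 1)) ^ 2 + η') / l with hD
    have hD0 : 0 < D := by positivity
    obtain ⟨δ, hδ, hδ1, hsmall⟩ := choose_small D hD0
    obtain ⟨A, F, hA, hAδ, hflow, hVc⟩ := exists_weighted_flow (θ := η) hL hη'0 hη hδ hD0 hWc hWθ hW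
      hf hmass (fun _ => S) (fun R => continuousOn_const) (fun _ => mfun_isHermitian' _ _)
      (fun R A hA w hn hw x hx => by
        have h2 : ‖S * famMat f x‖ ≤ ‖S‖ * (|Bu| + 1) :=
          (frobenius_norm_mul _ _).trans (mul_le_mul_of_nonneg_left ((hBu x hx).trans
            ((le_abs_self Bu).trans (le_add_of_nonneg_right zero_le_one))) (norm_nonneg _))
        have h3 := pow_le_pow_left₀ (norm_nonneg _) h2 2
        rw [hD, div_mul_eq_mul_div, le_div_iff₀ hl]
        exact mul_le_mul (add_le_add h3 le_rfl) (hlow w hn) hl.le (by positivity)) hsmall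
    refine ⟨A, _, F, hA, hflow, hVc, fun x hx => hVp _ x hx, ?_⟩
    have hE := weighted_energy hL hη'0 hWc hW hf horth hA.posSemidef (mfun_isHermitian' φ Λ)
      hflow hVc
    have hsq : S * S = mfun (fun t => t ^ (γ - 1)) Λ := by
      rw [hS, mfun_mul' _ _ hpos.1]
      refine mfun_congr_eig hpos.1 fun i => ?_
      simp only [hφ]
      rw [← Real.rpow_add (hpos.eigenvalues_pos i), hg, add_halves]
    rw [← hS, hsq] at hE
    have hA2 : (A * A).PosSemidef := by
      have h := posSemidef_conjTranspose_mul_self A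
      rwa [hA.1.eq] at h
    exact (trPowAt_le_of_pair hge hA2 hpos hE).trans (add_le_add le_rfl herr)

end Vale.Agent.P371.All
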