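import Vale.Agent.P371.All.Matching

/-!
# P371: functional calculus helpers for the comparison step
-/

namespace Vale.Agent.P371.All

open Matrix Set Filter MeasureTheory
open scoped ComplexOrder ComplexConjugate Topology Matrix.Norms.Frobenius

variable {N m : ℕ}

/-- Two matrices agreeing on an eigenbasis are equal. -/
theorem mfun_ext {A M M' : Matrix (Fin N) (Fin N) ℂ} (hA : A.IsHermitian)
    (h : ∀ i, M *ᵥ ⇑(hA.eigenvectorBasis i) = M' *ᵥ ⇑(hA.eigenvectorBasis i)) : M = M' := by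
  set U : Matrix (Fin N) (Fin N) ℂ := (hA.eigenvectorUnitary : Matrix (Fin N) (Fin N) ℂ) with hU
  have hU2 : U * Uᴴ = 1 := Unitary.coe_mul_star_self hA.eigenvectorUnitary
  have e : M * U = M' * U := by
    ext i j
    have := congrFun (h j) i
    simpa [Matrix.mul_apply, mulVec, dotProduct, hU] using this
  calc M = M * U * Uᴴ := by rw [Matrix.mul_assoc, hU2, Matrix.mul_one]
    _ = M' * U * Uᴴ := by rw [e]
    _ = M' := by rw [Matrix.mul_assoc, hU2, Matrix.mul_one]

theorem mfun_congr_eig {φ ψ : ℝ → ℝ} {A : Matrix (Fin N) (Fin N) ℂ} (hA : A.IsHermitian)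
    (h : ∀ i, φ (hA.eigenvalues i) = ψ (hA.eigenvalues i)) : mfun φ A = mfun ψ A := by
  rw [mfun_of_hermitian φ hA, mfun_of_hermitian ψ hA]
  simp only [h]

theorem mfun_mul' (φ ψ : ℝ → ℝ) {A : Matrix (Fin N) (Fin N) ℂ} (hA : A.IsHermitian) :
    mfun φ A * mfun ψ A = mfun (fun t => φ t * ψ t) A := by
  refine mfun_ext hA fun i => ?_
  have h := (eigen_unit hA i).2
  rw [← mulVec_mulVec, mfun_eigvec ψ hA h, mulVec_smul, mfun_eigvec φ hA h, mfun_eigvec _ hA h,
    smul_smul]
  push_cast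
  rw [mul_comm]

theorem mfun_comp_sq (φ : ℝ → ℝ) {A : Matrix (Fin N) (Fin N) ℂ} (hA : A.IsHermitian) :
    mfun φ (A * A) = mfun (fun t => φ (t ^ 2)) A := by
  have hAA : (A * A).IsHermitian := by
    have h := isHermitian_conjTranspose_mul_self A
    rwa [hA.eq] at h
  refine mfun_ext hA fun i => ?_
  have h := (eigen_unit hA i).2
  rw [mfun_eigvec _ hA h, mfun_eigvec φ hAA (c := hA.eigenvalues i ^ 2) ?_]
  rw [← mulVec_mulVec, h, mulVec_smul, h, smul_smul]
  push_cast
  rw [sq]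

theorem mfun_affine (φ : ℝ → ℝ) (c : ℝ) {A : Matrix (Fin N) (Fin N) ℂ} (hA : A.IsHermitian) :
    mfun (fun t => φ t + c - t) A = mfun φ A + (c : ℂ) • 1 - A := by
  refine mfun_ext hA fun i => ?_
  have h := (eigen_unit hA i).2
  rw [mfun_eigvec _ hA h, sub_mulVec, add_mulVec, smul_mulVec, one_mulVec, mfun_eigvec φ hA h, h]
  push_cast
  module

theorem trace_mul_mfun_nonneg {W A : Matrix (Fin N) (Fin N) ℂ} (hW : W.PosSemidef)
    (hA : A.IsHermitian) {φ : ℝ → ℝ} (h : ∀ i, 0 ≤ φ (hA.eigenvalues i)) :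
    0 ≤ (W * mfun φ A).trace.re := by
  rw [mfun_of_hermitian φ hA]
  set U : Matrix (Fin N) (Fin N) ℂ := (hA.eigenvectorUnitary : Matrix (Fin N) (Fin N) ℂ)
  rw [← Matrix.mul_assoc, trace_mul_comm, ← Matrix.mul_assoc, ← Matrix.mul_assoc,
    trace, Complex.re_sum]
  refine Finset.sum_nonneg fun i _ => ?_
  simp only [diag_apply, mul_diagonal, Complex.mul_re, Complex.ofReal_re, Complex.ofReal_im,
    mul_zero, sub_zero]
  exact mul_nonneg (Complex.le_def.1 ((hW.conjTranspose_mul_mul_same U).diag_nonneg (i := i))).1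
    (h i)

theorem eig_le_trace {A : Matrix (Fin N) (Fin N) ℂ} (hA : A.PosSemidef) (i : Fin N) :
    hA.1.eigenvalues i ≤ A.trace.re := by
  rw [hA.1.trace_eq_sum_eigenvalues, Complex.re_sum]
  simpa using Finset.single_le_sum (f := fun j => hA.1.eigenvalues j)
    (fun j _ => hA.eigenvalues_nonneg j) (Finset.mem_univ i)

theorem qf_le_trace {A : Matrix (Fin N) (Fin N) ℂ} (hA : A.PosSemidef) (v : Fin N → ℂ) :
    General.qf A v ≤ A.trace.re * General.nsq v := by
  have h := (qf_mfun_bounds (φ := fun t => t) (a := 0) hA.1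
    (fun i => ⟨hA.eigenvalues_nonneg i, eig_le_trace hA i⟩) v).2
  rwa [mfun_eq_self hA.1 fun i => rfl] at h

theorem qf_conj {p q : ℕ} (C : Matrix (Fin p) (Fin q) ℂ) (W : Matrix (Fin q) (Fin q) ℂ)
    (v : Fin p → ℂ) : General.qf (C * W * Cᴴ) v = General.qf W (Cᴴ *ᵥ v) := by
  simp only [General.qf, star_mulVec, conjTranspose_conjTranspose, ← mulVec_mulVec,
    dotProduct_mulVec (star v) C]

theorem qf_mul_self {A : Matrix (Fin N) (Fin N) ℂ} (hA : A.IsHermitian) (v : Fin N → ℂ) :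
    General.qf (A * A) v = General.nsq (A *ᵥ v) := by
  have h := qf_conj A 1 v
  rw [hA.eq, Matrix.mul_one, General.qf_one] at h
  exact h

theorem frob_sq_rect {p q : ℕ} (Y : Matrix (Fin p) (Fin q) ℂ) :
    ‖Y‖ ^ 2 = (Yᴴ * Y).trace.re := by
  rw [frobenius_norm_def, ← Real.rpow_natCast _ 2, ← Real.rpow_mul (by positivity)]
  simp only [trace, diag, Matrix.mul_apply, conjTranspose_apply, Complex.re_sum, Complex.star_def,
    ← Complex.normSq_eq_conj_mul_self, Complex.ofReal_re]
  rw [Finset.sum_comm]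
  norm_num [Complex.normSq_eq_norm_sq]

theorem lipschitzOn_mfun {φ : ℝ → ℝ} {K : NNReal} {s : Set (Matrix (Fin N) (Fin N) ℂ)}
    {t : Set ℝ} (hs : ∀ A ∈ s, A.IsHermitian)
    (he : ∀ A ∈ s, ∀ hA : A.IsHermitian, ∀ i, hA.eigenvalues i ∈ t)
    (hφ : ∀ a ∈ t, ∀ b ∈ t, |φ a - φ b| ≤ K * |a - b|) :
    LipschitzOnWith K (fun A => mfun φ A) s := by
  refine LipschitzOnWith.of_dist_le_mul fun A hA B hB => ?_
  rw [dist_eq_norm, dist_eq_norm]
  refine (pow_le_pow_iff_left₀ (norm_nonneg _) (by positivity) two_ne_zero).1 ?_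
  rw [mul_pow, frob_sq, frob_sq]
  exact mfun_lipschitz (hs A hA) (hs B hB) fun i j => hφ _ (he A hA _ i) _ (he B hB _ j)

/-- The regularised inverse square root. -/
noncomputable def regInv (η t : ℝ) : ℝ := (Real.sqrt (max t 0 + η))⁻¹

theorem regInv_lipschitz {η : ℝ} (hη : 0 < η) (a b : ℝ) :
    |regInv η a - regInv η b| ≤ 1 / (η * Real.sqrt η) * |a - b| := by
  unfold regInv
  set A := max a 0 + η with hA
  set B := max b 0 + η with hB
  have hAη : η ≤ A := by simp [hA]
  have hBη : η ≤ B := by simp [hB]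
  have hs : 0 < Real.sqrt η := Real.sqrt_pos.2 hη
  have hsA : Real.sqrt η ≤ Real.sqrt A := Real.sqrt_le_sqrt hAη
  have hsB : Real.sqrt η ≤ Real.sqrt B := Real.sqrt_le_sqrt hBη
  have hA0 : 0 < Real.sqrt A := hs.trans_le hsA
  have hB0 : 0 < Real.sqrt B := hs.trans_le hsB
  have hd : |B - A| ≤ |a - b| := by
    rw [abs_sub_comm, hA, hB, add_sub_add_right_eq_sub]
    exact le_trans (abs_max_sub_max_le_max _ _ _ _) (by simp)
  have e : (Real.sqrt A)⁻¹ - (Real.sqrt B)⁻¹
      = (B - A) / (Real.sqrt A * Real.sqrt B * (Real.sqrt A + Real.sqrt B)) := by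
    have h1 := Real.sq_sqrt (hη.le.trans hAη)
    have h2 := Real.sq_sqrt (hη.le.trans hBη)
    field_simp
    linear_combination h2 - h1
  rw [e, abs_div, abs_of_pos (show 0 < Real.sqrt A * Real.sqrt B * (Real.sqrt A + Real.sqrt B) by
    positivity), one_div_mul_eq_div]
  have hden : η * Real.sqrt η ≤ Real.sqrt A * Real.sqrt B * (Real.sqrt A + Real.sqrt B) := by
    have h0 := Real.mul_self_sqrt hη.le
    calc η * Real.sqrt η = Real.sqrt η * Real.sqrt η * Real.sqrt η := by rw [h0]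
      _ ≤ _ := mul_le_mul (mul_le_mul hsA hsB hs.le hA0.le) (by linarith) hs.le (by positivity)
  exact div_le_div₀ (abs_nonneg _) hd (by positivity) hden

theorem regInv_sq {η t : ℝ} (hη : 0 < η) (ht : 0 ≤ t) : regInv η t ^ 2 = 1 / (t + η) := by
  rw [regInv, max_eq_left ht, inv_pow, Real.sq_sqrt (by linarith), one_div]

/-- The contraction `Y (YᴴY + η)^(-1/2)`. -/
noncomputable def polarC (η : ℝ) (Y : Matrix (Fin N) (Fin m) ℂ) : Matrix (Fin N) (Fin m) ℂ :=
  Y * mfun (regInv η) (Yᴴ * Y)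

/-- The compressed potential. -/
noncomputable def compV (η : ℝ) (Y : Matrix (Fin N) (Fin m) ℂ) (W : Matrix (Fin m) (Fin m) ℂ) :
    Matrix (Fin N) (Fin N) ℂ :=
  polarC η Y * W * (polarC η Y)ᴴ

theorem continuous_polarC {η : ℝ} (hη : 0 < η) :
    Continuous (polarC (N := N) (m := m) η) := by
  refine continuous_id.matrix_mul ?_
  have h : LipschitzOnWith (Real.toNNReal (1 / (η * Real.sqrt η)))
      (fun A : Matrix (Fin m) (Fin m) ℂ => mfun (regInv η) A) {A | A.IsHermitian} := by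
    refine lipschitzOn_mfun (t := univ) (fun A hA => hA) (fun _ _ _ _ => mem_univ _) ?_
    intro a _ b _
    rw [Real.coe_toNNReal _ (by positivity)]
    exact regInv_lipschitz hη a b
  exact h.continuousOn.comp_continuous (continuous_id.matrix_conjTranspose.matrix_mul continuous_id)
    fun Y => isHermitian_conjTranspose_mul_self Y

theorem polarC_contraction {η : ℝ} (hη : 0 < η) (Y : Matrix (Fin N) (Fin m) ℂ) :
    (1 - (polarC η Y)ᴴ * polarC η Y).PosSemidef := by
  set G := Yᴴ * Y with hG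
  have hGp : G.PosSemidef := posSemidef_conjTranspose_mul_self Y
  have hR : (mfun (regInv η) G)ᴴ = mfun (regInv η) G := (mfun_isHermitian' _ _).eq
  have e : (polarC η Y)ᴴ * polarC η Y = mfun (fun t => regInv η t * t * regInv η t) G := by
    have hid : G = mfun (fun t => t) G := (mfun_eq_self hGp.1 fun _ => rfl).symm
    rw [polarC, conjTranspose_mul, ← hG, hR, Matrix.mul_assoc, ← Matrix.mul_assoc Yᴴ, ← hG,
      ← Matrix.mul_assoc]
    conv_lhs => arg 1; arg 2; rw [hid]
    rw [mfun_mul' _ _ hGp.1, mfun_mul' _ _ hGp.1]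
  rw [e, posSemidef_iff_qf]
  refine ⟨isHermitian_one.sub (mfun_isHermitian' _ _), fun v => ?_⟩
  rw [General.qf_sub, General.qf_one]
  have h := (qf_mfun_bounds (φ := fun t => regInv η t * t * regInv η t) (a := 0) (b := 1) hGp.1
    (fun i => ?_) v).2
  · linarith
  · have ht := hGp.eigenvalues_nonneg i
    rw [show regInv η (hGp.1.eigenvalues i) * hGp.1.eigenvalues i * regInv η (hGp.1.eigenvalues i)
      = regInv η (hGp.1.eigenvalues i) ^ 2 * hGp.1.eigenvalues i by ring, regInv_sq hη ht]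
    refine ⟨by positivity, ?_⟩
    rw [one_div_mul_eq_div, div_le_one (by linarith)]
    linarith

theorem compV_posSemidef {η : ℝ} (Y : Matrix (Fin N) (Fin m) ℂ)
    {W : Matrix (Fin m) (Fin m) ℂ} (hW : W.PosSemidef) : (compV η Y W).PosSemidef :=
  hW.mul_mul_conjTranspose_same _

theorem compV_upper {η : ℝ} (hη : 0 < η) (Y : Matrix (Fin N) (Fin m) ℂ)
    {W : Matrix (Fin m) (Fin m) ℂ} (hW : W.PosSemidef) (v : Fin N → ℂ) :
    General.qf (compV η Y W) v ≤ W.trace.re * General.nsq v := by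
  refine (qf_le_trace (compV_posSemidef Y hW) v).trans
    (mul_le_mul_of_nonneg_right ?_ (General.nsq_nonneg v))
  have hc := polarC_contraction hη Y
  set C := polarC η Y
  rw [compV, trace_mul_cycle]
  have hid : W = mfun (fun t => t) W := (mfun_eq_self hW.1 fun _ => rfl).symm
  have h := trace_mul_mfun_nonneg (φ := fun t => t) hc hW.1 hW.eigenvalues_nonneg
  rw [← hid, Matrix.sub_mul, Matrix.one_mul, trace_sub, Complex.sub_re] at h
  linarith

theorem compV_lower {η c : ℝ} (hη : 0 < η) (Y : Matrix (Fin N) (Fin m) ℂ)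
    {W : Matrix (Fin m) (Fin m) ℂ} (hW : ∀ u, c * General.nsq u ≤ General.qf W u) (hc : 0 ≤ c)
    (v : Fin N → ℂ) :
    c * General.nsq (Yᴴ *ᵥ v) / (‖Y‖ ^ 2 + η) ≤ General.qf (compV η Y W) v := by
  set G := Yᴴ * Y with hG
  have hGp : G.PosSemidef := posSemidef_conjTranspose_mul_self Y
  have hR := mfun_isHermitian' (regInv η) G
  rw [compV, qf_conj]
  refine le_trans ?_ (hW _)
  rw [mul_div_assoc]
  refine mul_le_mul_of_nonneg_left ?_ hc
  rw [polarC, conjTranspose_mul, ← hG, hR.eq, ← mulVec_mulVec, ← qf_mul_self hR,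
    mfun_mul' _ _ hGp.1, frob_sq_rect, ← hG, div_eq_inv_mul]
  refine (qf_mfun_bounds (φ := fun t => regInv η t * regInv η t)
    (b := 1 / η) hGp.1 (fun i => ?_) _).1
  have ht := hGp.eigenvalues_nonneg i
  rw [← sq, regInv_sq hη ht, ← one_div]
  exact ⟨one_div_le_one_div_of_le (by linarith) (by linarith [eig_le_trace hGp i]),
    one_div_le_one_div_of_le hη (by linarith)⟩

theorem compV_energy {η : ℝ} (hη : 0 < η) (Y : Matrix (Fin N) (Fin m) ℂ)
    {W : Matrix (Fin m) (Fin m) ℂ} (hW : W.PosSemidef) :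
    (W * (Yᴴ * Y)).trace.re - η * W.trace.re ≤ (Yᴴ * compV η Y W * Y).trace.re := by
  set G := Yᴴ * Y with hG
  have hGp : G.PosSemidef := posSemidef_conjTranspose_mul_self Y
  have hR := mfun_isHermitian' (regInv η) G
  set φ : ℝ → ℝ := fun t => regInv η t * t * t * regInv η t with hφ
  have e : (Yᴴ * compV η Y W * Y).trace = (W * mfun φ G).trace := by
    rw [compV, polarC, conjTranspose_mul, ← hG, hR.eq]
    rw [show Yᴴ * (Y * mfun (regInv η) G * W * (mfun (regInv η) G * Yᴴ)) * Y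
        = G * mfun (regInv η) G * W * (mfun (regInv η) G * G) by
      simp only [hG, Matrix.mul_assoc]]
    rw [trace_mul_cycle, trace_mul_comm]
    have hid : G = mfun (fun t => t) G := (mfun_eq_self hGp.1 fun _ => rfl).symm
    congr 1
    congr 1
    conv_lhs =>
      arg 1; arg 2; rw [hid]
    conv_lhs =>
      arg 2; arg 1; rw [hid]
    rw [mfun_mul' _ _ hGp.1, mfun_mul' _ _ hGp.1, mfun_mul' _ _ hGp.1]
    exact mfun_congr_eig hGp.1 fun i => by simp only [hφ]; ring
  have h := trace_mul_mfun_nonneg (φ := fun t => φ t + η - t) hW hGp.1 fun i => ?_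
  · rw [mfun_affine φ η hGp.1] at h
    simp only [Matrix.mul_sub, Matrix.mul_add, Matrix.mul_smul, Matrix.mul_one, trace_sub, trace_add,
      trace_smul, smul_eq_mul, Complex.sub_re, Complex.add_re, Complex.re_ofReal_mul] at h
    rw [e]
    linarith
  · have ht := hGp.eigenvalues_nonneg i
    set t := hGp.1.eigenvalues i
    have e2 : φ t = t ^ 2 * (1 / (t + η)) := by rw [← regInv_sq hη ht]; simp only [hφ]; ring
    rw [e2, mul_one_div, sub_nonneg, div_add' _ _ _ (by linarith), le_div_iff₀ (by linarith)]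
    nlinarith [mul_nonneg ht hη.le]

theorem isH1_conj {f f' : ℝ → ℂ} (h : IsH1 f f') :
    IsH1 (fun x => conj (f x)) (fun x => conj (f' x)) :=
  ⟨fun x => (h.1 x).star, Complex.continuous_conj.comp h.2.1, h.2.2.1.star, h.2.2.2.star⟩

theorem isH1_sum {g g' : Fin N → ℝ → ℂ} (c : Fin N → ℂ) (h : ∀ k, IsH1 (g k) (g' k)) :
    IsH1 (fun x => ∑ k, c k * g k x) (fun x => ∑ k, c k * g' k x) :=
  ⟨fun x => HasDerivAt.fun_sum fun k _ => ((h k).1 x).const_mul (c k),
    continuous_finsetSum _ fun k _ => continuous_const.mul (h k).2.1,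
    memLp_finsetSum _ fun k _ => (h k).2.2.1.const_mul (c k),
    memLp_finsetSum _ fun k _ => (h k).2.2.2.const_mul (c k)⟩

/-- A trace pairing commutes with the integral. -/
theorem integral_trace_mul {μ : Measure ℝ} {X : ℝ → Matrix (Fin N) (Fin N) ℂ}
    (hX : ∀ i j, Integrable (fun x => X x i j) μ) (S : Matrix (Fin N) (Fin N) ℂ) :
    Integrable (fun x => (S * X x).trace.re) μ ∧
      ∫ x, (S * X x).trace.re ∂μ = (S * Matrix.of fun i j => ∫ x, X x i j ∂μ).trace.re := by
  have hi : ∀ i j, Integrable (fun x => S i j * X x j i) μ := fun i j => (hX j i).const_mul _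
  have hs : ∀ i, Integrable (fun x => ∑ j, S i j * X x j i) μ := fun i =>
    integrable_finsetSum _ fun j _ => hi i j
  have ht : Integrable (fun x => ∑ i, ∑ j, S i j * X x j i) μ :=
    integrable_finsetSum _ fun i _ => hs i
  simp only [trace, diag, Matrix.mul_apply, Matrix.of_apply]
  refine ⟨ht.re, ?_⟩
  refine (integral_re (𝕜 := ℂ) ht).trans ?_
  rw [integral_finsetSum _ fun i _ => hs i]
  simp only [RCLike.re_to_complex]
  congr 1
  refine Finset.sum_congr rfl fun i _ => ?_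
  rw [integral_finsetSum _ fun j _ => hi i j]
  exact Finset.sum_congr rfl fun j _ => integral_const_mul _ _

theorem trace_vecMulVec_mul (v : Fin N → ℂ) (X : Matrix (Fin N) (Fin N) ℂ) :
    (vecMulVec v (star v) * X).trace.re = General.qf X v := by
  rw [General.qf]
  congr 1
  rw [vecMulVec_mul, trace_vecMulVec, dotProduct_comm, dotProduct_mulVec]

end Vale.Agent.P371.All
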