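import Vale.Agent.P371.GLayer
import Vale.Agent.P371.MLift

/-!
# P371: definitions for the sharp constant on the whole interval `1/2 < γ < 3/2`
-/

namespace Vale.Agent.P371.All

open Matrix MeasureTheory Set
open scoped ComplexOrder ComplexConjugate

variable {N m : ℕ}

/-- The pencil has margin `ε`: `ε ≤ P - 2sF + s²` for every real `s`. -/
def Margin (P F : Matrix (Fin N) (Fin N) ℂ) (ε : ℝ) : Prop :=
  ∀ (s : ℝ) (v : Fin N → ℂ), ε * General.nsq v ≤ General.qf (General.pencil P F s 0) v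

/-- `π⁻¹ ∫ (P - 2sF + s² + l)⁻¹ ds`, entrywise. -/
noncomputable def layerZ (P F : Matrix (Fin N) (Fin N) ℂ) (l : ℝ) : Matrix (Fin N) (Fin N) ℂ :=
  Matrix.of fun i j => ((Real.pi⁻¹ : ℝ) : ℂ) * ∫ s : ℝ, (General.pencil P F s l)⁻¹ i j

/-- The trace of the inverse of `layerZ`. -/
noncomputable def layerSig (P F : Matrix (Fin N) (Fin N) ℂ) (l : ℝ) : ℝ :=
  ((layerZ P F l)⁻¹).trace.re

/-- The layer density paired with `H`. -/
noncomputable def layerPair (P F H : Matrix (Fin N) (Fin N) ℂ) (l : ℝ) : ℝ :=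
  H.trace.re / Real.sqrt l - (layerZ P F l * H).trace.re

/-- The layered gradient paired with `H`. -/
noncomputable def potPair (ν : ℝ) (P F H : Matrix (Fin N) (Fin N) ℂ) : ℝ :=
  ∫ l in Ioi (0 : ℝ), l ^ (ν - 1 / 2) * layerPair P F H l

/-- A function applied to a Hermitian matrix through its eigenvalues (`0` off the Hermitian
matrices). -/
noncomputable def mfun (φ : ℝ → ℝ) (A : Matrix (Fin N) (Fin N) ℂ) : Matrix (Fin N) (Fin N) ℂ :=
  if h : A.IsHermitian then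
    (h.eigenvectorUnitary : Matrix (Fin N) (Fin N) ℂ) *
      diagonal (fun i => (φ (h.eigenvalues i) : ℂ)) *
      (h.eigenvectorUnitary : Matrix (Fin N) (Fin N) ℂ)ᴴ
  else 0

/-- A matrix potential cut off outside `[-L, L]`. -/
noncomputable def cutW (L : ℝ) (W : ℝ → Matrix (Fin m) (Fin m) ℂ) (x : ℝ) :
    Matrix (Fin m) (Fin m) ℂ :=
  if x ∈ Icc (-L) L then W x else 0

/-- The matrix of the quadratic form `∫ W |f|² - |f'|²` on a finite family. -/
noncomputable def formMat (W : ℝ → Matrix (Fin m) (Fin m) ℂ) (f f' : Fin N → ℝ → Fin m → ℂ) :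
    Matrix (Fin N) (Fin N) ℂ :=
  Matrix.of fun i j => (∫ x, ∑ a, conj (f i x a) * (W x *ᵥ f j x) a)
    - ∫ x, ∑ a, conj (f' i x a) * f' j x a

/-- `F` solves `F' = A² - F² - V` on `[-L, L]`, runs from `A` to `-A`, and `⟪w,Fw⟫² ≤ ⟪w,A²w⟫|w|²`. -/
def IsFlow (L : ℝ) (A : Matrix (Fin N) (Fin N) ℂ) (V F : ℝ → Matrix (Fin N) (Fin N) ℂ) : Prop :=
  (∀ x ∈ Icc (-L) L, ∀ i j,
    HasDerivWithinAt (fun y => F y i j) ((A * A - F x * F x - V x) i j) (Icc (-L) L) x) ∧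
  F (-L) = A ∧ F L = -A ∧ (∀ x ∈ Icc (-L) L, (F x).IsHermitian) ∧
  ∀ x ∈ Icc (-L) L, ∀ w : Fin N → ℂ,
    General.qf (F x) w ^ 2 ≤ General.qf (A * A) w * General.nsq w

/-- `∫₀¹ (1 - u²)^ν du`. -/
noncomputable def halfI (ν : ℝ) : ℝ := ∫ u in (0 : ℝ)..1, (1 - u ^ 2) ^ ν

/-- The one-bound-state constant `2 ((γ-1/2)/(γ+1/2))^(γ-1/2) L^cl_γ`. -/
noncomputable def kellerConst (γ : ℝ) : ℝ :=
  2 * ((γ - 1 / 2) / (γ + 1 / 2)) ^ (γ - 1 / 2) * ltClassical γ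

/-- The constant of the pointwise bound. -/
noncomputable def dissConst (ν : ℝ) : ℝ := 1 / ν * (ν / (1 + ν)) ^ (1 + ν)

end Vale.Agent.P371.All
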