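import Vale.Agent.P371.All.LayerStar

/-!
# P371: the layer identities `σ = tr G`, `2σ' = tr Z`, `tr Z(X + l) ≤ σ` and asymptotics
-/

namespace Vale.Agent.P371.All

open Matrix MeasureTheory Set Filter General
open scoped ComplexOrder ComplexConjugate Topology

variable {N : ℕ}

/-- The trace identity from `M Z - Z Mᴴ = 2i` against a test matrix. -/
theorem star_trace {F G Z : Matrix (Fin N) (Fin N) ℂ} (hF : F.IsHermitian) (hG : G.IsHermitian)
    (hstar : (F + Complex.I • G) * Z - Z * (F + Complex.I • G)ᴴ = (2 * Complex.I) • 1)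
    (B : Matrix (Fin N) (Fin N) ℂ) :
    (F * Z * B).trace - (Z * F * B).trace + Complex.I * ((G * Z * B).trace + (Z * G * B).trace)
      = 2 * Complex.I * B.trace := by
  have h := congrArg (fun A => (A * B).trace) hstar
  simp only [conjTranspose_add, conjTranspose_smul, hF.eq, hG.eq, Complex.star_def, Complex.conj_I,
    Matrix.add_mul, Matrix.mul_add, Matrix.sub_mul, Matrix.smul_mul, Matrix.mul_smul,
    Matrix.one_mul, trace_sub, trace_add, trace_smul, smul_eq_mul] at h
  linear_combination h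

/-- `tr G = tr Z⁻¹`. -/
theorem trace_eq_inv {F G Z : Matrix (Fin N) (Fin N) ℂ} (hF : F.IsHermitian) (hG : G.IsHermitian)
    (hZ : Z.PosDef)
    (hstar : (F + Complex.I • G) * Z - Z * (F + Complex.I • G)ᴴ = (2 * Complex.I) • 1) :
    G.trace = Z⁻¹.trace := by
  have : Invertible Z := hZ.isUnit.invertible
  have h := star_trace hF hG hstar Z⁻¹
  rw [trace_mul_cycle Z F, trace_mul_cycle Z G] at h
  simp only [Matrix.mul_assoc, Matrix.mul_inv_of_invertible, Matrix.mul_one] at h
  simp only [← Matrix.mul_assoc, Matrix.inv_mul_of_invertible, Matrix.one_mul] at h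
  refine mul_left_cancel₀ (mul_ne_zero two_ne_zero Complex.I_ne_zero) ?_
  linear_combination h

theorem layerSig_eq {P F G : Matrix (Fin N) (Fin N) ℂ} (hP : P.IsHermitian) (hF : F.IsHermitian)
    {ε l : ℝ} (hε : 0 < ε) (hl : 0 ≤ l) (hm : Margin P F ε) (hG : G.IsHermitian)
    (hstar : (F + Complex.I • G) * layerZ P F l - layerZ P F l * (F + Complex.I • G)ᴴ
      = (2 * Complex.I) • 1) : G.trace.re = layerSig P F l := by
  rw [layerSig, trace_eq_inv hF hG (layerZ_posDef hP hF hε hl hm) hstar]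

theorem layer_ineq {P F : Matrix (Fin N) (Fin N) ℂ} (hP : P.IsHermitian) (hF : F.IsHermitian)
    {ε l : ℝ} (hε : 0 < ε) (hl : 0 ≤ l) (hm : Margin P F ε) :
    (layerZ P F l * (P - F * F + (l : ℂ) • 1)).trace.re ≤ layerSig P F l := by
  obtain ⟨G, hG, hsq, hstar⟩ := exists_layer_solvent hP hF hε hl hm
  have hsig := layerSig_eq hP hF hε hl hm hG hstar
  have hZ := layerZ_posDef hP hF hε hl hm
  set Z := layerZ P F l with hZdef
  have : Invertible Z := hZ.isUnit.invertible
  have hX : P - F * F + (l : ℂ) • 1 = G * G + Complex.I • (F * G - G * F) := by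
    rw [sub_add_eq_add_sub, ← hsq]
    simp only [conjTranspose_add, conjTranspose_smul, hF.eq, hG.eq, Complex.star_def,
      Complex.conj_I, Matrix.add_mul, Matrix.mul_add, Matrix.smul_mul, Matrix.mul_smul]
    match_scalars <;> simp [Complex.I_mul_I]
  have h1 := star_trace hF hG hstar G
  rw [trace_mul_cycle F Z G, trace_mul_cycle G Z G, trace_mul_cycle G G Z] at h1
  have hq : 0 ≤ ((G - Z⁻¹) * Z * (G - Z⁻¹)).trace.re := by
    have h := hZ.posSemidef.conjTranspose_mul_mul_same (G - Z⁻¹)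
    rw [show (G - Z⁻¹)ᴴ = G - Z⁻¹ by rw [conjTranspose_sub, hG.eq, hZ.inv.1.eq]] at h
    exact (Complex.le_def.1 h.trace_nonneg).1
  have hqe : ((G - Z⁻¹) * Z * (G - Z⁻¹)).trace
      = (Z * G * G).trace - 2 * G.trace + (Z⁻¹).trace := by
    simp only [Matrix.sub_mul, Matrix.mul_sub, trace_sub, Matrix.inv_mul_of_invertible,
      Matrix.one_mul]
    rw [show G * Z * Z⁻¹ = G by rw [Matrix.mul_assoc, Matrix.mul_inv_of_invertible, Matrix.mul_one],
      trace_mul_cycle G Z G, trace_mul_cycle G G Z]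
    ring
  have hval : (Z * (P - F * F + (l : ℂ) • 1)).trace = 2 * G.trace - (Z * G * G).trace := by
    rw [hX, Matrix.mul_add, Matrix.mul_smul, Matrix.mul_sub, trace_add, trace_smul, trace_sub,
      smul_eq_mul, ← Matrix.mul_assoc Z G G, ← Matrix.mul_assoc Z F G, ← Matrix.mul_assoc Z G F]
    rw [trace_mul_cycle G F Z] at h1
    linear_combination (-Complex.I) * h1 +
      (2 * (Z * G * G).trace - 2 * G.trace) * Complex.I_mul_I
  rw [hqe, Complex.add_re, Complex.sub_re] at hq
  rw [hval, Complex.sub_re]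
  have h2 : ((2 : ℂ) * G.trace).re = 2 * G.trace.re := by simp
  rw [h2] at hq ⊢
  have h3 : G.trace.re = (Z⁻¹).trace.re := hsig
  linarith

/-- The secant bound for `σ`. -/
theorem layerSig_secant {P F : Matrix (Fin N) (Fin N) ℂ} (hP : P.IsHermitian)
    (hF : F.IsHermitian) {ε a b : ℝ} (hε : 0 < ε) (ha : 0 ≤ a) (hb : 0 ≤ b)
    (hm : Margin P F ε) :
    (b - a) * (layerZ P F b).trace.re ≤ 2 * (layerSig P F b - layerSig P F a) ∧
      2 * (layerSig P F b - layerSig P F a) ≤ (b - a) * (layerZ P F a).trace.re := by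
  obtain ⟨G₀, hG₀, hsq₀, hs₀⟩ := exists_layer_solvent hP hF hε ha hm
  obtain ⟨G₁, hG₁, hsq₁, hs₁⟩ := exists_layer_solvent hP hF hε hb hm
  have e0 := layerSig_eq hP hF hε ha hm hG₀ hs₀
  have e1 := layerSig_eq hP hF hε hb hm hG₁ hs₁
  set δ := G₁ - G₀ with hδ
  have hδh : δ.IsHermitian := hG₁.sub hG₀
  have hpos : ∀ x : ℝ, 0 ≤ x → 0 ≤ (layerZ P F x * δ * δ).trace.re := fun x hx => by
    have h := (layerZ_posDef hP hF hε hx hm).posSemidef.conjTranspose_mul_mul_same δ
    rw [hδh.eq] at h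
    have h2 := (Complex.le_def.1 h.trace_nonneg).1
    rwa [trace_mul_cycle, trace_mul_cycle, Complex.zero_re] at h2
  have key : ∀ (G : Matrix (Fin N) (Fin N) ℂ) (Z : Matrix (Fin N) (Fin N) ℂ) (σ : ℂ),
      G.IsHermitian →
      (F + Complex.I • G) * Z - Z * (F + Complex.I • G)ᴴ = (2 * Complex.I) • 1 →
      ((b - a : ℝ) : ℂ) • (1 : Matrix (Fin N) (Fin N) ℂ)
        = Complex.I • ((F + Complex.I • G)ᴴ * δ - δ * (F + Complex.I • G)) + σ • (δ * δ) →
      ((b - a : ℝ) : ℂ) * Z.trace = 2 * δ.trace + σ * (Z * δ * δ).trace := by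
    intro G Z σ hG hs he
    generalize F + Complex.I • G = M at hs he
    have h := congrArg (fun A => (Z * A).trace) he
    simp only [Matrix.mul_smul, Matrix.mul_add, Matrix.mul_one, Matrix.mul_sub, trace_smul,
      trace_add, trace_sub, smul_eq_mul, ← Matrix.mul_assoc] at h
    have h2 := congrArg (fun A => (A * δ).trace) hs
    simp only [Matrix.sub_mul, Matrix.smul_mul, Matrix.one_mul, trace_sub, trace_smul,
      smul_eq_mul] at h2
    rw [trace_mul_cycle M Z δ, trace_mul_cycle δ M Z] at h2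
    linear_combination h - Complex.I * h2 - 2 * δ.trace * Complex.I_mul_I
  have hdiff : ((b - a : ℝ) : ℂ) • (1 : Matrix (Fin N) (Fin N) ℂ) =
      (F + Complex.I • G₁)ᴴ * (F + Complex.I • G₁) -
        (F + Complex.I • G₀)ᴴ * (F + Complex.I • G₀) := by
    rw [hsq₀, hsq₁]
    push_cast
    module
  have k0 := key G₀ (layerZ P F a) 1 hG₀ hs₀ (by
    rw [hdiff, hδ]
    simp only [conjTranspose_add, conjTranspose_smul, hF.eq, hG₀.eq, hG₁.eq, Complex.star_def,
      Complex.conj_I, Matrix.add_mul, Matrix.mul_add, Matrix.sub_mul, Matrix.mul_sub,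
      Matrix.smul_mul, Matrix.mul_smul, smul_smul, smul_add, smul_sub, mul_neg,
      Complex.I_mul_I, neg_neg, one_smul]
    module)
  have k1 := key G₁ (layerZ P F b) (-1) hG₁ hs₁ (by
    rw [hdiff, hδ]
    simp only [conjTranspose_add, conjTranspose_smul, hF.eq, hG₀.eq, hG₁.eq, Complex.star_def,
      Complex.conj_I, Matrix.add_mul, Matrix.mul_add, Matrix.sub_mul, Matrix.mul_sub,
      Matrix.smul_mul, Matrix.mul_smul, smul_smul, smul_add, smul_sub, mul_neg,
      Complex.I_mul_I, neg_neg, one_smul]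
    module)
  have r0 := congrArg Complex.re k0
  have r1 := congrArg Complex.re k1
  have hd : δ.trace.re = layerSig P F b - layerSig P F a := by
    rw [hδ, trace_sub, Complex.sub_re, e0, e1]
  simp only [Complex.add_re, one_mul, neg_mul, Complex.neg_re,
    Complex.mul_re, Complex.re_ofNat, Complex.im_ofNat, zero_mul, sub_zero, Complex.ofReal_re,
    Complex.ofReal_im, hd] at r0 r1
  have := hpos a ha
  have := hpos b hb
  constructor <;> linarith

theorem hasDerivAt_layerSig {P F : Matrix (Fin N) (Fin N) ℂ} (hP : P.IsHermitian)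
    (hF : F.IsHermitian) {ε l : ℝ} (hε : 0 < ε) (hl : 0 < l) (hm : Margin P F ε) :
    HasDerivAt (layerSig P F) ((layerZ P F l).trace.re / 2) l := by
  rw [hasDerivAt_iff_isLittleO, Asymptotics.isLittleO_iff]
  intro c hc
  have hcont := continuousAt_trace hP hF hε hl hm
  have hev : ∀ᶠ x in 𝓝 l, |(layerZ P F x).trace.re - (layerZ P F l).trace.re| < c := by
    simpa [Real.dist_eq] using Metric.tendsto_nhds.1 hcont c hc
  filter_upwards [hev, eventually_gt_nhds hl] with x hx hx0
  obtain ⟨h1, h2⟩ := layerSig_secant hP hF hε hl.le hx0.le hm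
  obtain ⟨hx1, hx2⟩ := abs_lt.1 hx
  rw [Real.norm_eq_abs, Real.norm_eq_abs, smul_eq_mul, abs_le]
  rcases le_total l x with h | h
  · rw [abs_of_nonneg (sub_nonneg.2 h)]
    constructor <;> nlinarith [mul_le_mul_of_nonneg_left hx1.le (sub_nonneg.2 h),
      mul_nonneg hc.le (sub_nonneg.2 h)]
  · rw [abs_of_nonpos (sub_nonpos.2 h)]
    constructor <;> nlinarith [mul_le_mul_of_nonneg_left hx2.le (sub_nonneg.2 h),
      mul_nonneg hc.le (sub_nonneg.2 h)]

/-- For large `l` the eigenvalues of `G` are nonnegative and near `√l`. -/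
theorem exists_eigen_bound {P F : Matrix (Fin N) (Fin N) ℂ} (hP : P.IsHermitian)
    (hF : F.IsHermitian) {ε : ℝ} (hε : 0 < ε) (hm : Margin P F ε) :
    ∃ C l₀ : ℝ, 0 ≤ C ∧ 0 < l₀ ∧ ∀ l : ℝ, l₀ ≤ l → ∀ G : Matrix (Fin N) (Fin N) ℂ,
      ∀ hG : G.IsHermitian,
      (F + Complex.I • G)ᴴ * (F + Complex.I • G) = P + (l : ℂ) • 1 →
      (F + Complex.I • G) * layerZ P F l - layerZ P F l * (F + Complex.I • G)ᴴ
        = (2 * Complex.I) • 1 →
      ∀ i, 0 ≤ hG.eigenvalues i ∧ |hG.eigenvalues i ^ 2 - l| ≤ C := by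
  obtain ⟨K, hK0, hK⟩ := layerZ_bound hP hF hε hm
  obtain ⟨C, hC, hCb⟩ := exists_qf_bound (P - F * F)
  set Φ := ∑ i, ∑ j, ‖F i j‖ with hΦ
  refine ⟨C, (Φ * (N * K) + 1) ^ 2, hC, by positivity, fun l hl G hG hsq hstar i => ?_⟩
  have hl0 : 0 < l := lt_of_lt_of_le (by positivity) hl
  set w : Fin N → ℂ := ⇑(hG.eigenvectorBasis i) with hw
  set g := hG.eigenvalues i with hg
  have hGw : G *ᵥ w = (g : ℂ) • w := by
    rw [hw, hG.mulVec_eigenvectorBasis]
    ext k
    simp [hg]
  have hwG : star w ᵥ* G = (g : ℂ) • star w := by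
    have := congrArg star hGw
    rw [star_mulVec, hG.eq, star_smul, Complex.star_def, Complex.conj_ofReal] at this
    exact this
  have hwn : nsq w = 1 := by
    have h := (hG.eigenvectorBasis).orthonormal.1 i
    rw [EuclideanSpace.norm_eq, Real.sqrt_eq_one] at h
    rw [nsq, ← h]
    exact Finset.sum_congr rfl fun k _ => Complex.normSq_eq_norm_sq _
  have hwle : ∀ k, ‖w k‖ ≤ 1 := fun k => by
    have : ‖w k‖ ^ 2 ≤ nsq w := by
      rw [← Complex.normSq_eq_norm_sq]
      exact Finset.single_le_sum (f := fun i => Complex.normSq (w i))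
        (fun i _ => Complex.normSq_nonneg _) (Finset.mem_univ k)
    rw [hwn] at this
    exact (sq_le_one_iff₀ (norm_nonneg _)).1 this
  constructor
  · by_contra hneg
    push Not at hneg
    have hZh := (layerZ_posDef hP hF hε hl0.le hm).1
    set Z := layerZ P F l with hZ
    set u := F *ᵥ w with hu
    set z := Z *ᵥ w with hz
    have hFw : star w ᵥ* F = star u := by rw [hu, star_mulVec, hF.eq]
    have hZw : star w ᵥ* Z = star z := by rw [hz, star_mulVec, hZh.eq]
    have h := congrArg (fun A => star w ⬝ᵥ A *ᵥ w) hstar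
    simp only [conjTranspose_add, conjTranspose_smul, hF.eq, hG.eq, Complex.star_def,
      Complex.conj_I, Matrix.add_mul, Matrix.mul_add, Matrix.smul_mul, Matrix.mul_smul, sub_mulVec,
      add_mulVec, smul_mulVec, one_mulVec, ← mulVec_mulVec, dotProduct_sub, dotProduct_add,
      dotProduct_smul, smul_eq_mul, ← hu, ← hz] at h
    rw [dotProduct_mulVec (star w) F z, hFw, dotProduct_mulVec (star w) G z, hwG,
      dotProduct_mulVec (star w) Z u, hZw, hGw, mulVec_smul, dotProduct_smul, smul_dotProduct,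
      ← hz, smul_eq_mul] at h
    have hzu : star z ⬝ᵥ u = conj (star u ⬝ᵥ z) := by
      rw [← Complex.star_def, star_dotProduct]
    have hww : star w ⬝ᵥ w = 1 := by
      refine Complex.ext ?_ ?_
      · simpa [qf, one_mulVec, hwn] using qf_one w
      · simpa using (isHermitian_one (n := Fin N) (α := ℂ)).im_star_dotProduct_mulVec_self w
    rw [hzu, hww] at h
    have him := congrArg Complex.im h
    have hq : (star w ⬝ᵥ z).im = 0 := by simpa [hz] using hZh.im_star_dotProduct_mulVec_self w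
    have hq0 : 0 ≤ (star w ⬝ᵥ z).re := by
      simpa [hz] using (Complex.le_def.1
        ((layerZ_posDef hP hF hε hl0.le hm).posSemidef.dotProduct_mulVec_nonneg w)).1
    simp [hq] at him
    have hle : 1 ≤ ‖star u ⬝ᵥ z‖ := by
      have := Complex.im_le_norm (star u ⬝ᵥ z)
      nlinarith [mul_nonpos_of_nonpos_of_nonneg hneg.le hq0]
    have hzb : ∀ k, ‖z k‖ ≤ N * K / Real.sqrt l := fun k => by
      rw [hz, mulVec, dotProduct]
      refine (norm_sum_le _ _).trans ((Finset.sum_le_card_nsmul _ _ (K / Real.sqrt l)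
        fun j _ => ?_).trans_eq (by simp; ring))
      rw [norm_mul]
      refine (mul_le_of_le_one_right (norm_nonneg _) (hwle j)).trans ?_
      rw [le_div_iff₀ (Real.sqrt_pos.2 hl0)]
      exact (hK l hl0.le k j).2
    have hub : ∑ k, ‖u k‖ ≤ Φ := by
      rw [hΦ, hu]
      refine Finset.sum_le_sum fun k _ => ?_
      rw [mulVec, dotProduct]
      refine (norm_sum_le _ _).trans (Finset.sum_le_sum fun j _ => ?_)
      rw [norm_mul]
      exact mul_le_of_le_one_right (norm_nonneg _) (hwle j)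
    have hsum : ‖star u ⬝ᵥ z‖ ≤ Φ * (N * K / Real.sqrt l) := by
      refine (norm_sum_le _ _).trans ?_
      refine le_trans ?_ (mul_le_mul_of_nonneg_right hub (by positivity))
      rw [Finset.sum_mul]
      refine Finset.sum_le_sum fun k _ => ?_
      rw [norm_mul, Pi.star_apply, norm_star]
      exact mul_le_mul_of_nonneg_left (hzb k) (norm_nonneg _)
    have hsl : Φ * (N * K) + 1 ≤ Real.sqrt l := Real.le_sqrt_of_sq_le hl
    have : 1 ≤ Φ * (N * K) / Real.sqrt l := by rw [mul_div_assoc]; exact hle.trans hsum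
    rw [one_le_div (Real.sqrt_pos.2 hl0)] at this
    linarith
  · have hX : P - F * F + (l : ℂ) • 1 = G * G + Complex.I • (F * G - G * F) := by
      rw [sub_add_eq_add_sub, ← hsq]
      simp only [conjTranspose_add, conjTranspose_smul, hF.eq, hG.eq, Complex.star_def,
        Complex.conj_I, Matrix.add_mul, Matrix.mul_add, Matrix.smul_mul, Matrix.mul_smul]
      match_scalars <;> simp [Complex.I_mul_I]
    have h : qf (P - F * F + (l : ℂ) • 1) w = qf (G * G + Complex.I • (F * G - G * F)) w := by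
      rw [hX]
    rw [qf_add, qf_smul, qf_one, hwn, mul_one] at h
    have hr : qf (G * G + Complex.I • (F * G - G * F)) w = g ^ 2 := by
      simp only [qf, add_mulVec, smul_mulVec, sub_mulVec, ← mulVec_mulVec, dotProduct_add,
        dotProduct_smul, dotProduct_sub, hGw, mulVec_smul]
      rw [dotProduct_mulVec (star w) G (F *ᵥ w), hwG, smul_dotProduct]
      have := qf_one w
      simp only [qf, one_mulVec, hwn] at this
      simp [this, sq]
    rw [hr] at h
    rw [abs_le]
    have := abs_le.1 (hCb w)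
    rw [hwn, mul_one] at this
    constructor <;> linarith

theorem layerSig_bounds {P F : Matrix (Fin N) (Fin N) ℂ} (hP : P.IsHermitian)
    (hF : F.IsHermitian) {ε : ℝ} (hε : 0 < ε) (hm : Margin P F ε) :
    (∃ C, ∀ l ∈ Ioc (0 : ℝ) 1, |layerSig P F l| ≤ C ∧ |(layerZ P F l).trace.re| ≤ C) ∧
    ∃ C l₀, 0 < l₀ ∧ ∀ l, l₀ ≤ l →
      |layerSig P F l - N * Real.sqrt l - (P - F * F).trace.re / (2 * Real.sqrt l)|
        ≤ C / (l * Real.sqrt l) := by
  obtain ⟨K, hK⟩ := trace_re_nonneg_le hP hF hε hm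
  refine ⟨⟨|layerSig P F 0| + K, fun l hl => ?_⟩, ?_⟩
  · obtain ⟨h1, h2⟩ := layerSig_secant hP hF hε le_rfl hl.1.le hm
    obtain ⟨t0, tK⟩ := hK l hl.1.le
    obtain ⟨s0, sK⟩ := hK 0 le_rfl
    rw [sub_zero] at h1 h2
    refine ⟨abs_le.2 ?_, abs_le.2 ?_⟩
    · constructor <;> nlinarith [mul_nonneg hl.1.le t0, mul_le_mul_of_nonneg_right hl.2 s0,
        le_abs_self (layerSig P F 0), neg_abs_le (layerSig P F 0)]
    · constructor <;> linarith [abs_nonneg (layerSig P F 0)]
  obtain ⟨C, l₀, hC, hl₀, hb⟩ := exists_eigen_bound hP hF hε hm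
  refine ⟨N * C ^ 2, l₀, hl₀, fun l hl => ?_⟩
  have hl0 : 0 < l := hl₀.trans_le hl
  obtain ⟨G, hG, hsq, hstar⟩ := exists_layer_solvent hP hF hε hl0.le hm
  have hsig := layerSig_eq hP hF hε hl0.le hm hG hstar
  have hb' := hb l hl G hG hsq hstar
  set r := Real.sqrt l with hr
  have hr0 : 0 < r := Real.sqrt_pos.2 hl0
  have hr2 : r ^ 2 = l := Real.sq_sqrt hl0.le
  have hσ : layerSig P F l = ∑ i, hG.eigenvalues i := by
    rw [← hsig, hG.trace_eq_sum_eigenvalues, Complex.re_sum]
    simp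
  have htr : (P - F * F).trace.re = ∑ i, (hG.eigenvalues i ^ 2 - l) := by
    have h := congrArg Matrix.trace hsq
    simp only [conjTranspose_add, conjTranspose_smul, hF.eq, hG.eq, Complex.star_def,
      Complex.conj_I, Matrix.add_mul, Matrix.mul_add, Matrix.smul_mul, Matrix.mul_smul,
      trace_add, trace_smul, smul_eq_mul, trace_one, Fintype.card_fin] at h
    rw [trace_mul_comm G F] at h
    have h2 : (G * G).trace = ∑ i, ((hG.eigenvalues i ^ 2 : ℝ) : ℂ) := by
      conv_lhs => rw [hG.spectral_theorem]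
      rw [Unitary.conjStarAlgAut_apply]
      set U : Matrix (Fin N) (Fin N) ℂ := ↑hG.eigenvectorUnitary with hU
      have hU1 : star U * U = 1 := Unitary.coe_star_mul_self hG.eigenvectorUnitary
      set D : Matrix (Fin N) (Fin N) ℂ := diagonal (RCLike.ofReal ∘ hG.eigenvalues) with hD
      rw [show U * D * star U * (U * D * star U) = U * (D * D) * star U by
        rw [← Matrix.mul_assoc, ← Matrix.mul_assoc, Matrix.mul_assoc (U * D) (star U) U, hU1,
          Matrix.mul_one, Matrix.mul_assoc U D D],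
        trace_mul_cycle, hU1, Matrix.one_mul, hD, diagonal_mul_diagonal, trace_diagonal]
      simp [sq]
    have e : (P - F * F).trace = (G * G).trace - (N : ℂ) * l := by
      rw [trace_sub]
      linear_combination -h - (G * G).trace * Complex.I_mul_I
    rw [e, h2, Complex.sub_re, Complex.re_sum, Finset.sum_sub_distrib]
    simp [-Complex.ofReal_pow]
  rw [hσ, htr, Finset.sum_div, show (N : ℝ) * r = ∑ _i : Fin N, r by simp,
    ← Finset.sum_sub_distrib, ← Finset.sum_sub_distrib]
  refine (Finset.abs_sum_le_sum_abs _ _).trans ?_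
  refine (Finset.sum_le_card_nsmul _ _ (C ^ 2 / (l * r)) fun i _ => ?_).trans_eq (by simp; ring)
  obtain ⟨hg0, hgC⟩ := hb' i
  set g := hG.eigenvalues i
  have e : g - r - (g ^ 2 - l) / (2 * r) = -((g - r) ^ 2 / (2 * r)) := by
    rw [← hr2]
    field_simp
    ring
  rw [e, abs_neg, abs_of_nonneg (by positivity), div_le_div_iff₀ (by positivity) (by positivity)]
  have h1 : |g - r| * r ≤ C := by
    rw [← hr2, show g ^ 2 - r ^ 2 = (g - r) * (g + r) by ring, abs_mul,
      abs_of_nonneg (show 0 ≤ g + r by linarith)] at hgC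
    nlinarith [mul_le_mul_of_nonneg_left (le_add_of_nonneg_left hg0 : r ≤ g + r) (abs_nonneg (g - r))]
  have h2 : (g - r) ^ 2 * l ≤ C ^ 2 := by
    rw [← hr2, ← sq_abs (g - r), ← mul_pow]
    exact pow_le_pow_left₀ (by positivity) h1 2
  nlinarith [mul_le_mul_of_nonneg_right h2 hr0.le, mul_nonneg (sq_nonneg C) hr0.le]

end Vale.Agent.P371.All
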