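import Vale.Agent.P371.All.Solvent

/-!
# P371: basic estimates for the layer matrix
-/

namespace Vale.Agent.P371.All

open Matrix MeasureTheory Set Filter General
open scoped ComplexOrder ComplexConjugate Topology

variable {N : ℕ}

theorem posDef_of_coercive {A : Matrix (Fin N) (Fin N) ℂ} {c : ℝ} (hc : 0 < c)
    (hA : A.IsHermitian) (h : ∀ v, c * nsq v ≤ qf A v) : A.PosDef := by
  refine PosDef.of_dotProduct_mulVec_pos hA fun v hv => ?_
  obtain ⟨i, hi⟩ := Function.ne_iff.1 hv
  have hn : 0 < nsq v := lt_of_lt_of_le (Complex.normSq_pos.2 hi) (Finset.single_le_sum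
    (f := fun i => Complex.normSq (v i)) (fun i _ => Complex.normSq_nonneg _) (Finset.mem_univ i))
  refine Complex.lt_def.2 ⟨lt_of_lt_of_le (mul_pos hc hn) (h v), ?_⟩
  have him : RCLike.im (star v ⬝ᵥ A *ᵥ v) = 0 := hA.im_star_dotProduct_mulVec_self v
  simpa using him.symm

theorem inv_entry_bound {A : Matrix (Fin N) (Fin N) ℂ} {c : ℝ} (hc : 0 < c)
    (hA : A.IsHermitian) (h : ∀ v, c * nsq v ≤ qf A v) (i j : Fin N) :
    ‖A⁻¹ i j‖ ≤ 1 / c := by
  have : Invertible A := (posDef_of_coercive hc hA h).isUnit.invertible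
  set y := A⁻¹ *ᵥ Pi.single j 1 with hy
  have hyk : ∀ k, y k = A⁻¹ k j := fun k => by simp [hy]
  have hq : qf A y = (y j).re := by
    rw [qf, hy, mulVec_mulVec, Matrix.mul_inv_of_invertible, one_mulVec, ← hy]
    simp
  have hs : ∀ k, c * ‖y k‖ ^ 2 ≤ ‖y j‖ := fun k => by
    have h1 : ‖y k‖ ^ 2 ≤ nsq y := by
      rw [← Complex.normSq_eq_norm_sq]
      exact Finset.single_le_sum (f := fun i => Complex.normSq (y i))
        (fun i _ => Complex.normSq_nonneg _) (Finset.mem_univ k)
    have h2 := h y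
    have h3 := Complex.re_le_norm (y j)
    nlinarith [mul_le_mul_of_nonneg_left h1 hc.le]
  have hj : c * ‖y j‖ ≤ 1 := by
    rcases (norm_nonneg (y j)).eq_or_lt with h0 | h0
    · rw [← h0]; simp
    · exact le_of_mul_le_mul_right (by nlinarith [hs j]) h0
  rw [← hyk, le_div_iff₀ hc]
  have hi := hs i
  by_contra hlt
  push Not at hlt
  nlinarith [mul_le_mul hlt.le hlt.le zero_le_one (by positivity),
    mul_lt_mul'' hlt hlt zero_le_one zero_le_one]

theorem pencil_shift (P F : Matrix (Fin N) (Fin N) ℂ) (s a b : ℝ) :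
    pencil (P + (a : ℂ) • 1) F s b = pencil P F s (a + b) := by
  simp only [pencil]
  push_cast
  module

theorem exists_coercive {P F : Matrix (Fin N) (Fin N) ℂ} {ε : ℝ} (hε : 0 < ε)
    (hm : Margin P F ε) : ∃ c, 0 < c ∧ ∀ l, 0 ≤ l → ∀ (s : ℝ) v,
      c * (1 + s ^ 2) * nsq v ≤ qf (pencil P F s l) v ∧
        (c * (1 + s ^ 2) + l) / 2 * nsq v ≤ qf (pencil P F s l) v := by
  have hdom : ∀ k v, 0 ≤ qf (pencil (P + ((-ε : ℝ) : ℂ) • 1) F k 0) v := fun k v => by
    have := hm k v
    rw [pencil_shift, qf_pencil]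
    rw [qf_pencil] at this
    nlinarith
  obtain ⟨c, hc, h⟩ := pencil_coercive hdom hε
  refine ⟨c, hc, fun l hl s v => ?_⟩
  have h1 := h s v
  rw [pencil_shift, neg_add_cancel, qf_pencil] at h1
  have h2 := hm s v
  rw [qf_pencil] at h2
  rw [qf_pencil]
  have hn := nsq_nonneg v
  constructor <;> nlinarith [mul_nonneg hl hn, mul_nonneg hε.le hn]

theorem pencil_posDef {P F : Matrix (Fin N) (Fin N) ℂ} (hP : P.IsHermitian) (hF : F.IsHermitian)
    {ε l : ℝ} (hε : 0 < ε) (hl : 0 ≤ l) (hm : Margin P F ε) (s : ℝ) :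
    (pencil P F s l).PosDef := by
  obtain ⟨c, hc, h⟩ := exists_coercive hε hm
  exact posDef_of_coercive (c := c * (1 + s ^ 2)) (by positivity) (pencil_isHermitian hP hF s l)
    fun v => (h l hl s v).1

theorem continuous_pencil_inv {P F : Matrix (Fin N) (Fin N) ℂ} (hP : P.IsHermitian)
    (hF : F.IsHermitian) {ε l : ℝ} (hε : 0 < ε) (hl : 0 ≤ l) (hm : Margin P F ε) (i j : Fin N) :
    Continuous fun s => (pencil P F s l)⁻¹ i j := by
  have hc := continuous_pencil P F l
  have : Continuous fun k => (pencil P F k l)⁻¹ := by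
    simp only [Matrix.inv_def, Ring.inverse_eq_inv']
    exact (hc.matrix_det.inv₀ fun k => (pencil_posDef hP hF hε hl hm k).det_pos.ne').smul
      hc.matrix_adjugate
  exact this.matrix_elem i j

theorem integrable_entry {P F : Matrix (Fin N) (Fin N) ℂ} (hP : P.IsHermitian)
    (hF : F.IsHermitian) {ε l : ℝ} (hε : 0 < ε) (hl : 0 ≤ l) (hm : Margin P F ε) (i j : Fin N) :
    Integrable fun s => (pencil P F s l)⁻¹ i j := by
  obtain ⟨c, hc, h⟩ := exists_coercive hε hm
  refine (integrable_inv_one_add_sq.const_mul (1 / c)).mono'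
    (continuous_pencil_inv hP hF hε hl hm i j).aestronglyMeasurable
    (Eventually.of_forall fun s => ?_)
  refine (inv_entry_bound (c := c * (1 + s ^ 2)) (by positivity) (pencil_isHermitian hP hF s l)
    (fun v => (h l hl s v).1) i j).trans_eq ?_
  field_simp

/-- A linear functional commutes with the layer integral. -/
theorem layer_linear {P F : Matrix (Fin N) (Fin N) ℂ} (hP : P.IsHermitian)
    (hF : F.IsHermitian) {ε l : ℝ} (hε : 0 < ε) (hl : 0 ≤ l) (hm : Margin P F ε)
    (φ : Matrix (Fin N) (Fin N) ℂ →ₗ[ℂ] ℂ) :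
    Integrable (fun s => φ (pencil P F s l)⁻¹) ∧
      φ (layerZ P F l) = ((Real.pi⁻¹ : ℝ) : ℂ) * ∫ s : ℝ, φ (pencil P F s l)⁻¹ := by
  have e : ∀ A : Matrix (Fin N) (Fin N) ℂ, φ A = ∑ i, ∑ j, A i j * φ (Matrix.single i j 1) := by
    intro A
    conv_lhs => rw [matrix_eq_sum_single A]
    simp only [map_sum]
    refine Finset.sum_congr rfl fun i _ => Finset.sum_congr rfl fun j _ => ?_
    rw [← smul_eq_mul, ← map_smul, Matrix.smul_single, smul_eq_mul, mul_one]
  have hi : ∀ i j, Integrable fun s =>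
      (pencil P F s l)⁻¹ i j * φ (Matrix.single i j 1) := fun i j =>
    (integrable_entry hP hF hε hl hm i j).mul_const _
  have hf : (fun s => φ (pencil P F s l)⁻¹) = fun s =>
      ∑ i, ∑ j, (pencil P F s l)⁻¹ i j * φ (Matrix.single i j 1) := funext fun s => e _
  rw [hf]
  refine ⟨integrable_finsetSum _ fun i _ => integrable_finsetSum _ fun j _ => hi i j, ?_⟩
  rw [e, integral_finsetSum _ fun i _ => integrable_finsetSum _ fun j _ => hi i j, Finset.mul_sum]
  refine Finset.sum_congr rfl fun i _ => ?_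
  rw [integral_finsetSum _ fun j _ => hi i j, Finset.mul_sum]
  refine Finset.sum_congr rfl fun j _ => ?_
  rw [integral_mul_const, layerZ, Matrix.of_apply, mul_assoc]

theorem layerZ_posDef {P F : Matrix (Fin N) (Fin N) ℂ} (hP : P.IsHermitian) (hF : F.IsHermitian)
    {ε l : ℝ} (hε : 0 < ε) (hl : 0 ≤ l) (hm : Margin P F ε) : (layerZ P F l).PosDef := by
  have hH : (layerZ P F l).IsHermitian := by
    ext i j
    simp only [conjTranspose_apply, layerZ, Matrix.of_apply, star_mul', Complex.star_def,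
      Complex.conj_ofReal, ← integral_conj]
    congr 1
    refine integral_congr_ae (Eventually.of_forall fun s => ?_)
    exact (pencil_posDef hP hF hε hl hm s).inv.1.apply i j
  refine PosDef.of_dotProduct_mulVec_pos hH fun v hv => ?_
  set φ : Matrix (Fin N) (Fin N) ℂ →ₗ[ℂ] ℂ :=
    { toFun := fun A => star v ⬝ᵥ A *ᵥ v
      map_add' := fun A B => by simp [add_mulVec, dotProduct_add]
      map_smul' := fun a A => by simp [smul_mulVec, dotProduct_smul] } with hφ
  obtain ⟨hi, he⟩ := layer_linear hP hF hε hl hm φ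
  have him : RCLike.im (star v ⬝ᵥ layerZ P F l *ᵥ v) = 0 := hH.im_star_dotProduct_mulVec_self v
  refine Complex.lt_def.2 ⟨?_, by simpa using him.symm⟩
  change 0 < (φ (layerZ P F l)).re
  rw [he, Complex.re_ofReal_mul]
  refine mul_pos (inv_pos.2 Real.pi_pos) ?_
  have hre : (∫ s : ℝ, φ (pencil P F s l)⁻¹).re = ∫ s : ℝ, (φ (pencil P F s l)⁻¹).re :=
    (integral_re hi).symm
  rw [hre]
  have hpos : ∀ s, 0 < (φ (pencil P F s l)⁻¹).re := fun s => by
    simp only [hφ, LinearMap.coe_mk, AddHom.coe_mk]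
    simpa using (Complex.lt_def.1 ((pencil_posDef hP hF hε hl hm s).inv.dotProduct_mulVec_pos hv)).1
  rw [integral_pos_iff_support_of_nonneg (fun s => (hpos s).le) hi.re]
  have : (Function.support fun s => (φ (pencil P F s l)⁻¹).re) = univ :=
    Function.support_eq_univ fun s => (hpos s).ne'
  rw [this, Real.volume_univ]
  exact ENNReal.zero_lt_top

/-- Uniform bounds on the entries of the layer matrix. -/
theorem layerZ_bound {P F : Matrix (Fin N) (Fin N) ℂ} (hP : P.IsHermitian) (hF : F.IsHermitian)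
    {ε : ℝ} (hε : 0 < ε) (hm : Margin P F ε) :
    ∃ K, 0 ≤ K ∧ ∀ l, 0 ≤ l → ∀ i j, ‖layerZ P F l i j‖ ≤ K ∧
      ‖layerZ P F l i j‖ * Real.sqrt l ≤ K := by
  obtain ⟨c, hc, h⟩ := exists_coercive hε hm
  refine ⟨2 / Real.sqrt c + 2 / c, by positivity, fun l hl i j => ?_⟩
  set r := Real.sqrt (1 + l / c) with hr
  have hr0 : 0 < r := Real.sqrt_pos.2 (by positivity)
  obtain ⟨hli, hlv⟩ := integrable_lor 0 hr0
  have hb : ∀ s, ‖(pencil P F s l)⁻¹ i j‖ ≤ 2 / c * (1 / ((s - 0) ^ 2 + r ^ 2)) := fun s => by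
    refine (inv_entry_bound (c := (c * (1 + s ^ 2) + l) / 2) (by positivity)
      (pencil_isHermitian hP hF s l) (fun v => (h l hl s v).2) i j).trans_eq ?_
    rw [hr, Real.sq_sqrt (by positivity)]
    field_simp
    ring
  have h1 : ‖layerZ P F l i j‖ ≤ 2 / c / r := by
    rw [layerZ, Matrix.of_apply, norm_mul, Complex.norm_real, Real.norm_eq_abs,
      abs_of_pos (inv_pos.2 Real.pi_pos)]
    refine (mul_le_mul_of_nonneg_left (norm_integral_le_of_norm_le (hli.const_mul (2 / c))
      (Eventually.of_forall hb)) (inv_pos.2 Real.pi_pos).le).trans_eq ?_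
    rw [integral_const_mul, hlv]
    field_simp
  have hr1 : 1 ≤ r := Real.one_le_sqrt.2 (by have : 0 ≤ l / c := by positivity
                                             linarith)
  have hrl : Real.sqrt l ≤ Real.sqrt c * r := by
    rw [hr, ← Real.sqrt_mul hc.le]
    refine Real.sqrt_le_sqrt ?_
    rw [mul_add, mul_div_cancel₀ _ hc.ne']
    linarith
  constructor
  · refine h1.trans ((div_le_self (by positivity) hr1).trans ?_)
    linarith [show 0 ≤ 2 / Real.sqrt c by positivity]
  · refine (mul_le_mul h1 hrl (Real.sqrt_nonneg _) (by positivity)).trans ?_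
    have e : 2 / c / r * (Real.sqrt c * r) = 2 / Real.sqrt c := by
      have := Real.mul_self_sqrt hc.le
      field_simp
      linear_combination this
    rw [e]
    linarith [show 0 ≤ 2 / c by positivity]

theorem trace_re_nonneg_le {P F : Matrix (Fin N) (Fin N) ℂ} (hP : P.IsHermitian)
    (hF : F.IsHermitian) {ε : ℝ} (hε : 0 < ε) (hm : Margin P F ε) :
    ∃ K, ∀ l, 0 ≤ l → 0 ≤ (layerZ P F l).trace.re ∧ (layerZ P F l).trace.re ≤ K := by
  obtain ⟨K, _, hK⟩ := layerZ_bound hP hF hε hm
  refine ⟨N * K, fun l hl => ?_⟩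
  rw [trace, Complex.re_sum]
  refine ⟨Finset.sum_nonneg fun i _ => ?_, ?_⟩
  · exact (Complex.le_def.1 ((layerZ_posDef hP hF hε hl hm).posSemidef.diag_nonneg (i := i))).1
  · refine (Finset.sum_le_card_nsmul _ _ K fun i _ => ?_).trans_eq (by simp)
    exact (Complex.re_le_norm _).trans (hK l hl i i).1

theorem continuousAt_trace {P F : Matrix (Fin N) (Fin N) ℂ} (hP : P.IsHermitian)
    (hF : F.IsHermitian) {ε l : ℝ} (hε : 0 < ε) (hl : 0 < l) (hm : Margin P F ε) :
    ContinuousAt (fun x => (layerZ P F x).trace.re) l := by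
  obtain ⟨c, hc, h⟩ := exists_coercive hε hm
  simp only [trace, Complex.re_sum, diag, layerZ, Matrix.of_apply]
  refine tendsto_finsetSum _ fun i _ => ?_
  refine Complex.continuous_re.continuousAt.comp (continuousAt_const.mul ?_)
  refine continuousAt_of_dominated ?_ ?_ (integrable_inv_one_add_sq.const_mul (1 / c))
    (Eventually.of_forall fun s => ?_)
  · filter_upwards [eventually_gt_nhds hl] with x hx
    exact (continuous_pencil_inv hP hF hε hx.le hm i i).aestronglyMeasurable
  · filter_upwards [eventually_gt_nhds hl] with x hx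
    refine Eventually.of_forall fun s => ?_
    refine (inv_entry_bound (c := c * (1 + s ^ 2)) (by positivity) (pencil_isHermitian hP hF s x)
      (fun v => (h x hx.le s v).1) i i).trans_eq ?_
    field_simp
  · have hcon : Continuous fun x => pencil P F s x := by unfold pencil; fun_prop
    have hdet := (pencil_posDef hP hF hε hl.le hm s).det_pos.ne'
    simp only [Matrix.inv_def, Ring.inverse_eq_inv', Matrix.smul_apply, smul_eq_mul]
    exact (hcon.matrix_det.continuousAt.inv₀ hdet).mul
      (hcon.matrix_adjugate.matrix_elem i i).continuousAt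

end Vale.Agent.P371.All
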