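import Vale.Agent.P371.All.Defs

/-!
# P371 (all `γ`): uniform bounds on the layer integral

`π⁻¹ ∫ Y⁻¹ ds` differs from `1/√l` by `O(min (1/√l, 1/l^(3/2)))`, uniformly on bounded data with
a fixed margin.
-/

namespace Vale.Agent.P371.All

open Matrix MeasureTheory Set Filter
open scoped ComplexOrder ComplexConjugate Topology

variable {N : ℕ}

lemma lb_normSq_le_nsq (v : Fin N → ℂ) (i : Fin N) : Complex.normSq (v i) ≤ General.nsq v :=
  Finset.single_le_sum (f := fun i => Complex.normSq (v i))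
    (fun i _ => Complex.normSq_nonneg _) (Finset.mem_univ i)

lemma lb_nsq_pos_of_ne_zero {v : Fin N → ℂ} (hv : v ≠ 0) : 0 < General.nsq v := by
  obtain ⟨i, hi⟩ := Function.ne_iff.1 hv
  exact lt_of_lt_of_le (Complex.normSq_pos.2 hi) (lb_normSq_le_nsq v i)

/-- The quadratic form is bounded by `N²` times an entry bound. -/
lemma lb_abs_qf_le {A : Matrix (Fin N) (Fin N) ℂ} {B : ℝ} (hA : ∀ i j, ‖A i j‖ ≤ B)
    (v : Fin N → ℂ) : |General.qf A v| ≤ N * (N * B) * General.nsq v := by
  rw [General.qf_eq_sum]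
  refine (Finset.abs_sum_le_sum_abs _ _).trans ?_
  calc ∑ i, |∑ j, (conj (v i) * A i j * v j).re|
      ≤ ∑ _i : Fin N, ∑ _j : Fin N, B * General.nsq v := by
        refine Finset.sum_le_sum fun i _ => (Finset.abs_sum_le_sum_abs _ _).trans
          (Finset.sum_le_sum fun j _ => (Complex.abs_re_le_norm _).trans ?_)
        rw [norm_mul, norm_mul, Complex.norm_conj]
        have hi := lb_normSq_le_nsq v i
        have hj := lb_normSq_le_nsq v j
        rw [Complex.normSq_eq_norm_sq] at hi hj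
        have h1 : ‖v i‖ * ‖v j‖ ≤ General.nsq v := by
          nlinarith [sq_nonneg (‖v i‖ - ‖v j‖)]
        calc ‖v i‖ * ‖A i j‖ * ‖v j‖ = ‖A i j‖ * (‖v i‖ * ‖v j‖) := by ring
          _ ≤ B * General.nsq v := mul_le_mul (hA i j) h1 (by positivity)
              (le_trans (norm_nonneg _) (hA i j))
    _ = N * (N * B) * General.nsq v := by
        simp only [Finset.sum_const, Finset.card_univ, Fintype.card_fin, nsmul_eq_mul]
        ring

/-- A margin gives coercivity, uniformly on bounded data. -/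
lemma margin_coercive {ε : ℝ} (hε : 0 < ε) (B : ℝ) :
    ∃ κ, 0 < κ ∧ ∀ P F : Matrix (Fin N) (Fin N) ℂ, (∀ i j, ‖P i j‖ ≤ B) → (∀ i j, ‖F i j‖ ≤ B) →
      Margin P F ε → ∀ l, 0 ≤ l → ∀ (s : ℝ) (v : Fin N → ℂ),
        κ * (1 + (s ^ 2 + l)) * General.nsq v ≤ General.qf (General.pencil P F s l) v := by
  set D : ℝ := N * (N * |B|) with hD
  have hD0 : 0 ≤ D := by positivity
  set c : ℝ := D + 2 * D ^ 2 with hc
  have hc0 : 0 ≤ c := by positivity
  set θ : ℝ := ε / (2 * (ε + c)) with hθ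
  have hθ0 : 0 < θ := by positivity
  have hθ1 : θ ≤ 1 := (div_le_one (by positivity)).2 (by linarith)
  have hθc : θ * (ε + c) = ε / 2 := by rw [hθ]; field_simp
  refine ⟨min (ε / 2) (min (θ / 2) 1), by positivity, fun P F hP hF hm l hl s v => ?_⟩
  have hP' := abs_le.1 (lb_abs_qf_le (fun i j => (hP i j).trans (le_abs_self B)) v)
  have hF' := abs_le.1 (lb_abs_qf_le (fun i j => (hF i j).trans (le_abs_self B)) v)
  rw [← hD] at hP' hF'
  have hn := General.nsq_nonneg v
  have h0 := hm s v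
  rw [General.qf_pencil, add_zero] at h0
  rw [General.qf_pencil]
  have hsF : 2 * s * General.qf F v ≤ (s ^ 2 / 2 + 2 * D ^ 2) * General.nsq v := by
    rcases le_total 0 s with hk | hk
    · nlinarith [mul_le_mul_of_nonneg_left hF'.2 hk, mul_nonneg hn (sq_nonneg (s / 2 - D))]
    · nlinarith [mul_le_mul_of_nonpos_left hF'.1 hk, mul_nonneg hn (sq_nonneg (s / 2 + D))]
  have hA : (s ^ 2 / 2 - c) * General.nsq v
      ≤ General.qf P v - 2 * s * General.qf F v + s ^ 2 * General.nsq v := by nlinarith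
  have hB : ((1 - θ) * ε + θ * (s ^ 2 / 2 - c)) * General.nsq v
      ≤ General.qf P v - 2 * s * General.qf F v + s ^ 2 * General.nsq v := by
    nlinarith [mul_le_mul_of_nonneg_left h0 (sub_nonneg.2 hθ1),
      mul_le_mul_of_nonneg_left hA hθ0.le]
  set κ := min (ε / 2) (min (θ / 2) 1) with hκ
  have k1 : κ ≤ ε / 2 := min_le_left _ _
  have k2 : κ ≤ θ / 2 := (min_le_right _ _).trans (min_le_left _ _)
  have k3 : κ ≤ 1 := (min_le_right _ _).trans (min_le_right _ _)
  have hcoef : κ * (1 + (s ^ 2 + l)) ≤ (1 - θ) * ε + θ * (s ^ 2 / 2 - c) + l := by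
    nlinarith [mul_le_mul_of_nonneg_right k2 (sq_nonneg s), mul_le_mul_of_nonneg_right k3 hl]
  nlinarith [mul_le_mul_of_nonneg_right hcoef hn]

lemma lb_coercive_isUnit {A : Matrix (Fin N) (Fin N) ℂ} {c : ℝ} (hc : 0 < c)
    (h : ∀ v, c * General.nsq v ≤ General.qf A v) : IsUnit A.det := by
  rw [isUnit_iff_ne_zero]
  intro h0
  obtain ⟨v, hv, hv0⟩ := Matrix.exists_mulVec_eq_zero_iff.2 h0
  have h1 := h v
  simp only [General.qf, hv0, dotProduct_zero, Complex.zero_re] at h1
  nlinarith [mul_pos hc (lb_nsq_pos_of_ne_zero hv)]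

/-- Entries of the inverse of a coercive matrix. -/
lemma lb_norm_inv_entry_le {A : Matrix (Fin N) (Fin N) ℂ} {c : ℝ} (hc : 0 < c)
    (h : ∀ v, c * General.nsq v ≤ General.qf A v) (i j : Fin N) : ‖A⁻¹ i j‖ ≤ 1 / c := by
  classical
  set z : Fin N → ℂ := A⁻¹ *ᵥ Pi.single j 1 with hz
  have hAz : A *ᵥ z = Pi.single j 1 := by
    rw [hz, mulVec_mulVec, mul_nonsing_inv _ (lb_coercive_isUnit hc h), one_mulVec]
  have h1 : c * General.nsq z ≤ (conj (z j)).re := by
    have h2 := h z
    rw [General.qf, hAz] at h2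
    simpa [dotProduct_single] using h2
  have hn := General.nsq_nonneg z
  have hj : (z j).re ^ 2 ≤ General.nsq z := by
    refine le_trans ?_ (lb_normSq_le_nsq z j)
    simp only [Complex.normSq_apply]
    nlinarith [sq_nonneg (z j).im]
  rw [Complex.conj_re] at h1
  have hsq : (c * General.nsq z) ^ 2 ≤ General.nsq z :=
    le_trans (pow_le_pow_left₀ (mul_nonneg hc.le hn) h1 2) hj
  have hle : c ^ 2 * General.nsq z ≤ 1 := by
    rcases hn.eq_or_lt with h0 | h0
    · rw [← h0, mul_zero]; exact zero_le_one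
    · nlinarith
  have hzi : ‖z i‖ ^ 2 ≤ General.nsq z := by
    rw [← Complex.normSq_eq_norm_sq]; exact lb_normSq_le_nsq z i
  have hzA : z i = A⁻¹ i j := by simp [hz]
  rw [← hzA, le_div_iff₀ hc]
  nlinarith [norm_nonneg (z i), mul_le_mul_of_nonneg_left hzi (sq_nonneg c)]

lemma lb_pencil_isUnit {P F : Matrix (Fin N) (Fin N) ℂ} {κ l : ℝ} (hκ : 0 < κ) (hl : 0 ≤ l)
    (h : ∀ (s : ℝ) v, κ * (1 + (s ^ 2 + l)) * General.nsq v ≤ General.qf (General.pencil P F s l) v)
    (s : ℝ) : IsUnit (General.pencil P F s l).det :=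
  lb_coercive_isUnit (by positivity) (h s)

lemma continuous_pencil_inv_entry {P F : Matrix (Fin N) (Fin N) ℂ} {κ l : ℝ} (hκ : 0 < κ)
    (hl : 0 ≤ l)
    (h : ∀ (s : ℝ) v, κ * (1 + (s ^ 2 + l)) * General.nsq v ≤ General.qf (General.pencil P F s l) v)
    (i j : Fin N) : Continuous fun s => (General.pencil P F s l)⁻¹ i j := by
  have hc := General.continuous_pencil P F l
  have : Continuous fun s => (General.pencil P F s l)⁻¹ := by
    simp only [Matrix.inv_def, Ring.inverse_eq_inv']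
    exact (hc.matrix_det.inv₀ fun s => (lb_pencil_isUnit hκ hl h s).ne_zero).smul hc.matrix_adjugate
  exact (continuous_apply j).comp ((continuous_apply i).comp this)

lemma integrable_pencil_inv_entry {P F : Matrix (Fin N) (Fin N) ℂ} {κ l : ℝ} (hκ : 0 < κ)
    (hl : 0 ≤ l)
    (h : ∀ (s : ℝ) v, κ * (1 + (s ^ 2 + l)) * General.nsq v ≤ General.qf (General.pencil P F s l) v)
    (i j : Fin N) : Integrable fun s => (General.pencil P F s l)⁻¹ i j := by
  refine (integrable_inv_one_add_sq.const_mul (1 / κ)).mono'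
    (continuous_pencil_inv_entry hκ hl h i j).aestronglyMeasurable
    (Eventually.of_forall fun s => ?_)
  refine (lb_norm_inv_entry_le (by positivity) (h s) i j).trans ?_
  rw [← one_div, div_mul_div_comm, one_mul]
  exact one_div_le_one_div_of_le (by positivity) (by nlinarith)

/-- `Re tr (Z H)` as a single integral. -/
lemma trace_layerZ_mul {P F : Matrix (Fin N) (Fin N) ℂ} {κ l : ℝ} (hκ : 0 < κ) (hl : 0 ≤ l)
    (h : ∀ (s : ℝ) v, κ * (1 + (s ^ 2 + l)) * General.nsq v ≤ General.qf (General.pencil P F s l) v)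
    (H : Matrix (Fin N) (Fin N) ℂ) :
    (layerZ P F l * H).trace.re =
      Real.pi⁻¹ * ∫ s : ℝ, ((General.pencil P F s l)⁻¹ * H).trace.re := by
  have hi := fun i j => integrable_pencil_inv_entry hκ hl h i j
  have hI : Integrable fun s => ((General.pencil P F s l)⁻¹ * H).trace := by
    simp only [Matrix.trace, Matrix.diag, Matrix.mul_apply]
    exact integrable_finsetSum _ fun i _ => integrable_finsetSum _ fun j _ => (hi i j).mul_const _
  have e : (layerZ P F l * H).trace =
      ((Real.pi⁻¹ : ℝ) : ℂ) * ∫ s : ℝ, ((General.pencil P F s l)⁻¹ * H).trace := by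
    simp only [Matrix.trace, Matrix.diag, Matrix.mul_apply]
    rw [integral_finsetSum _ fun i _ => integrable_finsetSum _ fun j _ => (hi i j).mul_const _,
      Finset.mul_sum]
    refine Finset.sum_congr rfl fun i _ => ?_
    rw [integral_finsetSum _ fun j _ => (hi i j).mul_const _, Finset.mul_sum]
    refine Finset.sum_congr rfl fun j _ => ?_
    rw [integral_mul_const]
    simp only [layerZ, Matrix.of_apply]
    ring
  rw [e, Complex.re_ofReal_mul]
  exact congrArg _ ((integral_re hI).symm)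

lemma lb_odd_lor_integral_zero (r : ℝ) :
    ∫ s : ℝ, s * (1 / (s ^ 2 + r)) ^ 2 = 0 := by
  have h : ∫ s : ℝ, -s * (1 / ((-s) ^ 2 + r)) ^ 2 = ∫ s : ℝ, s * (1 / (s ^ 2 + r)) ^ 2 :=
    integral_neg_eq_self (fun s : ℝ => s * (1 / (s ^ 2 + r)) ^ 2) volume
  simp only [neg_sq, neg_mul, integral_neg] at h
  linarith

/-- The layer integral minus `1/√l`, entrywise. -/
theorem layerZ_entry_bound {ε : ℝ} (hε : 0 < ε) (B : ℝ) :
    ∃ C, 0 ≤ C ∧ ∀ P F : Matrix (Fin N) (Fin N) ℂ,
      (∀ i j, ‖P i j‖ ≤ B) → (∀ i j, ‖F i j‖ ≤ B) → Margin P F ε → ∀ l : ℝ, 0 < l → ∀ i j,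
      ‖(if i = j then ((1 / Real.sqrt l : ℝ) : ℂ) else 0) - layerZ P F l i j‖
        ≤ C * min (1 / Real.sqrt l) (1 / (l * Real.sqrt l)) := by
  classical
  obtain ⟨κ, hκ, hco⟩ := margin_coercive (N := N) hε B
  set K : ℝ := (N : ℝ) ^ 2 * (18 * B ^ 2) / κ with hK
  set C1 : ℝ := 1 + 1 / κ with hC1
  set C2 : ℝ := (|B| + K) / 2 with hC2
  refine ⟨max C1 C2, le_max_of_le_left (by positivity), fun P F hP hF hm l hl i j => ?_⟩
  have hB : |B| = B := abs_of_nonneg (le_trans (norm_nonneg _) (hP i j))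
  have hco' := hco P F hP hF hm l hl.le
  set r : ℝ := Real.sqrt l with hr
  have hr0 : 0 < r := Real.sqrt_pos.2 hl
  have hr2 : r ^ 2 = l := Real.sq_sqrt hl.le
  set a : ℝ → ℝ := fun s => s ^ 2 + l with ha
  have ha0 : ∀ s, 0 < a s := fun s => by simp only [ha]; positivity
  have hl1 : Integrable (fun s => 1 / a s) ∧ ∫ s, 1 / a s = Real.pi / r := by
    simpa [ha, hr2] using General.integrable_lor 0 hr0
  have hl2 : Integrable (fun s => (1 / a s) ^ 2) ∧
      ∫ s, (1 / a s) ^ 2 = Real.pi / (2 * r ^ 3) := by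
    simpa [ha, hr2] using General.integrable_lor_sq 0 hr0
  set δ : ℂ := if i = j then 1 else 0 with hδ
  have hδn : ‖δ‖ ≤ 1 := by simp only [hδ]; split_ifs <;> simp
  have hYi := integrable_pencil_inv_entry hκ hl.le hco' i j
  set D : ℂ := (if i = j then ((1 / r : ℝ) : ℂ) else 0) - layerZ P F l i j with hD
  have hint1 : Integrable fun s => δ * ((1 / a s : ℝ) : ℂ) := hl1.1.ofReal.const_mul δ
  have hD1 : D = ((Real.pi⁻¹ : ℝ) : ℂ) *
      ∫ s, (δ * ((1 / a s : ℝ) : ℂ) - (General.pencil P F s l)⁻¹ i j) := by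
    rw [integral_sub hint1 hYi, integral_const_mul, integral_complex_ofReal, hl1.2, mul_sub, hD]
    simp only [layerZ, Matrix.of_apply, hδ]
    congr 1
    split_ifs
    · push_cast
      field_simp
    · simp
  -- first bound
  have hb1 : ‖D‖ ≤ C1 * (1 / r) := by
    rw [hD1, norm_mul, Complex.norm_real, Real.norm_eq_abs, abs_of_nonneg (by positivity)]
    have hbd : ‖∫ s, (δ * ((1 / a s : ℝ) : ℂ) - (General.pencil P F s l)⁻¹ i j)‖
        ≤ ∫ s, C1 * (1 / a s) := by
      refine norm_integral_le_of_norm_le (hl1.1.const_mul C1) (Eventually.of_forall fun s => ?_)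
      refine (norm_sub_le _ _).trans ?_
      rw [norm_mul, Complex.norm_real, Real.norm_eq_abs, abs_of_nonneg (one_div_nonneg.2 (ha0 s).le)]
      have h2 : ‖(General.pencil P F s l)⁻¹ i j‖ ≤ 1 / κ * (1 / a s) := by
        refine (lb_norm_inv_entry_le (by positivity) (hco' s) i j).trans ?_
        rw [div_mul_div_comm, one_mul]
        exact one_div_le_one_div_of_le (by have := ha0 s; positivity)
          (mul_le_mul_of_nonneg_left (by simp only [ha]; linarith) hκ.le)
      have h3 : ‖δ‖ * (1 / a s) ≤ 1 / a s :=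
        mul_le_of_le_one_left (one_div_nonneg.2 (ha0 s).le) hδn
      rw [hC1, add_mul, one_mul]
      exact add_le_add h3 h2
    rw [integral_const_mul, hl1.2] at hbd
    refine (mul_le_mul_of_nonneg_left hbd (by positivity)).trans_eq ?_
    field_simp
  -- second bound
  set E : ℝ → Matrix (Fin N) (Fin N) ℂ := fun s => P - ((2 * s : ℝ) : ℂ) • F with hE
  have hexp : ∀ s, δ * ((1 / a s : ℝ) : ℂ) - (General.pencil P F s l)⁻¹ i j
      = P i j * (((1 / a s) ^ 2 : ℝ) : ℂ) - 2 * F i j * ((s * (1 / a s) ^ 2 : ℝ) : ℂ)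
        - (((1 / a s) ^ 2 : ℝ) : ℂ) * (E s * (General.pencil P F s l)⁻¹ * E s) i j := by
    intro s
    set Y := General.pencil P F s l with hY
    have hu := lb_pencil_isUnit hκ hl.le hco' s
    rw [← hY] at hu
    set c : ℂ := ((a s : ℝ) : ℂ) with hc
    have hc0 : c ≠ 0 := Complex.ofReal_ne_zero.2 (ha0 s).ne'
    have hYE : Y = E s + c • (1 : Matrix (Fin N) (Fin N) ℂ) := rfl
    have h1 : E s * Y⁻¹ = 1 - c • Y⁻¹ := by
      have h0 : Y * Y⁻¹ = 1 := mul_nonsing_inv _ hu
      nth_rw 1 [hYE] at h0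
      rw [Matrix.add_mul, Matrix.smul_mul, Matrix.one_mul] at h0
      exact eq_sub_of_add_eq h0
    have h2 : Y⁻¹ * E s = 1 - c • Y⁻¹ := by
      have h0 : Y⁻¹ * Y = 1 := nonsing_inv_mul _ hu
      nth_rw 2 [hYE] at h0
      rw [Matrix.mul_add, Matrix.mul_smul, Matrix.mul_one] at h0
      exact eq_sub_of_add_eq h0
    have h3 : E s * Y⁻¹ * E s = E s - c • 1 + (c * c) • Y⁻¹ := by
      rw [h1, Matrix.sub_mul, Matrix.one_mul, Matrix.smul_mul, h2, smul_sub, smul_smul]
      abel
    rw [h3]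
    simp only [hE, Matrix.add_apply, Matrix.sub_apply, Matrix.smul_apply, Matrix.one_apply,
      smul_eq_mul]
    rw [show (if i = j then (1 : ℂ) else 0) = δ from rfl]
    simp only [hc] at hc0 ⊢
    push_cast
    field_simp
    ring
  have hKb : ∀ s, ‖(((1 / a s) ^ 2 : ℝ) : ℂ) * (E s * (General.pencil P F s l)⁻¹ * E s) i j‖
      ≤ K * (1 / a s) ^ 2 := by
    intro s
    rw [norm_mul, Complex.norm_real, Real.norm_eq_abs, abs_of_nonneg (sq_nonneg _), mul_comm K]
    refine mul_le_mul_of_nonneg_left ?_ (sq_nonneg _)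
    have hYb := lb_norm_inv_entry_le (show 0 < κ * (1 + (s ^ 2 + l)) by positivity) (hco' s)
    have hEb : ∀ i j, ‖E s i j‖ ≤ B * (1 + 2 * |s|) := fun i j => by
      simp only [hE, Matrix.sub_apply, Matrix.smul_apply, smul_eq_mul]
      refine (norm_sub_le _ _).trans ?_
      rw [norm_mul, Complex.norm_real, Real.norm_eq_abs, abs_mul,
        abs_of_pos (show (0 : ℝ) < 2 by norm_num)]
      have := mul_le_mul_of_nonneg_left (hF i j) (show 0 ≤ 2 * |s| by positivity)
      linarith [hP i j]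
    calc ‖(E s * (General.pencil P F s l)⁻¹ * E s) i j‖
        ≤ ∑ k, ∑ p, ‖E s i p‖ * ‖(General.pencil P F s l)⁻¹ p k‖ * ‖E s k j‖ := by
          rw [Matrix.mul_apply]
          refine (norm_sum_le _ _).trans (Finset.sum_le_sum fun k _ => ?_)
          rw [norm_mul, Matrix.mul_apply, ← Finset.sum_mul]
          refine mul_le_mul_of_nonneg_right ((norm_sum_le _ _).trans
            (Finset.sum_le_sum fun p _ => (norm_mul _ _).le)) (norm_nonneg _)
      _ ≤ ∑ _k : Fin N, ∑ _p : Fin N,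
            B * (1 + 2 * |s|) * (1 / (κ * (1 + (s ^ 2 + l)))) * (B * (1 + 2 * |s|)) := by
          refine Finset.sum_le_sum fun k _ => Finset.sum_le_sum fun p _ => ?_
          refine mul_le_mul (mul_le_mul (hEb i p) (hYb p k) (norm_nonneg _) ?_) (hEb k j)
            (norm_nonneg _) ?_
          · exact le_trans (norm_nonneg _) (hEb i p)
          · exact mul_nonneg (le_trans (norm_nonneg _) (hEb i p)) (by positivity)
      _ ≤ K := by
          simp only [Finset.sum_const, Finset.card_univ, Fintype.card_fin, nsmul_eq_mul]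
          rw [hK]
          have h18 : (1 + 2 * |s|) ^ 2 ≤ 18 * (1 + (s ^ 2 + l)) := by
            nlinarith [abs_nonneg s, sq_abs s, sq_nonneg (|s| - 1)]
          rw [show (N : ℝ) * ((N : ℝ) * (B * (1 + 2 * |s|) * (1 / (κ * (1 + (s ^ 2 + l))))
              * (B * (1 + 2 * |s|))))
            = (N : ℝ) ^ 2 * B ^ 2 / κ * ((1 + 2 * |s|) ^ 2 / (1 + (s ^ 2 + l))) by field_simp,
            show (N : ℝ) ^ 2 * (18 * B ^ 2) / κ = (N : ℝ) ^ 2 * B ^ 2 / κ * 18 by ring]
          exact mul_le_mul_of_nonneg_left ((div_le_iff₀ (by positivity)).2 h18) (by positivity)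
  have hodd : Integrable fun s => s * (1 / a s) ^ 2 := by
    refine ((hl1.1.add hl2.1).const_mul 1).mono' (by simp only [ha]; fun_prop)
      (Eventually.of_forall fun s => ?_)
    have := ha0 s
    rw [Real.norm_eq_abs, abs_mul, abs_of_nonneg (sq_nonneg (1 / a s)), one_mul, Pi.add_apply]
    have h1 : |s| ≤ a s + 1 := by
      simp only [ha]; nlinarith [sq_nonneg (|s| - 1 / 2), sq_abs s]
    calc |s| * (1 / a s) ^ 2 ≤ (a s + 1) * (1 / a s) ^ 2 :=
          mul_le_mul_of_nonneg_right h1 (sq_nonneg _)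
      _ = 1 / a s + (1 / a s) ^ 2 := by field_simp
  have hb2 : ‖D‖ ≤ C2 * (1 / (l * r)) := by
    rw [hD1, norm_mul, Complex.norm_real, Real.norm_eq_abs, abs_of_nonneg (by positivity)]
    have i1 : Integrable fun s => P i j * (((1 / a s) ^ 2 : ℝ) : ℂ) := hl2.1.ofReal.const_mul _
    have i2 : Integrable fun s => 2 * F i j * ((s * (1 / a s) ^ 2 : ℝ) : ℂ) :=
      hodd.ofReal.const_mul _
    have hfun := funext hexp
    have i3 : Integrable fun s =>
        (((1 / a s) ^ 2 : ℝ) : ℂ) * (E s * (General.pencil P F s l)⁻¹ * E s) i j := by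
      refine ((i1.sub i2).sub (hint1.sub hYi)).congr (Eventually.of_forall fun s => ?_)
      simp only [Pi.sub_apply]
      rw [hexp s]
      ring
    have hz : ∫ s, s * (1 / a s) ^ 2 = 0 := lb_odd_lor_integral_zero l
    have i12 : Integrable fun s => P i j * (((1 / a s) ^ 2 : ℝ) : ℂ)
        - 2 * F i j * ((s * (1 / a s) ^ 2 : ℝ) : ℂ) := i1.sub i2
    rw [hfun, integral_sub i12 i3, integral_sub i1 i2, integral_const_mul,
      integral_const_mul, integral_complex_ofReal, integral_complex_ofReal, hz, hl2.2]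
    have h4 : ‖∫ s, (((1 / a s) ^ 2 : ℝ) : ℂ) * (E s * (General.pencil P F s l)⁻¹ * E s) i j‖
        ≤ K * (Real.pi / (2 * r ^ 3)) := by
      refine (norm_integral_le_of_norm_le (hl2.1.const_mul K) (Eventually.of_forall hKb)).trans_eq ?_
      rw [integral_const_mul, hl2.2]
    have h5 : ‖P i j * ((Real.pi / (2 * r ^ 3) : ℝ) : ℂ)‖ ≤ |B| * (Real.pi / (2 * r ^ 3)) := by
      rw [norm_mul, Complex.norm_real, Real.norm_eq_abs, abs_of_nonneg (by positivity), hB]
      exact mul_le_mul_of_nonneg_right (hP i j) (by positivity)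
    rw [Complex.ofReal_zero, mul_zero, sub_zero]
    refine (mul_le_mul_of_nonneg_left ((norm_sub_le _ _).trans (add_le_add h5 h4))
      (by positivity)).trans_eq ?_
    rw [hC2, ← hr2]
    field_simp
  rw [mul_min_of_nonneg _ _ (le_max_of_le_left (by positivity : (0:ℝ) ≤ C1))]
  exact le_min (hb1.trans (mul_le_mul_of_nonneg_right (le_max_left _ _) (by positivity)))
    (hb2.trans (mul_le_mul_of_nonneg_right (le_max_right _ _) (by positivity)))

theorem layerPair_bound {ε B : ℝ} (hε : 0 < ε) :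
    ∃ C, ∀ P F H : Matrix (Fin N) (Fin N) ℂ, P.IsHermitian → F.IsHermitian →
      (∀ i j, ‖P i j‖ ≤ B) → (∀ i j, ‖F i j‖ ≤ B) → Margin P F ε → ∀ l : ℝ, 0 < l →
      |layerPair P F H l| ≤
        C * (∑ i, ∑ j, ‖H i j‖) * min (1 / Real.sqrt l) (1 / (l * Real.sqrt l)) := by
  classical
  obtain ⟨C, hC, hb⟩ := layerZ_entry_bound (N := N) hε B
  refine ⟨C, fun P F H _ _ hP hF hm l hl => ?_⟩
  set m := min (1 / Real.sqrt l) (1 / (l * Real.sqrt l))
  have e : layerPair P F H l = (∑ i, ∑ j,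
      ((if i = j then ((1 / Real.sqrt l : ℝ) : ℂ) else 0) - layerZ P F l i j) * H j i).re := by
    simp only [layerPair, sub_mul, Finset.sum_sub_distrib, ite_mul, zero_mul, Finset.sum_ite_eq,
      Finset.mem_univ, if_true, Complex.sub_re, Matrix.trace, Matrix.diag, Matrix.mul_apply,
      Complex.re_sum, Complex.re_ofReal_mul]
    rw [Finset.sum_div]
    congr 1
    exact Finset.sum_congr rfl fun i _ => by ring
  rw [e]
  refine (Complex.abs_re_le_norm _).trans ((norm_sum_le _ _).trans ?_)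
  calc ∑ i, ‖∑ j, ((if i = j then ((1 / Real.sqrt l : ℝ) : ℂ) else 0) - layerZ P F l i j) * H j i‖
      ≤ ∑ i, ∑ j, C * m * ‖H j i‖ := by
        refine Finset.sum_le_sum fun i _ => (norm_sum_le _ _).trans (Finset.sum_le_sum fun j _ => ?_)
        rw [norm_mul]
        exact mul_le_mul_of_nonneg_right (hb P F hP hF hm l hl i j) (norm_nonneg _)
    _ = C * (∑ i, ∑ j, ‖H i j‖) * m := by
        rw [Finset.sum_comm]
        simp only [← Finset.mul_sum]
        ring

end Vale.Agent.P371.All
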