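import Vale.Agent.P371.All.LayerBase

/-!
# P371: the commutation identity `M Z - Z Mᴴ = 2i` of the layer matrix and its solvent
-/

namespace Vale.Agent.P371.All

open Matrix MeasureTheory Set Filter General
open scoped ComplexOrder ComplexConjugate Topology

variable {N : ℕ}

theorem tendsto_resolvent_integral {μ : ℂ} (hμ : 0 < μ.im) (j : ℕ) :
    Tendsto (fun T : ℝ => ∫ s in (-T)..T, (((s : ℂ) - μ)⁻¹) ^ (j + 1)) atTop
      (𝓝 (if j = 0 then Complex.I * Real.pi else 0)) := by
  have hne : ∀ s : ℝ, (s : ℂ) - μ ≠ 0 := fun s e => by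
    have := congrArg Complex.im e
    simp at this
    linarith
  have hcont : ∀ k : ℕ, Continuous fun s : ℝ => (((s : ℂ) - μ)⁻¹) ^ k := fun k =>
    ((Complex.continuous_ofReal.sub continuous_const).inv₀ hne).pow k
  rcases j with _ | j
  · rw [if_pos rfl]
    set a := μ.re with ha
    set b := μ.im with hb
    set g : ℝ → ℂ := fun s => ((1 / 2 * Real.log ((s - a) ^ 2 + b ^ 2) : ℝ) : ℂ)
      + Complex.I * ((Real.arctan ((s - a) / b) : ℝ) : ℂ) with hg
    have hd : ∀ s : ℝ, HasDerivAt g ((((s : ℂ) - μ)⁻¹) ^ (0 + 1)) s := fun s => by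
      have hp : 0 < (s - a) ^ 2 + b ^ 2 := by positivity
      have h1 : HasDerivAt (fun k : ℝ => k - a) 1 s := (hasDerivAt_id s).sub_const a
      have h2 := ((((h1.pow 2).add_const (b ^ 2)).log hp.ne').const_mul (1 / 2 : ℝ)).ofReal_comp
      have h3 := ((h1.div_const b).arctan.ofReal_comp).const_mul Complex.I
      refine (h2.add h3).congr_deriv ?_
      have hns : Complex.normSq ((s : ℂ) - μ) = (s - a) ^ 2 + b ^ 2 := by
        simp [Complex.normSq_apply, ha, hb]
        ring
      apply Complex.ext
      · simp only [zero_add, pow_one, Pi.pow_apply, Complex.add_re, Complex.ofReal_re,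
          Complex.I_mul_re, Complex.ofReal_im, neg_zero, add_zero, Complex.inv_re, hns,
          Complex.sub_re, ← ha]
        push_cast
        field_simp
      · simp only [zero_add, pow_one, Pi.pow_apply, Complex.add_im, Complex.ofReal_re,
          Complex.I_mul_im, Complex.ofReal_im, Complex.inv_im, hns, Complex.sub_im, zero_sub,
          neg_neg, ← hb]
        field_simp
        ring
    have hre : Tendsto (fun T : ℝ => 1 / 2 * Real.log ((T - a) ^ 2 + b ^ 2)
        - 1 / 2 * Real.log ((-T - a) ^ 2 + b ^ 2)) atTop (𝓝 0) := by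
      set h : ℝ → ℝ := fun x => 1 / 2 * Real.log ((1 - a * x) ^ 2 + (b * x) ^ 2)
        - 1 / 2 * Real.log ((1 + a * x) ^ 2 + (b * x) ^ 2) with hh
      have hc : ContinuousAt h 0 := by
        refine ContinuousAt.sub (continuousAt_const.mul (ContinuousAt.log ?_ ?_))
          (continuousAt_const.mul (ContinuousAt.log ?_ ?_)) <;> first | fun_prop | simp
      have h0 : h 0 = 0 := by simp [hh]
      have := hc.tendsto.comp (tendsto_inv_atTop_zero (𝕜 := ℝ))
      rw [h0] at this
      refine this.congr' ?_
      filter_upwards [eventually_gt_atTop 0] with T hT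
      have hp : ∀ x : ℝ, 0 < x ^ 2 + b ^ 2 := fun x => by positivity
      simp only [hh, Function.comp_apply]
      rw [show (1 - a * T⁻¹) ^ 2 + (b * T⁻¹) ^ 2 = ((T - a) ^ 2 + b ^ 2) / T ^ 2 by field_simp,
        show (1 + a * T⁻¹) ^ 2 + (b * T⁻¹) ^ 2 = ((-T - a) ^ 2 + b ^ 2) / T ^ 2 by
          field_simp; ring,
        Real.log_div (hp _).ne' (by positivity), Real.log_div (hp _).ne' (by positivity)]
      ring
    have him : Tendsto (fun T : ℝ => Real.arctan ((T - a) / b) - Real.arctan ((-T - a) / b)) atTop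
        (𝓝 Real.pi) := by
      have h1 : Tendsto (fun T : ℝ => (T - a) / b) atTop atTop :=
        (tendsto_atTop_add_const_right _ (-a) tendsto_id).atTop_div_const hμ
      have h2 : Tendsto (fun T : ℝ => (-T - a) / b) atTop atBot :=
        (tendsto_atBot_add_const_right _ (-a) tendsto_neg_atTop_atBot).atBot_div_const hμ
      have h3 := ((tendsto_nhds_of_tendsto_nhdsWithin Real.tendsto_arctan_atTop).comp h1).sub
        ((tendsto_nhds_of_tendsto_nhdsWithin Real.tendsto_arctan_atBot).comp h2)
      rw [show Real.pi / 2 - -(Real.pi / 2) = Real.pi by ring] at h3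
      exact h3
    have hlim := ((Complex.continuous_ofReal.tendsto _).comp hre).add
      (((Complex.continuous_ofReal.tendsto _).comp him).const_mul Complex.I)
    rw [Complex.ofReal_zero, zero_add] at hlim
    refine hlim.congr fun T => ?_
    rw [intervalIntegral.integral_eq_sub_of_hasDerivAt (fun s _ => hd s)
      ((hcont _).intervalIntegrable _ _)]
    simp only [hg, Function.comp_apply]
    push_cast
    ring
  · rw [if_neg (Nat.succ_ne_zero j)]
    set g : ℝ → ℂ := fun s => -(1 / (j + 1 : ℂ)) * (((s : ℂ) - μ)⁻¹) ^ (j + 1) with hg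
    have hd : ∀ s : ℝ, HasDerivAt g ((((s : ℂ) - μ)⁻¹) ^ (j + 1 + 1)) s := fun s => by
      have h1 : HasDerivAt (fun k : ℝ => (k : ℂ) - μ) 1 s :=
        ((hasDerivAt_id s).ofReal_comp).sub_const μ
      refine ((((h1.fun_inv (hne s)).pow (j + 1)).const_mul _)).congr_deriv ?_
      have hj : ((j : ℂ) + 1) ≠ 0 := Nat.cast_add_one_ne_zero j
      have := hne s
      push_cast
      simp only [inv_pow, pow_succ]
      field_simp
    have hz : ∀ u : ℝ → ℂ, Tendsto (fun T => ‖u T‖) atTop atTop →
        Tendsto (fun T => -(1 / (j + 1 : ℂ)) * ((u T)⁻¹) ^ (j + 1)) atTop (𝓝 0) := fun u hu => by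
      have h1 : Tendsto (fun T => (u T)⁻¹) atTop (𝓝 0) := by
        refine tendsto_zero_iff_norm_tendsto_zero.2 ?_
        simpa only [norm_inv, Function.comp_def] using tendsto_inv_atTop_zero.comp hu
      simpa using (h1.pow (j + 1)).const_mul (-(1 / (j + 1 : ℂ)))
    have h1 : Tendsto (fun T : ℝ => g T) atTop (𝓝 0) := by
      refine hz (fun T => (T : ℂ) - μ) (tendsto_atTop_mono (fun T => ?_)
        (tendsto_atTop_add_const_right _ (-μ.re) tendsto_id))
      exact le_trans (by simp [sub_eq_add_neg]) (Complex.re_le_norm _)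
    have h2 : Tendsto (fun T : ℝ => g (-T)) atTop (𝓝 0) := by
      refine hz (fun T => ((-T : ℝ) : ℂ) - μ) (tendsto_atTop_mono (fun T => ?_)
        (tendsto_atTop_add_const_right _ μ.re tendsto_id))
      refine le_trans ?_ ((neg_le_abs _).trans (Complex.abs_re_le_norm _))
      simp only [id_eq, Complex.sub_re, Complex.ofReal_re]
      linarith
    have := h1.sub h2
    rw [sub_zero] at this
    refine this.congr fun T => ?_
    rw [intervalIntegral.integral_eq_sub_of_hasDerivAt (fun s _ => hd s)
      ((hcont _).intervalIntegrable _ _)]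

/-- The truncated integrals of the resolvent of a matrix with spectrum in the upper half plane. -/
theorem tendsto_resolvent {M : Matrix (Fin N) (Fin N) ℂ} (R : ℝ → Matrix (Fin N) (Fin N) ℂ)
    (hR : ∀ i j, Continuous fun s => R s i j) (hinv : ∀ s : ℝ, R s * ((s : ℂ) • 1 - M) = 1)
    {a : Fin N → ℂ} (ha : a ∈ ⨆ μ : ℂ, ⨆ _ : 0 < μ.im,
      Module.End.maxGenEigenspace (Matrix.toLin' M : Module.End ℂ (Fin N → ℂ)) μ) (i : Fin N) :
    Tendsto (fun T : ℝ => ∫ s in (-T)..T, (R s *ᵥ a) i) atTop
      (𝓝 (Complex.I * Real.pi * a i)) := by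
  have hv : ∀ b i, Continuous fun s => (R s *ᵥ b) i := fun b i => by
    simp only [mulVec, dotProduct]
    fun_prop
  refine Submodule.iSup_induction _ (motive := fun a => ∀ i, Tendsto
    (fun T : ℝ => ∫ s in (-T)..T, (R s *ᵥ a) i) atTop (𝓝 (Complex.I * Real.pi * a i))) ha
    (fun μ y hy => ?_) (fun i => by simp) (fun y z hy hz i => ?_) i
  · refine Submodule.iSup_induction _ (motive := fun a => ∀ i, Tendsto
      (fun T : ℝ => ∫ s in (-T)..T, (R s *ᵥ a) i) atTop (𝓝 (Complex.I * Real.pi * a i))) hy
      (fun hμ z hz => ?_) (fun i => by simp) (fun u w hu hw i => ?_)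
    · obtain ⟨k, hk⟩ := (Module.End.mem_maxGenEigenspace _ μ z).1 hz
      have key : ∀ (k : ℕ) (z : Fin N → ℂ),
          (((Matrix.toLin' M : Module.End ℂ (Fin N → ℂ)) - μ • 1) ^ k) z = 0 → ∀ (j : ℕ) i,
          Tendsto (fun T : ℝ => ∫ s in (-T)..T, (((s : ℂ) - μ)⁻¹) ^ j * (R s *ᵥ z) i) atTop
            (𝓝 (if j = 0 then Complex.I * Real.pi * z i else 0)) := by
        intro k
        induction k with
        | zero =>
          intro z hz j i
          simp only [pow_zero, Module.End.one_apply] at hz
          simp [hz]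
        | succ k ih =>
          intro z hz j i
          rw [pow_succ, Module.End.mul_apply] at hz
          set b := ((Matrix.toLin' M : Module.End ℂ (Fin N → ℂ)) - μ • 1) z with hb
          have hne : ∀ s : ℝ, (s : ℂ) - μ ≠ 0 := fun s e => by
            have := congrArg Complex.im e
            simp at this
            linarith
          have e : ∀ s : ℝ, (((s : ℂ) - μ)⁻¹) ^ j * (R s *ᵥ z) i =
              z i * (((s : ℂ) - μ)⁻¹) ^ (j + 1) + (((s : ℂ) - μ)⁻¹) ^ (j + 1) * (R s *ᵥ b) i := by
            intro s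
            have h1 : ((s : ℂ) • 1 - M) *ᵥ z = ((s : ℂ) - μ) • z - b := by
              simp [hb, sub_mulVec, smul_mulVec, Matrix.toLin'_apply, sub_smul]
            have h2 := congrArg (fun v => R s *ᵥ v) h1
            simp only [mulVec_mulVec, hinv, one_mulVec, mulVec_sub, mulVec_smul] at h2
            have h3 := congrFun h2 i
            simp only [Pi.sub_apply, Pi.smul_apply, smul_eq_mul] at h3
            have h4 := mul_inv_cancel₀ (hne s)
            set c := ((s : ℂ) - μ)⁻¹
            rw [pow_succ]
            linear_combination (-(c ^ j * c)) * h3 - c ^ j * (R s *ᵥ z) i * h4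
          have hci : ∀ n : ℕ, Continuous fun s : ℝ => (((s : ℂ) - μ)⁻¹) ^ n := fun n =>
            ((Complex.continuous_ofReal.sub continuous_const).inv₀ hne).pow n
          have := ((tendsto_resolvent_integral hμ j).const_mul (z i)).add
            (ih b hz (j + 1) i)
          rw [if_neg (Nat.succ_ne_zero j), add_zero] at this
          rw [show (if j = 0 then Complex.I * Real.pi * z i else 0)
            = z i * (if j = 0 then Complex.I * Real.pi else 0) by split_ifs <;> ring]
          refine this.congr fun T => ?_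
          rw [← intervalIntegral.integral_const_mul, ← intervalIntegral.integral_add]
          · exact intervalIntegral.integral_congr fun s _ => (e s).symm
          · exact ((hci _).const_mul _).intervalIntegrable _ _
          · exact ((hci _).mul (hv b i)).intervalIntegrable _ _
      intro i
      simpa using key k z hk 0 i
    · simp only [Pi.add_apply, mul_add, mulVec_add]
      refine ((hu i).add (hw i)).congr fun T => ?_
      rw [intervalIntegral.integral_add ((hv u i).intervalIntegrable _ _)
        ((hv w i).intervalIntegrable _ _)]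
  · simp only [Pi.add_apply, mul_add, mulVec_add]
    refine ((hy i).add (hz i)).congr fun T => ?_
    rw [intervalIntegral.integral_add ((hv y i).intervalIntegrable _ _)
      ((hv z i).intervalIntegrable _ _)]

/-- **The solvent of a layer and the identity `M Z - Z Mᴴ = 2i`.** -/
theorem exists_layer_solvent {P F : Matrix (Fin N) (Fin N) ℂ} (hP : P.IsHermitian)
    (hF : F.IsHermitian) {ε l : ℝ} (hε : 0 < ε) (hl : 0 ≤ l) (hm : Margin P F ε) :
    ∃ G : Matrix (Fin N) (Fin N) ℂ, G.IsHermitian ∧
      (F + Complex.I • G)ᴴ * (F + Complex.I • G) = P + (l : ℂ) • 1 ∧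
      (F + Complex.I • G) * layerZ P F l - layerZ P F l * (F + Complex.I • G)ᴴ
        = (2 * Complex.I) • 1 := by
  set Q := P + (l : ℂ) • (1 : Matrix (Fin N) (Fin N) ℂ) with hQ
  have hQh : Q.IsHermitian := hP.add (by
    simp [Matrix.IsHermitian, conjTranspose_smul])
  have hpd := pencil_posDef hP hF hε hl hm
  have hinv : ∀ (s : ℝ) (a : Fin N → ℂ), pencil Q F s 0 *ᵥ a = 0 → a = 0 := by
    intro s a ha
    rw [hQ, pencil_shift, add_zero] at ha
    by_contra hne
    have := (hpd s).dotProduct_mulVec_pos hne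
    simp [ha] at this
  obtain ⟨M, hM1, hM2, hM3⟩ := exists_solvent hQh hF hinv
  refine ⟨(-(Complex.I / 2)) • (M - Mᴴ), ?_, ?_⟩
  · simp only [Matrix.IsHermitian, conjTranspose_smul, conjTranspose_sub,
      conjTranspose_conjTranspose, star_neg, star_div₀, Complex.star_def, Complex.conj_I,
      map_ofNat]
    module
  have hMeq : F + Complex.I • ((-(Complex.I / 2)) • (M - Mᴴ)) = M := by
    rw [smul_smul, show Complex.I * -(Complex.I / 2) = 1 / 2 by
      linear_combination (-1 / 2 : ℂ) * Complex.I_mul_I]
    have : F = (1 / 2 : ℂ) • (M + Mᴴ) := by rw [hM1, smul_smul]; norm_num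
    rw [this]
    module
  rw [hMeq]
  refine ⟨hM2, ?_⟩
  set D : ℝ → Matrix (Fin N) (Fin N) ℂ := fun s => (s : ℂ) • 1 - M with hD
  have hfac : ∀ s, (D s)ᴴ * D s = pencil P F s l := by
    intro s
    simp only [hD, conjTranspose_sub, conjTranspose_smul, conjTranspose_one, Complex.star_def,
      Complex.conj_ofReal, Matrix.sub_mul, Matrix.mul_sub, Matrix.smul_mul, Matrix.mul_smul,
      Matrix.one_mul, Matrix.mul_one, hM2, hQ, pencil]
    have : Mᴴ = (2 : ℂ) • F - M := eq_sub_of_add_eq' hM1
    rw [this]
    push_cast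
    module
  have hu : ∀ s, IsUnit (D s).det := fun s => by
    have := (hpd s).det_pos.ne'
    rw [← hfac, det_mul] at this
    exact isUnit_iff_ne_zero.2 (right_ne_zero_of_mul this)
  set R : ℝ → Matrix (Fin N) (Fin N) ℂ := fun s => (D s)⁻¹ with hRdef
  have hRinv : ∀ s, R s * D s = 1 := fun s => Matrix.nonsing_inv_mul _ (hu s)
  have hRinv' : ∀ s, D s * R s = 1 := fun s => Matrix.mul_nonsing_inv _ (hu s)
  have hRc : ∀ i j, Continuous fun s => R s i j := fun i j => by
    have hc : Continuous D := by simp only [hD]; fun_prop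
    have : Continuous R := by
      simp only [hRdef, Matrix.inv_def, Ring.inverse_eq_inv']
      exact (hc.matrix_det.inv₀ fun k => (hu k).ne_zero).smul hc.matrix_adjugate
    exact this.matrix_elem i j
  have hY : ∀ s, (pencil P F s l)⁻¹ = R s * (R s)ᴴ := fun s => by
    rw [← hfac, Matrix.mul_inv_rev, hRdef, conjTranspose_nonsing_inv]
  have hkey : ∀ s, M * (pencil P F s l)⁻¹ - (pencil P F s l)⁻¹ * Mᴴ = R s - (R s)ᴴ := by
    intro s
    have h1 : D s * (R s * (R s)ᴴ) = (R s)ᴴ := by rw [← Matrix.mul_assoc, hRinv', Matrix.one_mul]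
    have h2 : R s * (R s)ᴴ * (D s)ᴴ = R s := by
      rw [Matrix.mul_assoc, ← conjTranspose_mul, hRinv', conjTranspose_one, Matrix.mul_one]
    rw [hY]
    conv_rhs => rw [← h1]; arg 1; rw [← h2]
    simp only [hD, conjTranspose_sub, conjTranspose_smul, conjTranspose_one, Complex.star_def,
      Complex.conj_ofReal, Matrix.sub_mul, Matrix.mul_sub, Matrix.smul_mul, Matrix.mul_smul,
      Matrix.one_mul, Matrix.mul_one]
    abel
  ext i j
  set φ : Matrix (Fin N) (Fin N) ℂ →ₗ[ℂ] ℂ :=
    { toFun := fun A => (M * A - A * Mᴴ) i j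
      map_add' := fun A B => by simp [Matrix.mul_add, Matrix.add_mul]; ring
      map_smul' := fun a A => by simp; ring } with hφ
  obtain ⟨hi, he⟩ := layer_linear hP hF hε hl hm φ
  change φ (layerZ P F l) = _
  rw [he]
  have hint : ∫ s : ℝ, φ (pencil P F s l)⁻¹
      = Complex.I * Real.pi * (if i = j then 1 else 0)
        - conj (Complex.I * Real.pi * (if j = i then 1 else 0)) := by
    refine tendsto_nhds_unique
      (intervalIntegral_tendsto_integral hi tendsto_neg_atTop_atBot tendsto_id) ?_
    have hlim : ∀ a b : Fin N, Tendsto (fun T : ℝ => ∫ s in (-T)..T, R s a b) atTop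
        (𝓝 (Complex.I * Real.pi * (if a = b then 1 else 0))) := fun a b => by
      simpa [Pi.single_apply] using tendsto_resolvent R hRc hRinv (hM3 (Pi.single b 1)) a
    refine ((hlim i j).sub ((Complex.continuous_conj.tendsto _).comp (hlim j i))).congr fun T => ?_
    simp only [id_eq, Function.comp_apply]
    rw [← intervalIntegral.intervalIntegral_conj, ← intervalIntegral.integral_sub
      ((hRc i j).intervalIntegrable _ _)
      ((Complex.continuous_conj.comp' (hRc j i)).intervalIntegrable _ _)]
    refine intervalIntegral.integral_congr fun s _ => ?_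
    simp only [hφ, LinearMap.coe_mk, AddHom.coe_mk, hkey]
    simp
  rw [hint]
  have := Complex.ofReal_ne_zero.2 Real.pi_ne_zero
  rcases eq_or_ne i j with rfl | hij
  · simp
    field_simp
    ring
  · simp [hij, hij.symm]

end Vale.Agent.P371.All
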