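import Vale.Agent.P371.All.LayerBound

/-!
# P371 (all `γ`): the value of the layered one-form along a path

`tr Z(F) dF` is exact, by the Jacobi formula for `det`, so its integral only depends on the
endpoints; it is evaluated on the straight path from `A` to `-A`.
-/

namespace Vale.Agent.P371.All

open Matrix MeasureTheory Set Filter
open scoped ComplexOrder ComplexConjugate Topology

variable {N : ℕ}

/-- Jacobi's formula. -/
lemma hasDerivWithinAt_det {A : ℝ → Matrix (Fin N) (Fin N) ℂ}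
    {A' : Matrix (Fin N) (Fin N) ℂ} {s : Set ℝ} {x : ℝ}
    (h : ∀ i j, HasDerivWithinAt (fun y => A y i j) (A' i j) s x) :
    HasDerivWithinAt (fun y => (A y).det) ((A x).adjugate * A').trace s x := by
  classical
  have hd : HasDerivWithinAt (fun y => ∑ σ : Equiv.Perm (Fin N),
      ((Equiv.Perm.sign σ : ℤ) : ℂ) * ∏ i, A y (σ i) i)
      (∑ σ : Equiv.Perm (Fin N), ((Equiv.Perm.sign σ : ℤ) : ℂ) *
        ∑ i, (∏ k ∈ Finset.univ.erase i, A x (σ k) k) • A' (σ i) i) s x :=
    HasDerivWithinAt.fun_sum fun σ _ =>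
      (HasDerivWithinAt.fun_finsetProd fun i _ => h (σ i) i).const_mul _
  have e : ((A x).adjugate * A').trace = ∑ σ : Equiv.Perm (Fin N),
      ((Equiv.Perm.sign σ : ℤ) : ℂ) *
        ∑ i, (∏ k ∈ Finset.univ.erase i, A x (σ k) k) • A' (σ i) i := by
    have hi : ∀ i, ((A x).adjugate * A') i i = ((A x).updateCol i fun r => A' r i).det := fun i => by
      rw [← cramer_apply, cramer_eq_adjugate_mulVec]
      rfl
    simp only [Matrix.trace, Matrix.diag, hi, det_apply']
    rw [Finset.sum_comm]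
    refine Finset.sum_congr rfl fun σ _ => ?_
    rw [Finset.mul_sum]
    refine Finset.sum_congr rfl fun i _ => ?_
    rw [← Finset.mul_prod_erase _ _ (Finset.mem_univ i)]
    have hp : ∏ k ∈ Finset.univ.erase i, ((A x).updateCol i fun r => A' r i) (σ k) k
        = ∏ k ∈ Finset.univ.erase i, A x (σ k) k :=
      Finset.prod_congr rfl fun k hk => by simp [Finset.ne_of_mem_erase hk]
    rw [hp, smul_eq_mul]
    simp [mul_comm]
  rw [e]
  simpa [det_apply'] using hd

/-- The logarithm of the determinant. -/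
noncomputable def pathLd (P F : Matrix (Fin N) (Fin N) ℂ) (s l : ℝ) : ℝ :=
  Real.log ((General.pencil P F s l).det).re

/-- The endpoint function of the layer one-form. -/
noncomputable def pathEnd (P F₀ F₁ : Matrix (Fin N) (Fin N) ℂ) (l : ℝ) : ℝ :=
  (2 * Real.pi)⁻¹ * ∫ s : ℝ, ((pathLd P F₁ (-s) l - pathLd P F₁ s l)
    - (pathLd P F₀ (-s) l - pathLd P F₀ s l)) / (2 * s)

lemma path_pencil_posDef {P F : Matrix (Fin N) (Fin N) ℂ} (hP : P.IsHermitian)
    (hF : F.IsHermitian) {ε : ℝ} (hε : 0 < ε) (hm : Margin P F ε) {l : ℝ} (hl : 0 ≤ l) (s : ℝ) :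
    (General.pencil P F s l).PosDef := by
  have hH := General.pencil_isHermitian hP hF s l
  refine PosDef.of_dotProduct_mulVec_pos hH fun v hv => ?_
  have hn := lb_nsq_pos_of_ne_zero hv
  have h := hm s v
  rw [General.qf_pencil, add_zero] at h
  have hp : 0 < General.qf (General.pencil P F s l) v := by
    rw [General.qf_pencil]
    nlinarith [mul_pos hε hn, mul_nonneg hl hn.le]
  refine Complex.lt_def.2 ⟨hp, ?_⟩
  have him : RCLike.im (star v ⬝ᵥ (General.pencil P F s l) *ᵥ v) = 0 :=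
    hH.im_star_dotProduct_mulVec_self v
  simpa using him.symm

lemma hasDerivWithinAt_pathLd {P : Matrix (Fin N) (Fin N) ℂ} (hP : P.IsHermitian)
    {F : ℝ → Matrix (Fin N) (Fin N) ℂ} {F' : Matrix (Fin N) (Fin N) ℂ} {t : Set ℝ} {x : ℝ}
    (hd : ∀ i j, HasDerivWithinAt (fun y => F y i j) (F' i j) t x) (hF : (F x).IsHermitian)
    {ε : ℝ} (hε : 0 < ε) (hm : Margin P (F x) ε) {l : ℝ} (hl : 0 ≤ l) (s : ℝ) :
    HasDerivWithinAt (fun y => pathLd P (F y) s l)
      (-(2 * s) * ((General.pencil P (F x) s l)⁻¹ * F').trace.re) t x := by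
  have hY : ∀ i j, HasDerivWithinAt (fun y => General.pencil P (F y) s l i j)
      ((((-(2 * s) : ℝ) : ℂ) • F') i j) t x := by
    intro i j
    simp only [General.pencil, Matrix.add_apply, Matrix.sub_apply, Matrix.smul_apply, smul_eq_mul]
    refine ((((hd i j).const_mul (((2 * s : ℝ) : ℂ))).const_sub (P i j)).add_const _).congr_deriv ?_
    push_cast
    ring
  have hpd := path_pencil_posDef hP hF hε hm hl s
  have hdet := hpd.det_pos
  rw [Complex.pos_iff] at hdet
  have h1 := hasDerivWithinAt_det hY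
  have h2 : HasDerivWithinAt (fun y => ((General.pencil P (F y) s l).det).re)
      (((General.pencil P (F x) s l).adjugate * (((-(2 * s) : ℝ) : ℂ) • F')).trace).re t x :=
    Complex.reCLM.hasFDerivAt.comp_hasDerivWithinAt x h1
  refine (h2.log hdet.1.ne').congr_deriv ?_
  rw [Matrix.mul_smul, trace_smul, smul_eq_mul, Complex.re_ofReal_mul, Matrix.inv_def,
    Ring.inverse_eq_inv', Matrix.smul_mul, trace_smul, smul_eq_mul]
  set d := (General.pencil P (F x) s l).det with hd'
  have hdr : d = ((d.re : ℝ) : ℂ) := Complex.ext (by simp) (by simp [← hdet.2])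
  rw [show d⁻¹ = ((d.re⁻¹ : ℝ) : ℂ) by rw [hdr]; push_cast; simp, Complex.re_ofReal_mul]
  field_simp

lemma min_layer_integrableOn {ν : ℝ} (h0 : 0 < ν) (h1 : ν < 1) :
    IntegrableOn (fun t : ℝ =>
      t ^ (ν - 1 / 2) * min (1 / Real.sqrt t) (1 / (t * Real.sqrt t))) (Ioi 0) := by
  have hmeas : AEStronglyMeasurable
      (fun t : ℝ => t ^ (ν - 1 / 2) * min (1 / Real.sqrt t) (1 / (t * Real.sqrt t)))
      (volume.restrict (Ioi (0 : ℝ))) := Measurable.aestronglyMeasurable (by fun_prop)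
  rw [← Ioc_union_Ioi_eq_Ioi zero_le_one]
  refine IntegrableOn.union ?_ ?_
  · have hint : IntegrableOn (fun t : ℝ => t ^ (ν - 1)) (Ioc 0 1) :=
      (intervalIntegrable_iff_integrableOn_Ioc_of_le zero_le_one).1
        (intervalIntegral.intervalIntegrable_rpow' (by linarith))
    refine Integrable.mono' hint (hmeas.mono_set Ioc_subset_Ioi_self) ?_
    filter_upwards [self_mem_ae_restrict measurableSet_Ioc] with t ht
    have ht0 : 0 < t := ht.1
    rw [Real.norm_eq_abs, abs_of_nonneg (by positivity)]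
    refine (mul_le_mul_of_nonneg_left (min_le_left _ _) (Real.rpow_nonneg ht0.le _)).trans_eq ?_
    rw [Real.sqrt_eq_rpow, one_div, one_div, ← Real.rpow_neg ht0.le, ← Real.rpow_add ht0]
    norm_num
    ring_nf
  · have hint : IntegrableOn (fun t : ℝ => t ^ (ν - 2)) (Ioi 1) :=
      integrableOn_Ioi_rpow_of_lt (by linarith) zero_lt_one
    refine Integrable.mono' hint (hmeas.mono_set (Ioi_subset_Ioi zero_le_one)) ?_
    filter_upwards [self_mem_ae_restrict measurableSet_Ioi] with t ht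
    have ht0 : 0 < t := zero_lt_one.trans ht
    rw [Real.norm_eq_abs, abs_of_nonneg (by positivity)]
    refine (mul_le_mul_of_nonneg_left (min_le_right _ _) (Real.rpow_nonneg ht0.le _)).trans_eq ?_
    have hpow : t * Real.sqrt t = t ^ (3 / 2 : ℝ) := by
      rw [show (3 / 2 : ℝ) = 1 + 1 / 2 by norm_num, Real.rpow_add ht0, Real.rpow_one,
        Real.sqrt_eq_rpow]
    rw [hpow, one_div, one_div, ← Real.rpow_neg ht0.le, ← Real.rpow_add ht0]
    ring_nf

theorem lcoef_pos {ν : ℝ} (h0 : 0 < ν) (h1 : ν < 1) : 0 < General.lcoef ν := by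
  set f : ℝ → ℝ := fun t => t ^ (ν - 1 / 2) * (1 / Real.sqrt t - 1 / Real.sqrt (1 + t)) with hf
  have hpos : ∀ t ∈ Ioi (0 : ℝ), 0 < f t := fun t ht => by
    have ht0 : (0 : ℝ) < t := ht
    exact mul_pos (Real.rpow_pos_of_pos ht0 _) (sub_pos.2 (one_div_lt_one_div_of_lt
      (Real.sqrt_pos.2 ht0) (Real.sqrt_lt_sqrt ht0.le (by linarith))))
  have hae : 0 ≤ᵐ[volume.restrict (Ioi (0 : ℝ))] f := by
    filter_upwards [self_mem_ae_restrict measurableSet_Ioi] with t ht using (hpos t ht).le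
  show 0 < ∫ t in Ioi (0 : ℝ), f t
  rw [setIntegral_pos_iff_support_of_nonneg_ae hae
    (General.integrableOn_layer h0 h1 zero_le_one)]
  have hs : Function.support f ∩ Ioi 0 = Ioi (0 : ℝ) :=
    Set.inter_eq_right.2 fun t ht => (hpos t ht).ne'
  rw [hs, Real.volume_Ioi]
  exact ENNReal.zero_lt_top

/-- The layer value at fixed `l`, on globally extended data. -/
lemma layer_path_fixed {L ε : ℝ} (hLL : -L ≤ L) (hε : 0 < ε) {P : Matrix (Fin N) (Fin N) ℂ}
    (hP : P.IsHermitian) {G H : ℝ → Matrix (Fin N) (Fin N) ℂ} (hGc : Continuous G)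
    (hHc : Continuous H) (hGh : ∀ x, (G x).IsHermitian) (hGm : ∀ x, Margin P (G x) ε)
    (hGd : ∀ x ∈ Ioo (-L) L, ∀ i j, HasDerivAt (fun y => G y i j) (H x i j) x)
    {g : ℝ → ℝ → ℝ} (hgc : Continuous fun p : ℝ × ℝ => g p.1 p.2) {cb : ℝ}
    (hgb : ∀ x s, |g x s| ≤ cb * (1 + s ^ 2)⁻¹) {l : ℝ} (hl0 : 0 ≤ l)
    (hgdef : ∀ x s, g x s = ((General.pencil P (G x) s l)⁻¹ * H x).trace.re) :
    ∫ x in Ioc (-L) L, ((H x).trace.re / Real.sqrt l - Real.pi⁻¹ * ∫ s, g x s) =
      (G L - G (-L)).trace.re / Real.sqrt l - pathEnd P (G (-L)) (G L) l := by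
  set μ : Measure ℝ := volume.restrict (Ioc (-L) L) with hμ
  have hμf : IsFiniteMeasure μ := ⟨by simp [hμ, Real.volume_Ioc]⟩
  have hgs : Integrable (Function.uncurry fun x s => g x s) (μ.prod volume) := by
    refine ((integrable_const cb).mul_prod integrable_inv_one_add_sq).mono'
      hgc.aestronglyMeasurable
      (Eventually.of_forall fun p => ?_)
    rw [Real.norm_eq_abs]
    exact hgb p.1 p.2
  have hgx : ∀ s, Continuous fun x => g x s := fun s =>
    hgc.comp (show Continuous fun x : ℝ => (x, s) by fun_prop)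
  have htr : Continuous fun x => (H x).trace.re := by fun_prop
  have hint1 : Integrable (fun x => (H x).trace.re / Real.sqrt l) μ :=
    ((htr.div_const _).integrableOn_Icc (a := -L) (b := L)).mono_set Ioc_subset_Icc_self
  have hint2 : Integrable (fun x => ∫ s, g x s) μ := hgs.integral_prod_left
  rw [integral_sub hint1 (hint2.const_mul _), integral_const_mul, integral_div]
  have hftc : ∫ x, (H x).trace.re ∂μ = (G L - G (-L)).trace.re := by
    rw [hμ, ← intervalIntegral.integral_of_le hLL,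
      intervalIntegral.integral_eq_sub_of_hasDerivAt_of_le hLL
        (f := fun x => (G x).trace.re) (by fun_prop) ?_ (htr.intervalIntegrable _ _)]
    · rw [trace_sub, Complex.sub_re]
    · intro x hx
      have hsum : HasDerivAt (fun y => (G y).trace) (H x).trace x := by
        simp only [Matrix.trace, Matrix.diag]
        exact HasDerivAt.fun_sum fun i _ => hGd x hx i i
      exact Complex.reCLM.hasFDerivAt.comp_hasDerivAt x hsum
  rw [hftc]
  congr 1
  rw [integral_integral_swap hgs]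
  have hJ : Integrable (fun s => ∫ x, g x s ∂μ) := hgs.integral_prod_right
  have hsym : ∫ s, (∫ x, g x s ∂μ)
      = 2⁻¹ * ∫ s, ((∫ x, g x s ∂μ) + ∫ x, g x (-s) ∂μ) := by
    rw [integral_add hJ hJ.comp_neg, integral_neg_eq_self (fun s => ∫ x, g x s ∂μ) volume]
    ring
  rw [hsym, pathEnd, mul_inv, ← mul_assoc, mul_comm Real.pi⁻¹]
  congr 1
  refine integral_congr_ae ?_
  filter_upwards [compl_mem_ae_iff.2 (measure_singleton (0 : ℝ))] with s hs
  have hs0 : s ≠ 0 := hs
  have hi : ∀ r, Integrable (fun x => g x r) μ := fun r =>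
    ((hgx r).integrableOn_Icc (a := -L) (b := L)).mono_set Ioc_subset_Icc_self
  rw [← integral_add (hi s) (hi (-s)), hμ, ← intervalIntegral.integral_of_le hLL]
  have hcs : Continuous fun x => g x s + g x (-s) := (hgx s).add (hgx (-s))
  rw [intervalIntegral.integral_eq_sub_of_hasDerivAt_of_le hLL
    (f := fun x => (pathLd P (G x) (-s) l - pathLd P (G x) s l) / (2 * s)) ?_ ?_
    (hcs.intervalIntegrable _ _)]
  · ring
  · have hld : ∀ r, Continuous fun x => pathLd P (G x) r l := fun r => by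
      have hpc : Continuous fun x => General.pencil P (G x) r l := by
        unfold General.pencil; fun_prop
      exact (Complex.continuous_re.comp hpc.matrix_det).log fun x =>
        (Complex.pos_iff.1 (path_pencil_posDef hP (hGh x) hε (hGm x) hl0 r).det_pos).1.ne'
    exact (((hld (-s)).sub (hld s)).div_const _).continuousOn
  · intro x hx
    have hdw : ∀ r, HasDerivAt (fun y => pathLd P (G y) r l)
        (-(2 * r) * ((General.pencil P (G x) r l)⁻¹ * H x).trace.re) x := fun r =>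
      (hasDerivWithinAt_pathLd hP (t := univ) (fun i j => (hGd x hx i j).hasDerivWithinAt)
        (hGh x) hε (hGm x) hl0 r).hasDerivAt univ_mem
    refine (((hdw (-s)).sub (hdw s)).div_const (2 * s)).congr_deriv ?_
    simp only [hgdef]
    field_simp
    ring

/-- The integral of `potPair` along a path depends on the endpoints only. -/
theorem potPair_path_eq {ν L ε : ℝ} (h0 : 0 < ν) (h1 : ν < 1) (hL : 0 < L) (hε : 0 < ε)
    {P : Matrix (Fin N) (Fin N) ℂ} (hP : P.IsHermitian) (F F' : ℝ → Matrix (Fin N) (Fin N) ℂ)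
    (hd : ∀ x ∈ Icc (-L) L, ∀ i j,
      HasDerivWithinAt (fun y => F y i j) (F' x i j) (Icc (-L) L) x)
    (hc : ∀ i j, ContinuousOn (fun x => F' x i j) (Icc (-L) L))
    (hH : ∀ x ∈ Icc (-L) L, (F x).IsHermitian) (hm : ∀ x ∈ Icc (-L) L, Margin P (F x) ε) :
    IntervalIntegrable (fun x => potPair ν P (F x) (F' x)) volume (-L) L ∧
    ∫ x in (-L)..L, potPair ν P (F x) (F' x) =
      ∫ l in Ioi (0 : ℝ), l ^ (ν - 1 / 2) *
        ((F L - F (-L)).trace.re / Real.sqrt l - pathEnd P (F (-L)) (F L) l) := by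
  classical
  have hLL : -L ≤ L := by linarith
  set pr : ℝ → Icc (-L) L := Set.projIcc (-L) L hLL with hpr
  set G : ℝ → Matrix (Fin N) (Fin N) ℂ := fun x => F (pr x) with hG
  set H : ℝ → Matrix (Fin N) (Fin N) ℂ := fun x => F' (pr x) with hHdef
  have hprc : Continuous fun x => ((pr x : Icc (-L) L) : ℝ) :=
    continuous_subtype_val.comp continuous_projIcc
  have hGe : ∀ x ∈ Icc (-L) L, G x = F x := fun x hx => by
    simp [hG, hpr, Set.projIcc_of_mem hLL hx]
  have hHe : ∀ x ∈ Icc (-L) L, H x = F' x := fun x hx => by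
    simp [hHdef, hpr, Set.projIcc_of_mem hLL hx]
  have hGc : Continuous G := continuous_pi fun i => continuous_pi fun j =>
    ContinuousOn.comp_continuous (fun y hy => (hd y hy i j).continuousWithinAt) hprc
      fun x => (pr x).2
  have hHc : Continuous H := continuous_pi fun i => continuous_pi fun j =>
    (hc i j).comp_continuous hprc fun x => (pr x).2
  have hGh : ∀ x, (G x).IsHermitian := fun x => hH _ (pr x).2
  have hGm : ∀ x, Margin P (G x) ε := fun x => hm _ (pr x).2
  have hGd : ∀ x ∈ Ioo (-L) L, ∀ i j, HasDerivAt (fun y => G y i j) (H x i j) x := by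
    intro x hx i j
    rw [hHe x (Ioo_subset_Icc_self hx)]
    have hnhds : Icc (-L) L ∈ 𝓝 x := Icc_mem_nhds hx.1 hx.2
    exact ((hd x (Ioo_subset_Icc_self hx) i j).hasDerivAt hnhds).congr_of_eventuallyEq
      (eventually_of_mem hnhds fun y hy => by simp only; rw [hGe y hy])
  -- uniform bounds
  obtain ⟨CG, hCG⟩ := isCompact_Icc.exists_bound_of_continuousOn
    (s := Icc (-L) L) (f := fun x => ∑ i, ∑ j, ‖G x i j‖) (by fun_prop)
  obtain ⟨CH, hCH⟩ := isCompact_Icc.exists_bound_of_continuousOn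
    (s := Icc (-L) L) (f := fun x => ∑ i, ∑ j, ‖H x i j‖) (by fun_prop)
  set B : ℝ := (∑ i, ∑ j, ‖P i j‖) + |CG| with hB
  have hGB : ∀ x i j, ‖G x i j‖ ≤ B := fun x i j => by
    have h := hCG _ (pr x).2
    rw [Real.norm_eq_abs, abs_of_nonneg (by positivity)] at h
    have hGx : G (pr x : ℝ) = G x := by rw [hGe _ (pr x).2]
    rw [hGx] at h
    have h' : ‖G x i j‖ ≤ ∑ i, ∑ j, ‖G x i j‖ :=
      (Finset.single_le_sum (f := fun j => ‖G x i j‖) (fun j _ => norm_nonneg _)
        (Finset.mem_univ j)).trans (Finset.single_le_sum (f := fun i => ∑ j, ‖G x i j‖)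
          (fun i _ => by positivity) (Finset.mem_univ i))
    have : 0 ≤ ∑ i, ∑ j, ‖P i j‖ := by positivity
    linarith [le_abs_self CG]
  have hPB : ∀ i j, ‖P i j‖ ≤ B := fun i j => by
    have h' : ‖P i j‖ ≤ ∑ i, ∑ j, ‖P i j‖ :=
      (Finset.single_le_sum (f := fun j => ‖P i j‖) (fun j _ => norm_nonneg _)
        (Finset.mem_univ j)).trans (Finset.single_le_sum (f := fun i => ∑ j, ‖P i j‖)
          (fun i _ => by positivity) (Finset.mem_univ i))
    linarith [abs_nonneg CG]
  have hHB : ∀ x, ∑ i, ∑ j, ‖H x i j‖ ≤ |CH| := fun x => by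
    have h := hCH _ (pr x).2
    rw [Real.norm_eq_abs, abs_of_nonneg (by positivity)] at h
    have hHx : H (pr x : ℝ) = H x := by rw [hHe _ (pr x).2]
    rw [hHx] at h
    linarith [le_abs_self CH]
  obtain ⟨κ, hκ, hco⟩ := margin_coercive (N := N) hε B
  have hcox : ∀ x l, 0 ≤ l → ∀ (s : ℝ) v,
      κ * (1 + (s ^ 2 + l)) * General.nsq v ≤ General.qf (General.pencil P (G x) s l) v :=
    fun x => hco P (G x) hPB (hGB x) (hGm x)
  -- the integrand in `s`
  obtain ⟨g, hg⟩ : ∃ g : ℝ → ℝ → ℝ → ℝ, ∀ x l s,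
      g x l s = ((General.pencil P (G x) s (max l 0))⁻¹ * H x).trace.re :=
    ⟨_, fun _ _ _ => rfl⟩
  have hgc : Continuous fun p : (ℝ × ℝ) × ℝ => g p.1.1 p.1.2 p.2 := by
    have hpc : Continuous fun p : (ℝ × ℝ) × ℝ =>
        General.pencil P (G p.1.1) p.2 (max p.1.2 0) := by
      unfold General.pencil
      fun_prop
    have hinv : Continuous fun p : (ℝ × ℝ) × ℝ =>
        (General.pencil P (G p.1.1) p.2 (max p.1.2 0))⁻¹ := by
      simp only [Matrix.inv_def, Ring.inverse_eq_inv']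
      exact (hpc.matrix_det.inv₀ fun p => (lb_pencil_isUnit hκ (le_max_right _ _)
        (hcox p.1.1 _ (le_max_right _ _)) p.2).ne_zero).smul hpc.matrix_adjugate
    simp only [hg]
    fun_prop
  have hgb : ∀ x l s, |g x l s| ≤ |CH| / κ * (1 + s ^ 2)⁻¹ := fun x l s => by
    simp only [hg, Matrix.trace, Matrix.diag, Matrix.mul_apply]
    refine (Complex.abs_re_le_norm _).trans ((norm_sum_le _ _).trans ?_)
    have hl : 0 ≤ max l 0 := le_max_right _ _
    set Y := (General.pencil P (G x) s (max l 0))⁻¹ with hY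
    have hyb : ∀ i j, ‖Y i j‖ ≤ 1 / κ * (1 + s ^ 2)⁻¹ := fun i j => by
      refine (lb_norm_inv_entry_le (by positivity) (hcox x _ hl s) i j).trans ?_
      rw [← one_div, div_mul_div_comm, one_mul]
      exact one_div_le_one_div_of_le (by positivity) (by nlinarith)
    calc ∑ i, ‖∑ j, Y i j * H x j i‖ ≤ ∑ i, ∑ j, 1 / κ * (1 + s ^ 2)⁻¹ * ‖H x j i‖ := by
          refine Finset.sum_le_sum fun i _ => (norm_sum_le _ _).trans
            (Finset.sum_le_sum fun j _ => ?_)
          rw [norm_mul]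
          exact mul_le_mul_of_nonneg_right (hyb i j) (norm_nonneg _)
      _ = 1 / κ * (1 + s ^ 2)⁻¹ * ∑ i, ∑ j, ‖H x i j‖ := by
          rw [Finset.sum_comm]; simp only [Finset.mul_sum]
      _ ≤ 1 / κ * (1 + s ^ 2)⁻¹ * |CH| := mul_le_mul_of_nonneg_left (hHB x) (by positivity)
      _ = |CH| / κ * (1 + s ^ 2)⁻¹ := by ring
  set μ : Measure ℝ := volume.restrict (Ioc (-L) L) with hμ
  have hμf : IsFiniteMeasure μ := ⟨by simp [hμ, Real.volume_Ioc]⟩
  -- the layer value at fixed `l`
  set k : ℝ → ℝ → ℝ := fun x l =>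
    (H x).trace.re / Real.sqrt l - Real.pi⁻¹ * ∫ s, g x l s with hk
  have hkl : ∀ x l, 0 < l → layerPair P (G x) (H x) l = k x l := fun x l hl => by
    simp only [hk, hg, layerPair, max_eq_left hl.le]
    rw [trace_layerZ_mul hκ hl.le (hcox x l hl.le)]
  have hfix : ∀ l, 0 < l → ∫ x, k x l ∂μ =
      (F L - F (-L)).trace.re / Real.sqrt l - pathEnd P (F (-L)) (F L) l := by
    intro l hl
    rw [← hGe L (right_mem_Icc.2 hLL), ← hGe (-L) (left_mem_Icc.2 hLL)]
    simp only [hk, hμ]
    exact layer_path_fixed hLL hε hP hGc hHc hGh hGm hGd (g := fun x s => g x l s)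
      (hgc.comp (show Continuous fun p : ℝ × ℝ => ((p.1, l), p.2) by fun_prop))
      (cb := |CH| / κ) (fun x s => hgb x l s) hl.le
      (fun x s => by simp only [hg, max_eq_left hl.le])
  -- Fubini in `(x, l)`
  obtain ⟨C, hC⟩ := layerPair_bound (N := N) (B := B) hε
  set w : ℝ → ℝ := fun t => t ^ (ν - 1 / 2) * min (1 / Real.sqrt t) (1 / (t * Real.sqrt t)) with hw
  set q : ℝ × ℝ → ℝ := fun p => p.2 ^ (ν - 1 / 2) * k p.1 p.2 with hq
  have hqm : AEStronglyMeasurable q (μ.prod (volume.restrict (Ioi 0))) := by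
    have h3 : StronglyMeasurable fun p : ℝ × ℝ => ∫ s, g p.1 p.2 s :=
      hgc.stronglyMeasurable.integral_prod_right'
    have h4 : Measurable fun p : ℝ × ℝ => (H p.1).trace.re / Real.sqrt p.2 := by
      have : Measurable fun x => (H x).trace.re :=
        (show Continuous fun x => (H x).trace.re by fun_prop).measurable
      exact (this.comp measurable_fst).div (by fun_prop)
    exact ((Measurable.pow_const measurable_snd _).mul
      (h4.sub (h3.measurable.const_mul _))).aestronglyMeasurable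
  have hqi : Integrable (Function.uncurry fun x l => q (x, l)) (μ.prod (volume.restrict (Ioi 0))) := by
    refine ((integrable_const (|C| * |CH|)).mul_prod (min_layer_integrableOn h0 h1)).mono' hqm ?_
    have hmem : ∀ᵐ p : ℝ × ℝ ∂(μ.prod (volume.restrict (Ioi 0))), p.2 ∈ Ioi (0 : ℝ) :=
      Measure.quasiMeasurePreserving_snd.ae (self_mem_ae_restrict measurableSet_Ioi)
    filter_upwards [hmem] with p hp
    have hp0 : 0 < p.2 := hp
    show ‖q (p.1, p.2)‖ ≤ |C| * |CH| * w p.2
    simp only [hq, hw]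
    rw [← hkl p.1 p.2 hp0, Real.norm_eq_abs, abs_mul, abs_of_nonneg (Real.rpow_nonneg hp0.le _)]
    have hb := hC P (G p.1) (H p.1) hP (hGh p.1) hPB (hGB p.1) (hGm p.1) p.2 hp0
    have hmn : 0 ≤ min (1 / Real.sqrt p.2) (1 / (p.2 * Real.sqrt p.2)) := by positivity
    calc p.2 ^ (ν - 1 / 2) * |layerPair P (G p.1) (H p.1) p.2|
        ≤ p.2 ^ (ν - 1 / 2) * (|C| * |CH| * min (1 / Real.sqrt p.2) (1 / (p.2 * Real.sqrt p.2))) := by
          refine mul_le_mul_of_nonneg_left (hb.trans ?_) (Real.rpow_nonneg hp0.le _)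
          refine mul_le_mul_of_nonneg_right ?_ hmn
          exact (mul_le_mul_of_nonneg_right (le_abs_self C) (by positivity)).trans
            (mul_le_mul_of_nonneg_left (hHB p.1) (abs_nonneg C))
      _ = |C| * |CH| * (p.2 ^ (ν - 1 / 2) * min (1 / Real.sqrt p.2) (1 / (p.2 * Real.sqrt p.2))) := by
          ring
  have hpp : ∀ x, ∫ l in Ioi (0 : ℝ), q (x, l) = potPair ν P (G x) (H x) := fun x => by
    refine setIntegral_congr_fun measurableSet_Ioi fun l hl => ?_
    simp only [hq]
    rw [hkl x l hl]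
  have hii : Integrable (fun x => potPair ν P (G x) (H x)) μ :=
    hqi.integral_prod_left.congr (Eventually.of_forall hpp)
  have heq : ∀ x ∈ Ioc (-L) L, potPair ν P (G x) (H x) = potPair ν P (F x) (F' x) := fun x hx => by
    rw [hGe x (Ioc_subset_Icc_self hx), hHe x (Ioc_subset_Icc_self hx)]
  have hae : (fun x => potPair ν P (G x) (H x)) =ᵐ[μ] fun x => potPair ν P (F x) (F' x) := by
    filter_upwards [self_mem_ae_restrict measurableSet_Ioc] with x hx using heq x hx
  refine ⟨(intervalIntegrable_iff_integrableOn_Ioc_of_le hLL).2 (hii.congr hae), ?_⟩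
  rw [intervalIntegral.integral_of_le hLL, ← hμ, ← integral_congr_ae hae]
  calc ∫ x, potPair ν P (G x) (H x) ∂μ = ∫ x, (∫ l in Ioi (0 : ℝ), q (x, l)) ∂μ :=
        integral_congr_ae (Eventually.of_forall fun x => (hpp x).symm)
    _ = ∫ l in Ioi (0 : ℝ), (∫ x, q (x, l) ∂μ) := integral_integral_swap hqi
    _ = _ := by
        refine setIntegral_congr_fun measurableSet_Ioi fun l hl => ?_
        simp only [hq]
        rw [integral_const_mul, hfix l hl]

theorem path_value {ν L ε : ℝ} (h0 : 0 < ν) (h1 : ν < 1) (hL : 0 < L) (hε : 0 < ε)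
    {A : Matrix (Fin N) (Fin N) ℂ} (hA : A.PosDef) (F F' : ℝ → Matrix (Fin N) (Fin N) ℂ)
    (hd : ∀ x ∈ Icc (-L) L, ∀ i j,
      HasDerivWithinAt (fun y => F y i j) (F' x i j) (Icc (-L) L) x)
    (hc : ∀ i j, ContinuousOn (fun x => F' x i j) (Icc (-L) L))
    (hH : ∀ x ∈ Icc (-L) L, (F x).IsHermitian) (hstart : F (-L) = A) (hend : F L = -A)
    (hm : ∀ x ∈ Icc (-L) L, Margin (A * A + (ε : ℂ) • 1) (F x) ε) :
    IntervalIntegrable (fun x => potPair ν (A * A + (ε : ℂ) • 1) (F x) (F' x)) volume (-L) L ∧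
    ∫ x in (-L)..L, potPair ν (A * A + (ε : ℂ) • 1) (F x) (F' x) =
      -2 * General.lcoef ν * ∑ i, ∫ u in (0 : ℝ)..hA.1.eigenvalues i,
        (hA.1.eigenvalues i ^ 2 + ε - u ^ 2) ^ ν := by
  classical
  set P : Matrix (Fin N) (Fin N) ℂ := A * A + (ε : ℂ) • 1 with hPdef
  have hP : P.IsHermitian := by
    simp only [hPdef, Matrix.IsHermitian, conjTranspose_add, conjTranspose_mul, conjTranspose_smul,
      conjTranspose_one, hA.1.eq, RCLike.star_def, Complex.conj_ofReal]
  obtain ⟨hi, he⟩ := potPair_path_eq h0 h1 hL hε hP F F' hd hc hH hm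
  refine ⟨hi, ?_⟩
  set F₀ : ℝ → Matrix (Fin N) (Fin N) ℂ := fun x => ((-(x / L) : ℝ) : ℂ) • A with hF₀
  set H₀ : Matrix (Fin N) (Fin N) ℂ := ((-(1 / L) : ℝ) : ℂ) • A with hH₀
  set a : Fin N → ℝ := hA.1.eigenvalues with hadef
  set V : Matrix (Fin N) (Fin N) ℂ := (hA.1.eigenvectorUnitary : Matrix (Fin N) (Fin N) ℂ)
    with hVdef
  have hV1 : Vᴴ * V = 1 := Unitary.coe_star_mul_self hA.1.eigenvectorUnitary
  have hV2 : V * Vᴴ = 1 := Unitary.coe_mul_star_self hA.1.eigenvectorUnitary
  have hAd : A = V * diagonal (fun i => (a i : ℂ)) * Vᴴ := by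
    simpa [hVdef, hadef, Unitary.conjStarAlgAut_apply, Function.comp_def,
      Matrix.star_eq_conjTranspose] using hA.1.spectral_theorem
  have hconj : ∀ B C : Matrix (Fin N) (Fin N) ℂ, (V * B * Vᴴ) * (V * C * Vᴴ) = V * (B * C) * Vᴴ :=
    fun B C => by
      simp only [Matrix.mul_assoc]
      rw [← Matrix.mul_assoc Vᴴ V, hV1, Matrix.one_mul]
  have hpen : ∀ c s l : ℝ, General.pencil P ((c : ℂ) • A) s l =
      V * diagonal (fun i => (((s - c * a i) ^ 2 + ((a i ^ 2 * (1 - c ^ 2) + ε) + l) : ℝ) : ℂ))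
        * Vᴴ := by
    intro c s l
    have hdg : diagonal (fun i => (((s - c * a i) ^ 2 + ((a i ^ 2 * (1 - c ^ 2) + ε) + l) : ℝ) : ℂ))
        = diagonal (fun i => (a i : ℂ)) * diagonal (fun i => (a i : ℂ))
          - (((2 * s * c : ℝ)) : ℂ) • diagonal (fun i => (a i : ℂ))
          + (((ε + (s ^ 2 + l) : ℝ)) : ℂ) • 1 := by
      ext i j
      rcases eq_or_ne i j with rfl | hij
      · simp
        ring
      · simp [hij]
    rw [hdg, Matrix.mul_add, Matrix.add_mul, Matrix.mul_sub, Matrix.sub_mul, ← hconj,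
      Matrix.mul_smul, Matrix.smul_mul, Matrix.mul_smul, Matrix.smul_mul, Matrix.mul_one, hV2,
      ← hAd, General.pencil, hPdef, smul_smul]
    push_cast
    simp only [add_smul]
    abel
  have hm0 : ∀ x ∈ Icc (-L) L, Margin P (F₀ x) ε := by
    intro x hx s v
    have hc2 : (-(x / L)) ^ 2 ≤ 1 := by
      rw [neg_sq, div_pow, div_le_one (by positivity)]
      nlinarith [hx.1, hx.2]
    simp only [hF₀]
    rw [hpen]
    set u := Vᴴ *ᵥ v with hu
    have hn : General.nsq u = General.nsq v := by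
      rw [← General.qf_one, ← General.qf_one]
      simp only [General.qf, one_mulVec, hu, star_mulVec, conjTranspose_conjTranspose,
        ← dotProduct_mulVec, mulVec_mulVec, Matrix.one_mul, hV2, one_mulVec]
    have hq : ∀ D : Matrix (Fin N) (Fin N) ℂ, General.qf (V * D * Vᴴ) v = General.qf D u := by
      intro D
      simp only [General.qf, hu, star_mulVec, conjTranspose_conjTranspose, ← dotProduct_mulVec,
        mulVec_mulVec, Matrix.mul_assoc]
    rw [hq, General.qf_diagonal, ← hn, General.nsq, Finset.mul_sum]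
    refine Finset.sum_le_sum fun i _ => mul_le_mul_of_nonneg_right ?_ (Complex.normSq_nonneg _)
    nlinarith [sq_nonneg (s - -(x / L) * a i),
      mul_nonneg (sq_nonneg (a i)) (sub_nonneg.2 hc2)]
  have hd0 : ∀ x ∈ Icc (-L) L, ∀ i j,
      HasDerivWithinAt (fun y => F₀ y i j) (H₀ i j) (Icc (-L) L) x := by
    intro x _ i j
    simp only [hF₀, hH₀, Matrix.smul_apply, smul_eq_mul]
    have h : HasDerivWithinAt (fun y : ℝ => -(y / L)) (-(1 / L)) (Icc (-L) L) x :=
      ((hasDerivWithinAt_id x _).div_const L).neg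
    exact h.ofReal_comp.mul_const (A i j)
  have hh0 : ∀ x ∈ Icc (-L) L, (F₀ x).IsHermitian := fun x _ => by
    simp only [hF₀, Matrix.IsHermitian, conjTranspose_smul, hA.1.eq, RCLike.star_def,
      Complex.conj_ofReal]
  obtain ⟨-, he0⟩ := potPair_path_eq h0 h1 hL hε hP F₀ (fun _ => H₀) hd0
    (fun i j => continuousOn_const) hh0 hm0
  have hends : F₀ (-L) = F (-L) ∧ F₀ L = F L := by
    constructor
    · simp [hF₀, hstart, neg_div, div_self (Complex.ofReal_ne_zero.2 hL.ne')]
    · simp [hF₀, hend, div_self (Complex.ofReal_ne_zero.2 hL.ne')]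
  rw [hends.1, hends.2] at he0
  rw [he, ← he0]
  -- evaluation on the straight path
  have hval : ∀ x ∈ uIcc (-L) L, potPair ν P (F₀ x) H₀ =
      ∑ i, -(1 / L) * General.lcoef ν * a i * (a i ^ 2 + ε - (a i / L * x) ^ 2) ^ ν := by
    intro x hx
    rw [uIcc_of_le (by linarith : -L ≤ L)] at hx
    set c := -(x / L) with hcdef
    have hX : ∀ i, 0 < a i ^ 2 * (1 - c ^ 2) + ε := fun i => by
      have hc2 : c ^ 2 ≤ 1 := by
        rw [hcdef, neg_sq, div_pow, div_le_one (by positivity)]
        nlinarith [hx.1, hx.2]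
      nlinarith [mul_nonneg (sq_nonneg (a i)) (sub_nonneg.2 hc2)]
    obtain ⟨κ, hκ, hco⟩ := margin_coercive (N := N) hε
      ((∑ i, ∑ j, ‖P i j‖) + ∑ i, ∑ j, ‖F₀ x i j‖)
    have hle : ∀ (M : Matrix (Fin N) (Fin N) ℂ) i j, ‖M i j‖ ≤ ∑ i, ∑ j, ‖M i j‖ := fun M i j =>
      (Finset.single_le_sum (f := fun j => ‖M i j‖) (fun j _ => norm_nonneg _)
        (Finset.mem_univ j)).trans (Finset.single_le_sum (f := fun i => ∑ j, ‖M i j‖)
          (fun i _ => by positivity) (Finset.mem_univ i))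
    have hco' := hco P (F₀ x)
      (fun i j => (hle P i j).trans (le_add_of_nonneg_right (by positivity)))
      (fun i j => (hle (F₀ x) i j).trans (le_add_of_nonneg_left (by positivity))) (hm0 x hx)
    have htrA : A.trace.re = ∑ i, a i := by
      rw [hA.1.trace_eq_sum_eigenvalues]
      simp [hadef]
    have hlay : ∀ l, 0 < l → layerPair P (F₀ x) H₀ l = ∑ i, -(1 / L) * a i *
        (1 / Real.sqrt l - 1 / Real.sqrt (a i ^ 2 * (1 - c ^ 2) + ε + l)) := by
      intro l hl
      have hy : ∀ i, 0 < Real.sqrt (a i ^ 2 * (1 - c ^ 2) + ε + l) := fun i =>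
        Real.sqrt_pos.2 (by linarith [hX i])
      have hsq : ∀ i, Real.sqrt (a i ^ 2 * (1 - c ^ 2) + ε + l) ^ 2
          = a i ^ 2 * (1 - c ^ 2) + ε + l := fun i => Real.sq_sqrt (by linarith [hX i])
      have hs : ∀ s, ((General.pencil P (F₀ x) s l)⁻¹ * H₀).trace.re
          = ∑ i, -(1 / L) * a i * (1 / ((s - c * a i) ^ 2
            + Real.sqrt (a i ^ 2 * (1 - c ^ 2) + ε + l) ^ 2)) := by
        intro s
        have hne : ∀ i, (s - c * a i) ^ 2 + ((a i ^ 2 * (1 - c ^ 2) + ε) + l) ≠ 0 := fun i => by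
          nlinarith [hX i, sq_nonneg (s - c * a i)]
        have hinv : (General.pencil P (F₀ x) s l)⁻¹ = V * diagonal (fun i =>
            (((1 / ((s - c * a i) ^ 2 + ((a i ^ 2 * (1 - c ^ 2) + ε) + l))) : ℝ) : ℂ)) * Vᴴ := by
          refine inv_eq_right_inv ?_
          simp only [hF₀, ← hcdef]
          rw [hpen, hconj, diagonal_mul_diagonal]
          have h1' : (fun i => (((s - c * a i) ^ 2 + ((a i ^ 2 * (1 - c ^ 2) + ε) + l) : ℝ) : ℂ) *
              (((1 / ((s - c * a i) ^ 2 + ((a i ^ 2 * (1 - c ^ 2) + ε) + l))) : ℝ) : ℂ))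
              = fun _ => (1 : ℂ) := funext fun i => by
            rw [← Complex.ofReal_mul, mul_one_div_cancel (hne i), Complex.ofReal_one]
          rw [h1', diagonal_one, Matrix.mul_one, hV2]
        rw [hinv, hH₀, Matrix.mul_smul, hAd, hconj, trace_smul, smul_eq_mul, Complex.re_ofReal_mul,
          trace_mul_comm, ← Matrix.mul_assoc, hV1, Matrix.one_mul, diagonal_mul_diagonal,
          trace_diagonal, Complex.re_sum, Finset.mul_sum]
        refine Finset.sum_congr rfl fun i _ => ?_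
        rw [← Complex.ofReal_mul, Complex.ofReal_re, hsq]
        ring
      rw [layerPair, trace_layerZ_mul hκ hl.le (hco' l hl.le)]
      simp only [hs]
      rw [integral_finsetSum _ fun i _ => ((General.integrable_lor _ (hy i)).1.const_mul _),
        hH₀, trace_smul, smul_eq_mul, Complex.re_ofReal_mul, htrA, Finset.mul_sum, Finset.mul_sum,
        Finset.sum_div, ← Finset.sum_sub_distrib]
      refine Finset.sum_congr rfl fun i _ => ?_
      rw [integral_const_mul, (General.integrable_lor _ (hy i)).2]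
      field_simp
      ring
    rw [potPair, setIntegral_congr_fun measurableSet_Ioi fun l hl => by rw [hlay l hl]]
    simp only [Finset.mul_sum]
    rw [integral_finsetSum _ fun i _ => ?_]
    · refine Finset.sum_congr rfl fun i _ => ?_
      have e : ∀ l : ℝ, l ^ (ν - 1 / 2) * (-(1 / L) * a i *
          (1 / Real.sqrt l - 1 / Real.sqrt (a i ^ 2 * (1 - c ^ 2) + ε + l)))
          = -(1 / L) * a i * (l ^ (ν - 1 / 2) *
          (1 / Real.sqrt l - 1 / Real.sqrt (a i ^ 2 * (1 - c ^ 2) + ε + l))) := fun l => by ring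
      simp only [e]
      rw [integral_const_mul, General.integral_layer (hX i),
        show a i ^ 2 * (1 - c ^ 2) + ε = a i ^ 2 + ε - (a i / L * x) ^ 2 by rw [hcdef]; ring]
      ring
    · refine ((General.integrableOn_layer h0 h1 (hX i).le).const_mul (-(1 / L) * a i)).congr
        (Eventually.of_forall fun l => ?_)
      ring
  rw [intervalIntegral.integral_congr hval]
  have hcont : ∀ i, Continuous fun x : ℝ =>
      -(1 / L) * General.lcoef ν * a i * (a i ^ 2 + ε - (a i / L * x) ^ 2) ^ ν := fun i =>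
    continuous_const.mul ((show Continuous fun x : ℝ => a i ^ 2 + ε - (a i / L * x) ^ 2 by
      fun_prop).rpow_const fun _ => Or.inr h0.le)
  rw [intervalIntegral.integral_finsetSum fun i _ => (hcont i).intervalIntegrable _ _,
    Finset.mul_sum]
  refine Finset.sum_congr rfl fun i _ => ?_
  have hai : 0 < a i := hA.eigenvalues_pos i
  set h : ℝ → ℝ := fun u => (a i ^ 2 + ε - u ^ 2) ^ ν with hh
  have hhc : Continuous h :=
    (show Continuous fun u : ℝ => a i ^ 2 + ε - u ^ 2 by fun_prop).rpow_const fun _ => Or.inr h0.le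
  rw [intervalIntegral.integral_const_mul]
  change -(1 / L) * General.lcoef ν * a i * ∫ x in (-L)..L, h (a i / L * x) = _
  rw [intervalIntegral.integral_comp_mul_left h (div_ne_zero hai.ne' hL.ne'), smul_eq_mul,
    mul_neg, div_mul_cancel₀ _ hL.ne',
    ← intervalIntegral.integral_add_adjacent_intervals (b := 0)
      (hhc.intervalIntegrable _ _) (hhc.intervalIntegrable _ _)]
  have hev : ∫ u in (-a i)..0, h u = ∫ u in (0 : ℝ)..a i, h u := by
    have h2 := intervalIntegral.integral_comp_neg h (a := (0 : ℝ)) (b := a i)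
    simp only [neg_zero] at h2
    rw [← h2]
    simp [hh]
  rw [hev]
  field_simp
  ring

end Vale.Agent.P371.All
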