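import Vale.Agent.P371.All.Pointwise
import Vale.Agent.P371.All.Constant
import Vale.Agent.P371.All.Path
import Vale.Agent.P371.All.TraceTools
import Vale.Agent.P371.All.Compare
import Vale.Agent.P371.All.Approx

/-!
# P371: the sharp matrix Lieb-Thirring constant for every `1/2 < γ < 3/2`
-/

namespace Vale.Agent.P371.All

open Matrix MeasureTheory Set Filter
open scoped ComplexOrder ComplexConjugate Topology

variable {N m : ℕ}

theorem margin_of_flow {A F : Matrix (Fin N) (Fin N) ℂ} {ε : ℝ}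
    (h : ∀ w, General.qf F w ^ 2 ≤ General.qf (A * A) w * General.nsq w) :
    Margin (A * A + (ε : ℂ) • 1) F ε := by
  intro s w
  rw [General.qf_pencil, General.qf_add, General.qf_smul, General.qf_one]
  have h1 := h w
  set n := General.nsq w with hn'
  set a := General.qf (A * A) w with ha
  set b := General.qf F w with hb'
  rcases (General.nsq_nonneg w).eq_or_lt with h0 | h0
  · have hz : w = 0 := by
      funext i
      exact Complex.normSq_eq_zero.1 ((Finset.sum_eq_zero_iff_of_nonneg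
        fun i _ => Complex.normSq_nonneg _).1 h0.symm i (Finset.mem_univ i))
    simp [ha, hb', hn', hz, General.qf, General.nsq]
  · nlinarith [sq_nonneg (s * n - b)]

/-- The scaled half integral. -/
theorem integral_sq_sub_rpow {ν a : ℝ} (ha : 0 < a) :
    ∫ u in (0 : ℝ)..a, (a ^ 2 - u ^ 2) ^ ν = a ^ (2 * (ν + 1 / 2)) * halfI ν := by
  have h := intervalIntegral.integral_comp_mul_left (a := (0 : ℝ)) (b := 1)
    (fun u => (a ^ 2 - u ^ 2) ^ ν) ha.ne'
  rw [mul_zero, mul_one, smul_eq_mul] at h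
  have e : ∫ u in (0 : ℝ)..1, (a ^ 2 - (a * u) ^ 2) ^ ν
      = a ^ (2 * ν) * halfI ν := by
    rw [halfI, ← intervalIntegral.integral_const_mul]
    refine intervalIntegral.integral_congr fun u hu => ?_
    rw [uIcc_of_le zero_le_one] at hu
    have h1 : 0 ≤ 1 - u ^ 2 := by nlinarith [hu.1, hu.2]
    rw [show a ^ 2 - (a * u) ^ 2 = a ^ 2 * (1 - u ^ 2) by ring,
      Real.mul_rpow (sq_nonneg a) h1, ← Real.rpow_natCast a 2, ← Real.rpow_mul ha.le]
    norm_num
  rw [e] at h
  rw [show 2 * (ν + 1 / 2) = 1 + 2 * ν by ring, Real.rpow_add ha, Real.rpow_one, mul_assoc, h,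
    ← mul_assoc, mul_inv_cancel₀ ha.ne', one_mul]

/-- The dissipation of a flow bounds `tr (A²)^γ`. -/
theorem flow_bound {γ : ℝ} (hγ0 : 1 / 2 < γ) (hγ1 : γ < 3 / 2) {L δ ε : ℝ} (hL : 0 < L)
    (hδ : 0 < δ) (hε : 0 < ε) {A : Matrix (Fin N) (Fin N) ℂ} (hA : A.PosDef)
    {V F : ℝ → Matrix (Fin N) (Fin N) ℂ} {W : ℝ → Matrix (Fin m) (Fin m) ℂ}
    (hflow : IsFlow L A V F) (hVc : ∀ i j, ContinuousOn (fun x => V x i j) (Icc (-L) L))
    (hV : ∀ x ∈ Icc (-L) L, (V x).PosSemidef ∧
      trPowAt (γ + 1 / 2) (V x) ≤ trPowAt (γ + 1 / 2) (W x))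
    (hWi : IntervalIntegrable (fun x => trPowAt (γ + 1 / 2) (W x)) volume (-L) L) :
    trPowAt γ (A * A) ≤ kellerConst γ * ((1 + δ) ^ (γ + 1 / 2) *
        (∫ x in (-L)..L, trPowAt (γ + 1 / 2) (W x))
      + 2 * L * (N * ((1 + 1 / δ) ^ (γ + 1 / 2) * ε ^ (γ + 1 / 2)))) := by
  obtain ⟨ν, rfl⟩ : ∃ ν, γ = ν + 1 / 2 := ⟨γ - 1 / 2, by ring⟩
  have h0 : 0 < ν := by linarith
  have h1 : ν < 1 := by linarith
  rw [show ν + 1 / 2 + 1 / 2 = 1 + ν by ring] at hV hWi ⊢
  obtain ⟨hd, hstart, hend, hH, hdom⟩ := hflow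
  have hFc : ∀ i j, ContinuousOn (fun x => F x i j) (Icc (-L) L) := fun i j x hx =>
    (hd x hx i j).continuousWithinAt
  set P := A * A + (ε : ℂ) • (1 : Matrix (Fin N) (Fin N) ℂ) with hP
  have hPh : P.IsHermitian := by
    refine IsHermitian.add ?_ (by simp [Matrix.IsHermitian, conjTranspose_smul])
    have h := isHermitian_conjTranspose_mul_self A
    rwa [hA.1.eq] at h
  have hm : ∀ x ∈ Icc (-L) L, Margin P (F x) ε := fun x hx => margin_of_flow (hdom x hx)
  have hc : ∀ i j, ContinuousOn (fun x => (A * A - F x * F x - V x) i j) (Icc (-L) L) := fun i j => by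
    simp only [Matrix.sub_apply, Matrix.mul_apply]
    exact (continuousOn_const.sub (continuousOn_finsetSum _ fun k _ => (hFc i k).mul (hFc k j))).sub
      (hVc i j)
  obtain ⟨hint, hval⟩ := path_value h0 h1 hL hε hA F (fun x => A * A - F x * F x - V x) hd hc hH
    hstart hend hm
  set c := General.lcoef ν * dissConst ν with hcdef
  have hl : 0 < General.lcoef ν := lcoef_pos h0 h1
  have hD : 0 < dissConst ν := by unfold dissConst; positivity
  set C := (N : ℝ) * ((1 + 1 / δ) ^ (1 + ν) * ε ^ (1 + ν)) with hC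
  set I := ∫ x in (-L)..L, trPowAt (1 + ν) (W x) with hI
  have hpt : ∀ x ∈ Icc (-L) L, -c * ((1 + δ) ^ (1 + ν) * trPowAt (1 + ν) (W x) + C)
      ≤ potPair ν P (F x) (A * A - F x * F x - V x) := by
    intro x hx
    have hVe : (V x + (ε : ℂ) • 1).PosSemidef :=
      (hV x hx).1.add (PosSemidef.one.smul (Complex.zero_le_real.2 hε.le))
    have h := pointwise_bound h0 h1 hPh (hH x hx) hε (hm x hx) hVe
    rw [show P - F x * F x - (V x + (ε : ℂ) • 1) = A * A - F x * F x - V x by
      rw [hP]; abel] at h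
    refine le_trans ?_ h
    have h2 := trPowAt_shift (r := 1 + ν) (by linarith) hδ hε (hV x hx).1
    have h3 := mul_le_mul_of_nonneg_left (hV x hx).2
      (show 0 ≤ (1 + δ) ^ (1 + ν) by positivity)
    have h4 : 0 ≤ c := by positivity
    have h5 := mul_le_mul_of_nonneg_left (show trPowAt (1 + ν) (V x + (ε : ℂ) • 1)
      ≤ (1 + δ) ^ (1 + ν) * trPowAt (1 + ν) (W x) + C by linarith) h4
    linarith
  have hint' : IntervalIntegrable
      (fun x => -c * ((1 + δ) ^ (1 + ν) * trPowAt (1 + ν) (W x) + C)) volume (-L) L :=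
    ((hWi.const_mul _).add intervalIntegrable_const).const_mul _
  have hmono := intervalIntegral.integral_mono_on (by linarith) hint' hint hpt
  rw [hval, intervalIntegral.integral_const_mul, intervalIntegral.integral_add
    (hWi.const_mul _) intervalIntegrable_const, intervalIntegral.integral_const_mul,
    intervalIntegral.integral_const, smul_eq_mul, ← hI] at hmono
  have hsum : trPowAt (ν + 1 / 2) (A * A) * halfI ν ≤ ∑ i, ∫ u in (0 : ℝ)..hA.1.eigenvalues i,
      (hA.1.eigenvalues i ^ 2 + ε - u ^ 2) ^ ν := by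
    rw [trPowAt_sq hA, Finset.sum_mul]
    refine Finset.sum_le_sum fun i _ => ?_
    have ha := hA.eigenvalues_pos i
    rw [← integral_sq_sub_rpow ha]
    refine intervalIntegral.integral_mono_on ha.le ?_ ?_ fun u hu => ?_
    · exact ((continuous_const.sub (continuous_pow 2)).rpow_const
        fun u => Or.inr h0.le).intervalIntegrable _ _
    · exact ((continuous_const.sub (continuous_pow 2)).rpow_const
        fun u => Or.inr h0.le).intervalIntegrable _ _
    · exact Real.rpow_le_rpow (by nlinarith [hu.1, hu.2]) (by linarith) h0.le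
  have hh := halfI_pos h0
  rw [← dissConst_div_halfI h0]
  rw [div_mul_eq_mul_div, le_div_iff₀ (by positivity)]
  have hfin : General.lcoef ν * (trPowAt (ν + 1 / 2) (A * A) * (2 * halfI ν))
      ≤ General.lcoef ν * (dissConst ν * ((1 + δ) ^ (1 + ν) * I + 2 * L * C)) := by
    have := mul_le_mul_of_nonneg_left hsum hl.le
    rw [hcdef] at hmono
    linarith
  exact le_of_mul_le_mul_left hfin hl

theorem continuous_bound {γ : ℝ} (hγ0 : 1 / 2 < γ) (hγ1 : γ < 3 / 2) {L η : ℝ} (hL : 0 < L)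
    (hη : 0 < η) {W : ℝ → Matrix (Fin m) (Fin m) ℂ}
    (hWc : ∀ a b, ContinuousOn (fun x => W x a b) (Icc (-L) L))
    (hWη : ∀ x ∈ Icc (-L) L, (W x - (η : ℂ) • 1).PosSemidef)
    {f f' : Fin N → ℝ → Fin m → ℂ} (hf : ∀ i, IsH1V (f i) (f' i))
    (horth : ∀ i j, ∫ x, ∑ a, conj (f i x a) * f j x a = if i = j then 1 else 0)
    (hpos : (formMat (cutW L W) f f').PosDef) :
    trPowAt γ (formMat (cutW L W) f f') ≤
      kellerConst γ * ∫ x in (-L)..L, trPowAt (γ + 1 / 2) (W x) := by
  have hW0 : ∀ x ∈ Icc (-L) L, (W x).PosSemidef := fun x hx => by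
    simpa using (hWη x hx).add (PosSemidef.one.smul (Complex.zero_le_real.2 hη.le))
  have hWi : IntervalIntegrable (fun x => trPowAt (γ + 1 / 2) (W x)) volume (-L) L :=
    (continuousOn_trPowAt (by linarith) hWc hW0).intervalIntegrable_of_Icc (by linarith)
  set p := γ + 1 / 2 with hp
  set I := ∫ x in (-L)..L, trPowAt p (W x) with hI
  refine le_of_forall_pos_le_add fun e he => ?_
  obtain ⟨A, V, F, hA, hflow, hVc, hV, hle⟩ :=
    exists_compare hγ0 hγ1 hL hη hWc hWη hf horth hpos he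
  refine hle.trans (add_le_add ?_ le_rfl)
  have hδ : ∀ δ : ℝ, 0 < δ → trPowAt γ (A * A) ≤ kellerConst γ * ((1 + δ) ^ p * I) := by
    intro δ hδ
    have hlim : Tendsto (fun ε : ℝ => kellerConst γ * ((1 + δ) ^ p * I
        + 2 * L * (N * ((1 + 1 / δ) ^ p * ε ^ p)))) (𝓝[>] 0)
        (𝓝 (kellerConst γ * ((1 + δ) ^ p * I + 2 * L * (N * ((1 + 1 / δ) ^ p * 0))))) := by
      have h : Tendsto (fun ε : ℝ => ε ^ p) (𝓝[>] 0) (𝓝 0) := by
        have := (Real.continuousAt_rpow_const 0 p (Or.inr (by linarith))).tendsto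
        rw [Real.zero_rpow (by linarith)] at this
        exact this.mono_left nhdsWithin_le_nhds
      exact ((((h.const_mul _).const_mul _).const_mul _).const_add _).const_mul _
    simp only [mul_zero, add_zero] at hlim
    exact ge_of_tendsto hlim (eventually_nhdsWithin_of_forall fun ε hε =>
      flow_bound hγ0 hγ1 hL hδ hε hA hflow hVc hV hWi)
  have hlim : Tendsto (fun δ : ℝ => kellerConst γ * ((1 + δ) ^ p * I)) (𝓝[>] 0)
      (𝓝 (kellerConst γ * I)) := by
    have h := (((Real.continuousAt_rpow_const (1 + 0) p (Or.inl (by norm_num))).comp'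
      (by fun_prop : ContinuousAt (fun δ : ℝ => 1 + δ) 0)).tendsto.mul_const I).const_mul
        (kellerConst γ)
    simp only [add_zero, Real.one_rpow, one_mul] at h
    exact h.mono_left nhdsWithin_le_nhds
  exact ge_of_tendsto hlim (eventually_nhdsWithin_of_forall hδ)

theorem kellerConst_nonneg {γ : ℝ} (hγ0 : 1 / 2 < γ) : 0 ≤ kellerConst γ := by
  have h1 := dissConst_div_halfI (ν := γ - 1 / 2) (by linarith)
  rw [sub_add_cancel] at h1
  rw [← h1]
  have := halfI_pos (ν := γ - 1 / 2) (by linarith)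
  have : 0 < γ - 1 / 2 := by linarith
  unfold dissConst
  positivity

/-- The variational form of the inequality: every finite orthonormal family in `H¹`. -/
theorem form_bound {γ : ℝ} (hγ0 : 1 / 2 < γ) (hγ1 : γ < 3 / 2)
    {W : ℝ → Matrix (Fin m) (Fin m) ℂ} (hW : IsMPotentialAt γ W)
    {f f' : Fin N → ℝ → Fin m → ℂ} (hf : ∀ i, IsH1V (f i) (f' i))
    (horth : ∀ i j, ∫ x, ∑ a, conj (f i x a) * f j x a = if i = j then 1 else 0)
    (hpos : (formMat W f f').PosDef) :
    trPowAt γ (formMat W f f') ≤ kellerConst γ * ∫ x, trPowAt (γ + 1 / 2) (W x) :=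
  bound_general hγ0 hγ1 (kellerConst_nonneg hγ0)
    (fun _ _ _ hL hη _ hWc hWη _ _ hf horth hp =>
      continuous_bound hγ0 hγ1 hL hη hWc hWη hf horth hp) hW hf horth hpos

/-- The entries of the form matrix are honest integrals. -/
theorem form_integrable {γ : ℝ} (hγ0 : 1 / 2 < γ) {W : ℝ → Matrix (Fin m) (Fin m) ℂ}
    (hW : IsMPotentialAt γ W) {f f' : Fin N → ℝ → Fin m → ℂ} (hf : ∀ i, IsH1V (f i) (f' i))
    (i j : Fin N) : Integrable (fun x => ∑ a, conj (f i x a) * (W x *ᵥ f j x) a) volume := by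
  obtain ⟨hWm, hW0, hWi⟩ := hW
  obtain ⟨-, B, -, hB⟩ := Approx.fam_bounds hf
  refine (Approx.form_bound (p := γ + 1 / 2) (by linarith) hWm ?_ hf hB i j).1
  refine (hWi.const_mul (((m : ℝ) ^ 2) ^ (γ + 1 / 2) * (m : ℝ) ^ (γ + 1 / 2 - 1))).mono'
    ((Approx.measurable_ent hWm).pow_const _).aestronglyMeasurable
    (Eventually.of_forall fun x => ?_)
  rw [Real.norm_of_nonneg (Real.rpow_nonneg (Approx.ent_nonneg _) _)]
  exact Approx.ent_rpow_le_trPow (by linarith) (hW0 x)

theorem sharp_constant {γ : ℝ} (hγ0 : 1 / 2 < γ) (hγ1 : γ < 3 / 2) (hm : 1 ≤ m) :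
    IsGreatest (mLtRatiosAt γ m) (kellerConst γ) := by
  refine ⟨keller_mem hγ0 hm, ?_⟩
  rintro r ⟨W, hW, hI, n, lam, f, hlam, horth, rfl⟩
  choose f' hf hweak using fun i => (hlam i).2
  have hΛ : formMat W f f' = diagonal fun i => ((|lam i| : ℝ) : ℂ) := by
    ext i j
    have h := hweak j (f i) (f' i) (hf i)
    rw [horth i j] at h
    simp only [formMat, Matrix.of_apply, diagonal_apply]
    rcases eq_or_ne i j with rfl | hij
    · simp only [if_true, mul_one] at h ⊢
      rw [abs_of_neg (hlam i).1]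
      push_cast
      linear_combination -h
    · simp only [if_neg hij, mul_zero] at h ⊢
      linear_combination -h
  have hpos : (formMat W f f').PosDef := by
    rw [hΛ]
    exact PosDef.diagonal fun i => Complex.zero_lt_real.2 (abs_pos.2 (hlam i).1.ne)
  have hb := form_bound hγ0 hγ1 hW hf horth hpos
  rw [hΛ, trPowAt_diagonal] at hb
  rw [div_le_iff₀ hI]
  exact hb

end Vale.Agent.P371.All
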