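import Vale.Agent.P371.All.MatchingTools
import Vale.Agent.P371.All.Brouwer

/-!
# P371: a flow running from `A` to `-A` (Brouwer)
-/

namespace Vale.Agent.P371.All

open Matrix Set Filter MeasureTheory
open scoped ComplexOrder ComplexConjugate Topology Matrix.Norms.Frobenius

variable {N : ℕ}

/-- The Hermitian part, truncated to `[-R, R]`. -/
noncomputable def clipMat (R : ℝ) (X : Matrix (Fin N) (Fin N) ℂ) : Matrix (Fin N) (Fin N) ℂ :=
  mfun (clipTo (-R) R) ((1 / 2 : ℂ) • (X + Xᴴ))

theorem symPart_isHermitian (X : Matrix (Fin N) (Fin N) ℂ) :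
    ((1 / 2 : ℂ) • (X + Xᴴ)).IsHermitian := by
  simp [Matrix.IsHermitian, conjTranspose_smul, conjTranspose_add, add_comm]

theorem abs_clipTo_le {R : ℝ} (hR : 0 ≤ R) (t : ℝ) : |clipTo (-R) R t| ≤ R :=
  abs_le.2 ⟨le_max_left _ _, max_le (by linarith) (min_le_left _ _)⟩

theorem norm_clipMat_le {R : ℝ} (hR : 0 ≤ R) (X : Matrix (Fin N) (Fin N) ℂ) :
    ‖clipMat R X‖ ≤ N * (N * R) := by
  rw [clipMat, mfun_of_hermitian _ (symPart_isHermitian X)]
  refine (frob_le_of_conj (Subtype.prop _) (c := R) fun i => abs_clipTo_le hR _).trans_eq ?_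
  rw [abs_of_nonneg hR]

theorem clipMat_lipschitz (R : ℝ) (X Y : Matrix (Fin N) (Fin N) ℂ) :
    ‖clipMat R X - clipMat R Y‖ ≤ ‖X - Y‖ := by
  refine (frob_mfun_sub (clipTo_lipschitz _ _) (symPart_isHermitian X)
    (symPart_isHermitian Y)).trans ?_
  rw [← smul_sub, norm_smul, show X + Xᴴ - (Y + Yᴴ) = (X - Y) + (X - Y)ᴴ by
    rw [conjTranspose_sub]; abel]
  have h := norm_add_le (X - Y) (X - Y)ᴴ
  rw [frobenius_norm_conjTranspose] at h
  rw [show ‖(1 / 2 : ℂ)‖ = 1 / 2 by simp]
  linarith

theorem qf_conj_diag (U : Matrix (Fin N) (Fin N) ℂ) (d : Fin N → ℝ) (v : Fin N → ℂ) :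
    General.qf (U * diagonal (fun i => (d i : ℂ)) * Uᴴ) v =
      ∑ i, d i * Complex.normSq ((Uᴴ *ᵥ v) i) := by
  rw [← General.qf_diagonal]
  simp only [General.qf, star_mulVec, conjTranspose_conjTranspose, ← mulVec_mulVec,
    dotProduct_mulVec (star v) U]

theorem qf_mfun_bounds {φ : ℝ → ℝ} {A : Matrix (Fin N) (Fin N) ℂ} (hA : A.IsHermitian) {a b : ℝ}
    (h : ∀ i, φ (hA.eigenvalues i) ∈ Icc a b) (v : Fin N → ℂ) :
    a * General.nsq v ≤ General.qf (mfun φ A) v ∧ General.qf (mfun φ A) v ≤ b * General.nsq v := by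
  rw [mfun_of_hermitian φ hA, qf_conj_diag]
  set U : Matrix (Fin N) (Fin N) ℂ := (hA.eigenvectorUnitary : Matrix (Fin N) (Fin N) ℂ) with hU
  have hn : General.nsq (Uᴴ *ᵥ v) = General.nsq v := by
    rw [← General.qf_one, ← General.qf_one]
    simp only [General.qf, one_mulVec, star_mulVec, conjTranspose_conjTranspose,
      ← dotProduct_mulVec, mulVec_mulVec, Matrix.one_mul]
    rw [show U * Uᴴ = 1 from Unitary.coe_mul_star_self hA.eigenvectorUnitary, one_mulVec]
  rw [← hn, General.nsq, Finset.mul_sum, Finset.mul_sum]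
  exact ⟨Finset.sum_le_sum fun i _ => mul_le_mul_of_nonneg_right (h i).1 (Complex.normSq_nonneg _),
    Finset.sum_le_sum fun i _ => mul_le_mul_of_nonneg_right (h i).2 (Complex.normSq_nonneg _)⟩

theorem mfun_sq (φ : ℝ → ℝ) {A : Matrix (Fin N) (Fin N) ℂ} (hA : A.IsHermitian) :
    mfun φ A * mfun φ A = mfun (fun t => φ t ^ 2) A := by
  rw [mfun_of_hermitian φ hA, mfun_of_hermitian _ hA]
  set U : Matrix (Fin N) (Fin N) ℂ := (hA.eigenvectorUnitary : Matrix (Fin N) (Fin N) ℂ) with hU
  have hU1 : Uᴴ * U = 1 := Unitary.coe_star_mul_self hA.eigenvectorUnitary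
  simp only [Matrix.mul_assoc]
  rw [← Matrix.mul_assoc Uᴴ U, hU1, Matrix.one_mul, ← Matrix.mul_assoc (diagonal _) (diagonal _),
    diagonal_mul_diagonal]
  simp [sq]

theorem mfun_eq_self {φ : ℝ → ℝ} {A : Matrix (Fin N) (Fin N) ℂ} (hA : A.IsHermitian)
    (h : ∀ i, φ (hA.eigenvalues i) = hA.eigenvalues i) : mfun φ A = A := by
  rw [mfun_of_hermitian φ hA]
  conv_rhs => rw [spectral_form hA]
  simp only [h]

theorem eigen_unit {A : Matrix (Fin N) (Fin N) ℂ} (hA : A.IsHermitian) (i : Fin N) :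
    General.nsq (⇑(hA.eigenvectorBasis i)) = 1 ∧
      A *ᵥ ⇑(hA.eigenvectorBasis i) = (hA.eigenvalues i : ℂ) • ⇑(hA.eigenvectorBasis i) := by
  refine ⟨?_, ?_⟩
  · have h := (hA.eigenvectorBasis).orthonormal.1 i
    rw [EuclideanSpace.norm_eq, Real.sqrt_eq_one] at h
    rw [General.nsq, ← h]
    exact Finset.sum_congr rfl fun k _ => Complex.normSq_eq_norm_sq _
  · rw [hA.mulVec_eigenvectorBasis]
    ext k
    simp

theorem qf_eigvec {A : Matrix (Fin N) (Fin N) ℂ} {w : Fin N → ℂ} {c : ℝ}
    (h : A *ᵥ w = (c : ℂ) • w) : General.qf A w = c * General.nsq w := by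
  rw [← General.qf_one, ← General.qf_smul]
  simp [General.qf, h, smul_mulVec]

theorem qf_sq_eigvec {A : Matrix (Fin N) (Fin N) ℂ} {w : Fin N → ℂ} {c : ℝ}
    (h : A *ᵥ w = (c : ℂ) • w) : General.qf (A * A) w = c ^ 2 * General.nsq w := by
  refine qf_eigvec ?_
  rw [← mulVec_mulVec, h, mulVec_smul, h, smul_smul]
  push_cast
  ring_nf

theorem eig_mem {A : Matrix (Fin N) (Fin N) ℂ} (hA : A.IsHermitian) {a b : ℝ}
    (hl : ∀ v, a * General.nsq v ≤ General.qf A v) (hu : ∀ v, General.qf A v ≤ b * General.nsq v)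
    (i : Fin N) : hA.eigenvalues i ∈ Icc a b := by
  obtain ⟨h1, h2⟩ := eigen_unit hA i
  have h := qf_eigvec h2
  rw [h1, mul_one] at h
  have := hl (⇑(hA.eigenvectorBasis i))
  have := hu (⇑(hA.eigenvectorBasis i))
  rw [h1, mul_one] at *
  constructor <;> linarith

/-- The cone interval `δ ≤ A ≤ R`. -/
def boxSet (N : ℕ) (δ R : ℝ) : Set (Matrix (Fin N) (Fin N) ℂ) :=
  {A | (A - (δ : ℂ) • 1).PosSemidef ∧ ((R : ℂ) • 1 - A).PosSemidef}

theorem boxSet_herm {δ R : ℝ} {A : Matrix (Fin N) (Fin N) ℂ} (h : A ∈ boxSet N δ R) :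
    A.IsHermitian := by
  have := h.1.isHermitian.add
    (show ((δ : ℂ) • (1 : Matrix (Fin N) (Fin N) ℂ)).IsHermitian by
      simp [Matrix.IsHermitian, conjTranspose_smul])
  rwa [sub_add_cancel] at this

theorem posSemidef_iff_qf {A : Matrix (Fin N) (Fin N) ℂ} :
    A.PosSemidef ↔ A.IsHermitian ∧ ∀ v, 0 ≤ General.qf A v := by
  refine ⟨fun h => ⟨h.1, fun v => (Complex.le_def.1 (h.dotProduct_mulVec_nonneg v)).1⟩,
    fun h => PosSemidef.of_dotProduct_mulVec_nonneg h.1 fun v => Complex.le_def.2 ⟨h.2 v, ?_⟩⟩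
  have him : RCLike.im (star v ⬝ᵥ A *ᵥ v) = 0 := h.1.im_star_dotProduct_mulVec_self v
  simpa using him.symm

theorem mem_boxSet_iff {δ R : ℝ} {A : Matrix (Fin N) (Fin N) ℂ} :
    A ∈ boxSet N δ R ↔ A.IsHermitian ∧
      ∀ v, δ * General.nsq v ≤ General.qf A v ∧ General.qf A v ≤ R * General.nsq v := by
  refine ⟨fun h => ⟨boxSet_herm h, fun v => ?_⟩, fun h => ?_⟩
  · have h1 := (posSemidef_iff_qf.1 h.1).2 v
    have h2 := (posSemidef_iff_qf.1 h.2).2 v
    rw [General.qf_sub, General.qf_smul, General.qf_one] at h1 h2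
    exact ⟨by linarith, by linarith⟩
  · have hs : ∀ c : ℝ, ((c : ℂ) • (1 : Matrix (Fin N) (Fin N) ℂ)).IsHermitian := fun c => by
      simp [Matrix.IsHermitian, conjTranspose_smul]
    refine ⟨posSemidef_iff_qf.2 ⟨h.1.sub (hs δ), fun v => ?_⟩,
      posSemidef_iff_qf.2 ⟨(hs R).sub h.1, fun v => ?_⟩⟩ <;>
    · rw [General.qf_sub, General.qf_smul, General.qf_one]
      have := h.2 v
      linarith

theorem isCompact_boxSet {δ R : ℝ} (hδ : 0 ≤ δ) : IsCompact (boxSet N δ R) := by
  have hset : boxSet N δ R = {A | Aᴴ = A} ∩ ⋂ v : Fin N → ℂ,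
      {A | δ * General.nsq v ≤ General.qf A v ∧ General.qf A v ≤ R * General.nsq v} := by
    ext A
    simp [mem_boxSet_iff, Matrix.IsHermitian]
  have hq : ∀ v, Continuous fun A : Matrix (Fin N) (Fin N) ℂ => General.qf A v := fun v => by
    unfold General.qf
    fun_prop
  refine Metric.isCompact_of_isClosed_isBounded ?_ ?_
  · rw [hset]
    exact (isClosed_eq continuous_id.matrix_conjTranspose continuous_id).inter
      (isClosed_iInter fun v => (isClosed_le continuous_const (hq v)).inter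
        (isClosed_le (hq v) continuous_const))
  · refine (isBounded_iff_forall_norm_le).2 ⟨N * (N * |R|), fun A hA => ?_⟩
    obtain ⟨hH, hb⟩ := mem_boxSet_iff.1 hA
    rw [spectral_form hH]
    refine frob_le_of_conj (Subtype.prop _) fun i => ?_
    obtain ⟨h1, h2⟩ := eig_mem hH (fun v => (hb v).1) (fun v => (hb v).2) i
    exact abs_le.2 ⟨by linarith, h2⟩

/-- The truncated flow started at `A`. -/
theorem exists_clipped_flow {L R : ℝ} (hL : 0 < L) (hR : 0 ≤ R) (A : Matrix (Fin N) (Fin N) ℂ)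
    {U : ℝ → Matrix (Fin N) (Fin N) ℂ} (hU : ContinuousOn U (Icc (-L) L)) :
    ∃ F : ℝ → Matrix (Fin N) (Fin N) ℂ, F (-L) = A ∧ ∀ x ∈ Icc (-L) L,
      HasDerivWithinAt F (A * A - clipMat R (F x) * clipMat R (F x) - U x) (Icc (-L) L) x := by
  obtain ⟨C, hC⟩ := isCompact_Icc.exists_bound_of_continuousOn hU
  set B : ℝ := N * (N * R) with hB
  have hB0 : 0 ≤ B := by positivity
  have hb : ∀ t ∈ Icc (-L) L, ∀ X : Matrix (Fin N) (Fin N) ℂ,
      ‖A * A - clipMat R X * clipMat R X - U t‖ ≤ ‖A * A‖ + B * B + |C| := fun t ht X =>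
    (norm_sub_le _ _).trans (add_le_add ((norm_sub_le _ _).trans (add_le_add le_rfl
      ((norm_mul_le _ _).trans (mul_le_mul (norm_clipMat_le hR X) (norm_clipMat_le hR X)
        (norm_nonneg _) hB0)))) ((hC t ht).trans (le_abs_self C)))
  set Lb : NNReal := ⟨‖A * A‖ + B * B + |C|, by positivity⟩ with hLb
  have hpl : IsPicardLindelof (fun t X => A * A - clipMat R X * clipMat R X - U t)
      (⟨-L, by simp [hL.le]⟩ : Icc (-L) L) A (Lb * Real.toNNReal (2 * L)) 0 Lb
      (Real.toNNReal (2 * B)) := by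
    refine ⟨fun t _ => (LipschitzWith.of_dist_le_mul fun X Y => ?_).lipschitzOnWith,
      fun X _ => (continuousOn_const.sub continuousOn_const).sub hU,
      fun t ht X _ => hb t ht X, ?_⟩
    · rw [dist_eq_norm, dist_eq_norm, Real.coe_toNNReal _ (by linarith),
        show A * A - clipMat R X * clipMat R X - U t - (A * A - clipMat R Y * clipMat R Y - U t)
          = (clipMat R Y - clipMat R X) * clipMat R Y + clipMat R X * (clipMat R Y - clipMat R X) by
          noncomm_ring]
      refine (norm_add_le _ _).trans ?_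
      have h1 : ‖clipMat R Y - clipMat R X‖ ≤ ‖X - Y‖ := by
        rw [norm_sub_rev]; exact clipMat_lipschitz R X Y
      have h2 := (norm_mul_le (clipMat R Y - clipMat R X) (clipMat R Y)).trans
        (mul_le_mul h1 (norm_clipMat_le hR Y) (norm_nonneg _) (norm_nonneg _))
      have h3 := (norm_mul_le (clipMat R X) (clipMat R Y - clipMat R X)).trans
        (mul_le_mul (norm_clipMat_le hR X) h1 (norm_nonneg _) hB0)
      linarith
    · simp only [NNReal.coe_mul, NNReal.coe_zero, sub_zero, Real.coe_toNNReal _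
        (show 0 ≤ 2 * L by linarith)]
      rw [max_eq_left (by linarith)]
      exact le_of_eq (by ring)
  exact hpl.exists_eq_forall_mem_Icc_hasDerivWithinAt₀

theorem right_deriv {L x : ℝ} {F : ℝ → Matrix (Fin N) (Fin N) ℂ}
    {D : Matrix (Fin N) (Fin N) ℂ} (hx : x ∈ Ico (-L) L)
    (h : HasDerivWithinAt F D (Icc (-L) L) x) : HasDerivWithinAt F D (Ici x) x :=
  h.mono_of_mem_nhdsWithin (Icc_mem_nhdsGE_of_mem hx)

theorem exists_matching {L δ R M : ℝ} (hL : 0 < L) (hδ : 0 < δ) (hδR : δ < R) (hRM : L * M < R)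
    (V : Matrix (Fin N) (Fin N) ℂ → ℝ → Matrix (Fin N) (Fin N) ℂ)
    (hVc : ∀ i j, ContinuousOn (fun p : Matrix (Fin N) (Fin N) ℂ × ℝ => V p.1 p.2 i j)
      ({A | (A - (δ : ℂ) • 1).PosSemidef ∧ ((R : ℂ) • 1 - A).PosSemidef} ×ˢ Icc (-L) L))
    (hV : ∀ A : Matrix (Fin N) (Fin N) ℂ, (A - (δ : ℂ) • 1).PosSemidef →
      ((R : ℂ) • 1 - A).PosSemidef → ∀ x ∈ Icc (-L) L, (V A x).PosSemidef ∧
        ∀ w, General.qf (V A x) w ≤ M * General.nsq w)
    (hlow : ∀ A : Matrix (Fin N) (Fin N) ℂ, (A - (δ : ℂ) • 1).PosSemidef →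
      ((R : ℂ) • 1 - A).PosSemidef → ∀ w, General.nsq w = 1 → A *ᵥ w = (δ : ℂ) • w →
        2 * δ + 2 * L * δ ^ 2 < ∫ x in (-L)..L, General.qf (V A x) w) :
    ∃ A F, (A - (δ : ℂ) • 1).PosSemidef ∧ ((R : ℂ) • 1 - A).PosSemidef ∧
      IsFlow L A (V A) F := by
  set K := boxSet N δ R with hK
  have hR : 0 ≤ R := by linarith
  have hVcont : ContinuousOn (fun p : Matrix (Fin N) (Fin N) ℂ × ℝ => V p.1 p.2)
      (K ×ˢ Icc (-L) L) := continuousOn_pi.2 fun i => continuousOn_pi.2 fun j => hVc i j
  have hVA : ∀ A ∈ K, ContinuousOn (V A) (Icc (-L) L) := fun A hA =>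
    hVcont.comp (continuousOn_const.prodMk continuousOn_id) fun x hx => ⟨hA, hx⟩
  have hex : ∀ A ∈ K, ∃ F : ℝ → Matrix (Fin N) (Fin N) ℂ, F (-L) = A ∧ ∀ x ∈ Icc (-L) L,
      HasDerivWithinAt F (A * A - clipMat R (F x) * clipMat R (F x) - V A x) (Icc (-L) L) x :=
    fun A hA => exists_clipped_flow hL hR A (hVA A hA)
  choose! Φ hΦ0 hΦ using hex
  have hΦc : ∀ A ∈ K, ContinuousOn (Φ A) (Icc (-L) L) := fun A hA x hx =>
    (hΦ A hA x hx).continuousWithinAt
  have hLend : L ∈ Icc (-L) L := ⟨by linarith, le_rfl⟩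
  have hH : ∀ A ∈ K, ∀ x ∈ Icc (-L) L, (Φ A x).IsHermitian := by
    intro A hA
    have hAh := boxSet_herm hA
    have key := constant_of_has_deriv_right_zero (f := fun x => star (Φ A x) - Φ A x) (a := -L)
      (b := L) ((hΦc A hA).star.sub (hΦc A hA)) (fun x hx => ?_)
    · intro x hx
      have h := key x hx
      simp only [hΦ0 A hA, star_eq_conjTranspose, hAh.eq, sub_self, sub_eq_zero] at h
      exact h
    · have hd := right_deriv hx (hΦ A hA x (Ico_subset_Icc_self hx))
      have h := hd.star.sub hd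
      have hh : (A * A - clipMat R (Φ A x) * clipMat R (Φ A x) - V A x).IsHermitian := by
        refine IsHermitian.sub (IsHermitian.sub ?_ ?_) (hV A hA.1 hA.2 x (Ico_subset_Icc_self hx)).1.1
        · have h' := isHermitian_conjTranspose_mul_self A
          rwa [hAh.eq] at h'
        · have h' := isHermitian_conjTranspose_mul_self (clipMat R (Φ A x))
          have hch : (clipMat R (Φ A x)).IsHermitian := mfun_isHermitian' _ _
          rwa [hch.eq] at h'
      rw [star_eq_conjTranspose, hh.eq, sub_self] at h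
      exact h
  have hcont : ContinuousOn (fun A => Φ A L) K := by
    set B : ℝ := N * (N * R) with hB
    set Kc : NNReal := Real.toNNReal (2 * B) + 1 with hKc
    set E := Real.exp ((Kc : ℝ) * (2 * L)) with hE
    have hcpt : IsCompact (K ×ˢ Icc (-L) L) := (isCompact_boxSet hδ.le).prod isCompact_Icc
    have hg : UniformContinuousOn (fun p : Matrix (Fin N) (Fin N) ℂ × ℝ => p.1 * p.1 - V p.1 p.2)
        (K ×ˢ Icc (-L) L) :=
      hcpt.uniformContinuousOn_of_continuous
        ((continuous_fst.mul continuous_fst).continuousOn.sub hVcont)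
    intro A₀ hA₀
    refine Metric.continuousWithinAt_iff.2 fun e he => ?_
    have hKc0 : (0 : ℝ) < Kc := by rw [hKc]; positivity
    have hE1 : 1 ≤ E := Real.one_le_exp (by positivity)
    set η := e / (2 * (E + (E - 1) / Kc)) with hη
    have hden : 0 < E + (E - 1) / Kc := by
      have : 0 ≤ (E - 1) / Kc := div_nonneg (by linarith) hKc0.le
      linarith
    have hη0 : 0 < η := div_pos he (by linarith)
    obtain ⟨d, hd0, hd⟩ := Metric.uniformContinuousOn_iff.1 hg η hη0
    refine ⟨min d η, lt_min hd0 hη0, fun A hA hAd => ?_⟩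
    have hlip : ∀ t : ℝ, LipschitzWith Kc
        (fun X => A₀ * A₀ - clipMat R X * clipMat R X - V A₀ t) := fun t =>
      LipschitzWith.of_dist_le_mul fun X Y => by
        rw [dist_eq_norm, dist_eq_norm, hKc, NNReal.coe_add, NNReal.coe_one,
          Real.coe_toNNReal _ (by positivity),
          show A₀ * A₀ - clipMat R X * clipMat R X - V A₀ t
              - (A₀ * A₀ - clipMat R Y * clipMat R Y - V A₀ t)
            = (clipMat R Y - clipMat R X) * clipMat R Y
              + clipMat R X * (clipMat R Y - clipMat R X) by noncomm_ring]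
        refine (norm_add_le _ _).trans ?_
        have h1 : ‖clipMat R Y - clipMat R X‖ ≤ ‖X - Y‖ := by
          rw [norm_sub_rev]; exact clipMat_lipschitz R X Y
        have h2 := (norm_mul_le (clipMat R Y - clipMat R X) (clipMat R Y)).trans
          (mul_le_mul h1 (norm_clipMat_le hR Y) (norm_nonneg _) (norm_nonneg _))
        have h3 := (norm_mul_le (clipMat R X) (clipMat R Y - clipMat R X)).trans
          (mul_le_mul (norm_clipMat_le hR X) h1 (norm_nonneg _) (by positivity))
        nlinarith [norm_nonneg (X - Y)]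
    have h := dist_le_of_approx_trajectories_ODE hlip (hΦc A₀ hA₀)
      (fun t ht => right_deriv ht (hΦ A₀ hA₀ t (Ico_subset_Icc_self ht)))
      (εf := 0) (fun t ht => le_of_eq (dist_self _))
      (hΦc A hA) (fun t ht => right_deriv ht (hΦ A hA t (Ico_subset_Icc_self ht)))
      (εg := η) (fun t ht => ?_) (δ := η) ?_ L hLend
    · rw [gronwallBound_of_K_ne_0 hKc0.ne'] at h
      simp only [zero_add, sub_neg_eq_add, ← two_mul] at h
      rw [dist_comm]
      refine lt_of_le_of_lt h ?_
      rw [← hE]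
      have : η * (E + (E - 1) / Kc) = e / 2 := by
        rw [hη]
        generalize E + (E - 1) / (Kc : ℝ) = d at hden ⊢
        field_simp
      have e2 : η * E + η / Kc * (E - 1) = η * (E + (E - 1) / Kc) := by ring
      linarith
    · have h1 := hd (A, t) ⟨hA, Ico_subset_Icc_self ht⟩ (A₀, t) ⟨hA₀, Ico_subset_Icc_self ht⟩ (by
        rw [Prod.dist_eq, dist_self, max_eq_left dist_nonneg]
        exact lt_of_lt_of_le hAd (min_le_left _ _))
      refine le_trans (le_of_eq ?_) h1.le
      rw [dist_eq_norm, dist_eq_norm]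
      congr 1
      abel
    · rw [hΦ0 A₀ hA₀, hΦ0 A hA, dist_comm]
      exact le_trans hAd.le (min_le_right _ _)
  set ψ : ℝ → ℝ := clipTo δ R with hψ
  set T := fun A => mfun ψ (-Φ A L) with hT
  have hTc : ContinuousOn T K := by
    intro A₀ hA₀
    refine Metric.continuousWithinAt_iff.2 fun e he => ?_
    obtain ⟨d, hd0, hd⟩ := Metric.continuousWithinAt_iff.1 (hcont A₀ hA₀) e he
    refine ⟨d, hd0, fun A hA hAd => lt_of_le_of_lt ?_ (hd hA hAd)⟩
    rw [dist_eq_norm, dist_eq_norm]
    refine (frob_mfun_sub (clipTo_lipschitz _ _) (hH A hA L hLend).neg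
      (hH A₀ hA₀ L hLend).neg).trans_eq ?_
    rw [← norm_neg]
    congr 1
    abel
  have hmaps : MapsTo T K K := fun A hA => mem_boxSet_iff.2 ⟨mfun_isHermitian' _ _,
    qf_mfun_bounds (hH A hA L hLend).neg fun i =>
      ⟨le_max_left _ _, max_le hδR.le (min_le_left _ _)⟩⟩
  have hne : K.Nonempty := ⟨(δ : ℂ) • 1, mem_boxSet_iff.2
    ⟨by simp [Matrix.IsHermitian, conjTranspose_smul], fun v => by
      rw [General.qf_smul, General.qf_one]
      exact ⟨le_rfl, mul_le_mul_of_nonneg_right hδR.le (General.nsq_nonneg v)⟩⟩⟩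
  have hconv : Convex ℝ K := by
    intro A hA B hB s t hs ht hst
    obtain ⟨hAh, hAb⟩ := mem_boxSet_iff.1 hA
    obtain ⟨hBh, hBb⟩ := mem_boxSet_iff.1 hB
    have e : ∀ (r : ℝ) (X : Matrix (Fin N) (Fin N) ℂ), r • X = (r : ℂ) • X := fun r X => by
      ext i j; simp
    rw [e, e]
    refine mem_boxSet_iff.2 ⟨?_, fun v => ?_⟩
    · simp [Matrix.IsHermitian, conjTranspose_add, conjTranspose_smul, hAh.eq, hBh.eq]
    · rw [General.qf_add, General.qf_smul, General.qf_smul]
      obtain ⟨h1, h2⟩ := hAb v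
      obtain ⟨h3, h4⟩ := hBb v
      have ht' : t = 1 - s := by linarith
      subst ht'
      constructor <;> nlinarith [mul_le_mul_of_nonneg_left h1 hs, mul_le_mul_of_nonneg_left h2 hs,
        mul_le_mul_of_nonneg_left h3 ht, mul_le_mul_of_nonneg_left h4 ht]
  obtain ⟨A, hA, hfix⟩ := exists_fixedPoint (isCompact_boxSet hδ.le) hconv hne hTc hmaps
  obtain ⟨hAh, hAb⟩ := mem_boxSet_iff.1 hA
  have hFh := hH A hA
  have hFc := hΦc A hA
  set F := Φ A with hF
  have hF0 : F (-L) = A := hΦ0 A hA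
  set F' := fun x => A * A - clipMat R (F x) * clipMat R (F x) - V A x with hF'
  have hFd : ∀ x ∈ Icc (-L) L, HasDerivWithinAt F (F' x) (Icc (-L) L) x := hΦ A hA
  have hsym : ∀ x ∈ Icc (-L) L, (1 / 2 : ℂ) • (F x + (F x)ᴴ) = F x := fun x hx => by
    rw [(hFh x hx).eq]; module
  have hCC : ∀ x ∈ Icc (-L) L, ∀ w, 0 ≤ General.qf (clipMat R (F x) * clipMat R (F x)) w ∧
      General.qf (clipMat R (F x) * clipMat R (F x)) w ≤ R ^ 2 * General.nsq w := by
    intro x hx w
    rw [clipMat, hsym x hx, mfun_sq _ (hFh x hx)]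
    have h := qf_mfun_bounds (φ := fun t => clipTo (-R) R t ^ 2) (a := 0) (b := R ^ 2) (hFh x hx)
      (fun i => ⟨sq_nonneg _, by
        rw [← sq_abs]; exact pow_le_pow_left₀ (abs_nonneg _) (abs_clipTo_le hR _) 2⟩) w
    rw [zero_mul] at h
    exact h
  have hCcont : Continuous (clipMat (N := N) R) :=
    (LipschitzWith.of_dist_le_mul (K := 1) fun X Y => by
      rw [dist_eq_norm, dist_eq_norm, NNReal.coe_one, one_mul]; exact clipMat_lipschitz R X Y).continuous
  have hF'c : ContinuousOn F' (Icc (-L) L) :=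
    (continuousOn_const.sub ((hCcont.comp_continuousOn hFc).mul (hCcont.comp_continuousOn hFc))).sub
      (hVA A hA)
  have hVint : ∀ w, IntervalIntegrable (fun x => General.qf (V A x) w) volume (-L) L := fun w => by
    have hq : Continuous fun X : Matrix (Fin N) (Fin N) ℂ => General.qf X w := by
      unfold General.qf; fun_prop
    exact (hq.comp_continuousOn (hVA A hA)).intervalIntegrable_of_Icc (by linarith)
  have hftc : ∀ w, IntervalIntegrable (fun x => General.qf (F' x) w) volume (-L) L ∧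
      ∫ x in (-L)..L, General.qf (F' x) w = General.qf (F L) w - General.qf A w := fun w => by
    have hq : Continuous fun X : Matrix (Fin N) (Fin N) ℂ => General.qf X w := by
      unfold General.qf; fun_prop
    have hi := (hq.comp_continuousOn hF'c).intervalIntegrable_of_Icc
      (μ := volume) (show -L ≤ L by linarith)
    refine ⟨hi, ?_⟩
    rw [intervalIntegral.integral_eq_sub_of_hasDerivAt_of_le (f := fun x => General.qf (F x) w)
      (by linarith) (hq.comp_continuousOn hFc) (fun x hx => (hasDerivWithinAt_qf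
        (hFd x (Ioo_subset_Icc_self hx)) w).hasDerivAt (Icc_mem_nhds hx.1 hx.2)) hi, hF0]
  set B := -F L with hB
  have hBh : B.IsHermitian := (hFh L hLend).neg
  have hAB : mfun ψ B = A := hfix
  have hfixed : ∀ i, ψ (hBh.eigenvalues i) = hBh.eigenvalues i := by
    intro i
    obtain ⟨hn, hw⟩ := eigen_unit hBh i
    set w : Fin N → ℂ := ⇑(hBh.eigenvectorBasis i) with hwdef
    set b := hBh.eigenvalues i with hb
    have hAw : A *ᵥ w = (ψ b : ℂ) • w := by rw [← hAB]; exact mfun_eigvec ψ hBh hw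
    have hFw : General.qf (F L) w = -b := by
      have h := qf_eigvec hw
      rw [hn, mul_one] at h
      simp only [hB, General.qf, neg_mulVec, dotProduct_neg, Complex.neg_re] at h
      unfold General.qf
      linarith
    have hqA := qf_eigvec hAw
    have hqA2 := qf_sq_eigvec hAw
    rw [hn, mul_one] at hqA hqA2
    obtain ⟨hi, hval⟩ := hftc w
    rw [hFw, hqA] at hval
    rcases lt_or_ge b δ with h | h
    · exfalso
      have hψb : ψ b = δ := by rw [hψ, clipTo, min_eq_right (by linarith), max_eq_left h.le]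
      rw [hψb] at hval hqA2 hAw
      have hint := hVint w
      have hlt := hlow A hA.1 hA.2 w hn hAw
      have hmono := intervalIntegral.integral_mono_on (show -L ≤ L by linarith) hi
        (intervalIntegrable_const (c := δ ^ 2) |>.sub hint) fun x hx => by
          simp only [hF', General.qf_sub, hqA2]
          linarith [(hCC x hx w).1]
      rw [intervalIntegral.integral_sub intervalIntegrable_const hint,
        intervalIntegral.integral_const, smul_eq_mul] at hmono
      nlinarith
    · rcases le_or_gt b R with h' | h'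
      · rw [hψ, clipTo, min_eq_right h', max_eq_right h]
      · exfalso
        have hψb : ψ b = R := by rw [hψ, clipTo, min_eq_left h'.le, max_eq_right hδR.le]
        rw [hψb] at hval hqA2
        have hmono := intervalIntegral.integral_mono_on (show -L ≤ L by linarith)
          (intervalIntegrable_const (c := -M)) hi fun x hx => by
            simp only [hF', General.qf_sub, hqA2]
            have h1 := (hCC x hx w).2
            have h2 := (hV A hA.1 hA.2 x hx).2 w
            rw [hn, mul_one] at h1 h2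
            linarith
        rw [intervalIntegral.integral_const, smul_eq_mul] at hmono
        nlinarith
  have hBA : B = A := by rw [← hAB, mfun_eq_self hBh hfixed]
  have hend : F L = -A := by rw [← hBA, hB, neg_neg]
  have hcross : ∀ x ∈ Icc (-L) L, ∀ w c, R < |c| → General.nsq w = 1 → F x *ᵥ w = (c : ℂ) • w →
      General.qf (F' x) w ≤ 0 := by
    intro x hx w c hc hn hw
    have h1 : clipMat R (F x) *ᵥ w = (clipTo (-R) R c : ℂ) • w := by
      rw [clipMat, hsym x hx]
      exact mfun_eigvec _ (hFh x hx) hw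
    have h2 : clipTo (-R) R c ^ 2 = R ^ 2 := by
      rcases lt_abs.1 hc with h | h
      · rw [clipTo, min_eq_left h.le, max_eq_right (by linarith)]
      · rw [clipTo, min_eq_right (by linarith), max_eq_left (by linarith), neg_sq]
    have h3 := qf_sq_eigvec h1
    have h4 := (posSemidef_iff_qf.1 (hV A hA.1 hA.2 x hx).1).2 w
    have h5 : General.qf (A * A) w ≤ R ^ 2 := by
      rw [spectral_form hAh]
      set U : Matrix (Fin N) (Fin N) ℂ := (hAh.eigenvectorUnitary : Matrix (Fin N) (Fin N) ℂ)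
      have := (qf_mfun_bounds (φ := fun t => t ^ 2) (a := 0) (b := R ^ 2) hAh (fun i => ⟨sq_nonneg _, by
        obtain ⟨u, v⟩ := eig_mem hAh (fun v => (hAb v).1) (fun v => (hAb v).2) i
        exact pow_le_pow_left₀ (hδ.le.trans u) v 2⟩) w).2
      rw [← mfun_sq (fun t => t) hAh, mfun_eq_self hAh (fun i => rfl), hn, mul_one,
        spectral_form hAh] at this
      exact this
    simp only [hF', General.qf_sub]
    rw [h3, h2, hn, mul_one]
    linarith
  have hupper := eigen_barrier (R := R) hFd hFh (by rw [hF0]; exact fun v => (hAb v).2)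
    fun x hx w c hc => hcross x hx w c (hc.trans_le (le_abs_self c))
  have hlower : ∀ x ∈ Icc (-L) L, ∀ v, -(R * General.nsq v) ≤ General.qf (F x) v := by
    have hqn : ∀ (X : Matrix (Fin N) (Fin N) ℂ) v, General.qf (-X) v = -General.qf X v := fun X v => by
      simp [General.qf, neg_mulVec]
    have h := eigen_barrier (a := -L) (b := L) (R := R) (F := fun x => -F (-x))
      (F' := fun x => F' (-x)) (fun x hx => ?_) (fun x hx => ?_) ?_ ?_
    · intro x hx v
      have := h (-x) ⟨by linarith [hx.2], by linarith [hx.1]⟩ v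
      simp only [neg_neg, hqn] at this
      linarith
    · have h1 := (hFd (-x) ⟨by linarith [hx.2], by linarith [hx.1]⟩).scomp x
        (hasDerivWithinAt_neg (x := x) (s := Icc (-L) L))
        (fun y hy => ⟨by linarith [hy.2], by linarith [hy.1]⟩)
      exact h1.neg.congr_deriv (by simp)
    · exact (hFh (-x) ⟨by linarith [hx.2], by linarith [hx.1]⟩).neg
    · intro v
      rw [show -F (- -L) = A by rw [neg_neg, hend, neg_neg]]
      exact (hAb v).2
    · intro x hx w c hc hn hw
      rw [neg_mulVec, neg_eq_iff_eq_neg, ← neg_smul, ← Complex.ofReal_neg] at hw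
      exact hcross (-x) ⟨by linarith [hx.2], by linarith [hx.1]⟩ w (-c)
        (by rw [abs_neg]; exact hc.trans_le (le_abs_self c)) hn hw
  have hclip : ∀ x ∈ Icc (-L) L, clipMat R (F x) = F x := by
    intro x hx
    rw [clipMat, hsym x hx]
    refine mfun_eq_self (hFh x hx) fun i => ?_
    obtain ⟨u, v⟩ := eig_mem (a := -R) (hFh x hx) (fun v => by linarith [hlower x hx v])
      (hupper x hx) i
    rw [clipTo, min_eq_right v, max_eq_right u]
  have hd' : ∀ x ∈ Icc (-L) L, HasDerivWithinAt F (A * A - F x * F x - V A x) (Icc (-L) L) x :=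
    fun x hx => by
      have := hFd x hx
      simp only [hF', hclip x hx] at this
      exact this
  refine ⟨A, F, hA.1, hA.2, fun x hx i j => ?_, hF0, hend, hFh, ?_⟩
  · let Q : Matrix (Fin N) (Fin N) ℂ →ₗ[ℝ] ℂ :=
      { toFun := fun X => X i j
        map_add' := fun X Y => rfl
        map_smul' := fun r X => rfl }
    exact Q.toContinuousLinearMap.hasFDerivAt.comp_hasDerivWithinAt x (hd' x hx)
  intro x hx w
  have hcs : ∀ y ∈ Icc (-L) L, ∀ u, General.nsq u = 1 →
      General.qf (F y) u ^ 2 ≤ General.qf (F y * F y) u := by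
    intro y hy u hu
    have h := (posSemidef_iff_qf.1 (posSemidef_conjTranspose_mul_self
      (F y - (General.qf (F y) u : ℂ) • 1))).2 u
    rw [conjTranspose_sub, conjTranspose_smul, conjTranspose_one, (hFh y hy).eq, Complex.star_def,
      Complex.conj_ofReal] at h
    simp only [Matrix.sub_mul, Matrix.mul_sub, Matrix.smul_mul, Matrix.mul_smul, Matrix.one_mul,
      Matrix.mul_one, General.qf_sub, General.qf_smul, General.qf_one, hu] at h
    nlinarith
  have hunit : ∀ u, General.nsq u = 1 → ∀ y ∈ Icc (-L) L,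
      General.qf (F y) u ^ 2 ≤ General.qf (A * A) u := by
    intro u hu
    set a := General.qf (A * A) u with ha
    have hA2 : General.qf A u ^ 2 ≤ a := by
      have := hcs (-L) ⟨le_rfl, by linarith⟩ u hu
      rwa [hF0] at this
    set s := Real.sqrt a with hs
    have hs2 : s ^ 2 = a := Real.sq_sqrt ((sq_nonneg _).trans hA2)
    have hAs : General.qf A u ≤ s ∧ -s ≤ General.qf A u := by
      have := Real.abs_le_sqrt hA2
      exact ⟨(abs_le.1 this).2, (abs_le.1 this).1⟩
    have fence : ∀ g g' : ℝ → ℝ, (∀ y ∈ Icc (-L) L, HasDerivWithinAt g (g' y) (Icc (-L) L) y) →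
        g (-L) ≤ s → (∀ y ∈ Icc (-L) L, g' y ≤ a - g y ^ 2) → ∀ y ∈ Icc (-L) L, g y ≤ s := by
      intro g g' hg h0 hle y hy
      refine le_of_forall_pos_le_add fun e he => ?_
      set ε := e / (2 * L + 1) with hεd
      have hε : 0 < ε := by positivity
      have hb := image_le_of_deriv_right_lt_deriv_boundary (f := g) (f' := g')
        (B := fun z => s + ε * (z + L + 1)) (B' := fun _ => ε)
        (fun z hz => (hg z hz).continuousWithinAt)
        (fun z hz => (hg z (Ico_subset_Icc_self hz)).mono_of_mem_nhdsWithin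
          (Icc_mem_nhdsGE_of_mem hz)) (by nlinarith)
        (fun z => by
          simpa using ((((hasDerivAt_id z).add_const L).add_const 1).const_mul ε).const_add s)
        (fun z hz hzB => by
          have h1 := hle z (Ico_subset_Icc_self hz)
          have h2 : s ≤ g z := by rw [hzB]; nlinarith [hz.1]
          nlinarith [Real.sqrt_nonneg a]) hy
      refine hb.trans (add_le_add le_rfl ?_)
      rw [hεd, div_mul_eq_mul_div, div_le_iff₀ (by positivity)]
      nlinarith [hy.2]
    have hder : ∀ y ∈ Icc (-L) L,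
        General.qf (A * A - F y * F y - V A y) u ≤ a - General.qf (F y) u ^ 2 := fun y hy => by
      rw [General.qf_sub, General.qf_sub]
      linarith [hcs y hy u hu, (posSemidef_iff_qf.1 (hV A hA.1 hA.2 y hy).1).2 u]
    have hup := fence (fun y => General.qf (F y) u) _
      (fun y hy => hasDerivWithinAt_qf (hd' y hy) u) (by simp only [hF0]; exact hAs.1) hder
    have hdn := fence (fun y => -General.qf (F (-y)) u)
      (fun y => General.qf (A * A - F (-y) * F (-y) - V A (-y)) u) (fun y hy => ?_) ?_ ?_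
    · intro y hy
      have h1 := hup y hy
      have h2 := hdn (-y) ⟨by linarith [hy.2], by linarith [hy.1]⟩
      simp only [neg_neg] at h2
      nlinarith
    · have h1 := (hasDerivWithinAt_qf (hd' (-y) ⟨by linarith [hy.2], by linarith [hy.1]⟩) u).scomp y
        (hasDerivWithinAt_neg (x := y) (s := Icc (-L) L))
        (fun z hz => ⟨by linarith [hz.2], by linarith [hz.1]⟩)
      exact h1.neg.congr_deriv (by simp)
    · simp only [neg_neg, hend, General.qf, neg_mulVec, dotProduct_neg, Complex.neg_re]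
      exact hAs.1
    · intro y hy
      rw [neg_sq]
      exact hder (-y) ⟨by linarith [hy.2], by linarith [hy.1]⟩
  rcases (General.nsq_nonneg w).eq_or_lt with h0 | h0
  · simp [nsq_eq_zero_vec h0.symm, General.qf, General.nsq]
  · set r := (Real.sqrt (General.nsq w))⁻¹ with hr
    have hr2 : r ^ 2 * General.nsq w = 1 := by
      rw [hr, inv_pow, Real.sq_sqrt h0.le, inv_mul_cancel₀ h0.ne']
    have h := hunit ((r : ℂ) • w) (by rw [nsq_smul_vec, hr2]) x hx
    rw [qf_smul_vec, qf_smul_vec] at h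
    calc General.qf (F x) w ^ 2 = (r ^ 2 * General.qf (F x) w) ^ 2 * General.nsq w ^ 2 := by
          rw [← mul_pow, mul_right_comm, hr2, one_mul]
      _ ≤ r ^ 2 * General.qf (A * A) w * General.nsq w ^ 2 :=
          mul_le_mul_of_nonneg_right h (sq_nonneg _)
      _ = General.qf (A * A) w * General.nsq w := by
          linear_combination General.qf (A * A) w * General.nsq w * hr2

end Vale.Agent.P371.All
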