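import Vale.Agent.P371.All.Defs
import Vale.Agent.P371.All.TraceTools

/-!
# P371: tools for the matching problem of the Riccati flow
-/

namespace Vale.Agent.P371.All

open Matrix Set Filter
open scoped ComplexOrder ComplexConjugate Topology Matrix.Norms.Frobenius

variable {N : ℕ}

/-- Truncation to `[a, b]`. -/
noncomputable def clipTo (a b t : ℝ) : ℝ := max a (min b t)

theorem clipTo_lipschitz (a b s t : ℝ) : |clipTo a b s - clipTo a b t| ≤ 1 * |s - t| := by
  rw [one_mul]
  refine le_trans (abs_max_sub_max_le_max _ _ _ _) (max_le (by simp) ?_)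
  exact le_trans (abs_min_sub_min_le_max _ _ _ _) (max_le (by simp) le_rfl)

theorem mfun_of_hermitian (φ : ℝ → ℝ) {A : Matrix (Fin N) (Fin N) ℂ} (hA : A.IsHermitian) :
    mfun φ A = (hA.eigenvectorUnitary : Matrix (Fin N) (Fin N) ℂ) *
      diagonal (fun i => (φ (hA.eigenvalues i) : ℂ)) *
      (hA.eigenvectorUnitary : Matrix (Fin N) (Fin N) ℂ)ᴴ := by
  rw [mfun, dif_pos hA]

theorem spectral_form {A : Matrix (Fin N) (Fin N) ℂ} (hA : A.IsHermitian) :
    A = (hA.eigenvectorUnitary : Matrix (Fin N) (Fin N) ℂ) *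
      diagonal (fun i => (hA.eigenvalues i : ℂ)) *
      (hA.eigenvectorUnitary : Matrix (Fin N) (Fin N) ℂ)ᴴ := by
  simpa [Unitary.conjStarAlgAut_apply, Function.comp_def, Matrix.star_eq_conjTranspose]
    using hA.spectral_theorem

theorem mfun_isHermitian' (φ : ℝ → ℝ) (A : Matrix (Fin N) (Fin N) ℂ) :
    (mfun φ A).IsHermitian := by
  by_cases hA : A.IsHermitian
  · rw [mfun_of_hermitian φ hA]
    refine isHermitian_mul_mul_conjTranspose _ (isHermitian_diagonal_of_self_adjoint _ ?_)
    ext i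
    simp [Complex.conj_ofReal]
  · rw [mfun, dif_neg hA]
    exact isHermitian_zero

theorem frob_sq (A : Matrix (Fin N) (Fin N) ℂ) :
    ‖A‖ ^ 2 = ∑ i, ∑ j, Complex.normSq (A i j) := by
  rw [frobenius_norm_def, ← Real.rpow_natCast _ 2, ← Real.rpow_mul (by positivity)]
  norm_num [Complex.normSq_eq_norm_sq]

theorem frob_mfun_sub {φ : ℝ → ℝ} (hφ : ∀ s t, |φ s - φ t| ≤ 1 * |s - t|)
    {A B : Matrix (Fin N) (Fin N) ℂ} (hA : A.IsHermitian) (hB : B.IsHermitian) :
    ‖mfun φ A - mfun φ B‖ ≤ ‖A - B‖ := by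
  have h := mfun_lipschitz (φ := φ) (K := 1) hA hB fun i j => hφ _ _
  rw [one_pow, one_mul, ← frob_sq, ← frob_sq] at h
  exact (pow_le_pow_iff_left₀ (norm_nonneg _) (norm_nonneg _) two_ne_zero).1 h

theorem frob_le_of_conj {U : Matrix (Fin N) (Fin N) ℂ} (hU : U ∈ Matrix.unitaryGroup (Fin N) ℂ)
    {d : Fin N → ℝ} {c : ℝ} (hd : ∀ i, |d i| ≤ c) :
    ‖U * diagonal (fun i => (d i : ℂ)) * Uᴴ‖ ≤ N * (N * |c|) := by
  have he : ∀ i j, ‖(U * diagonal (fun k => (d k : ℂ)) * Uᴴ) i j‖ ≤ N * |c| := fun i j => by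
    simp only [Matrix.mul_apply, conjTranspose_apply, diagonal_apply, mul_ite,
      mul_zero, Finset.sum_ite_eq', Finset.mem_univ, if_true]
    refine (norm_sum_le _ _).trans ((Finset.sum_le_card_nsmul _ _ |c| fun k _ => ?_).trans_eq
      (by simp))
    rw [norm_mul, norm_mul, norm_star, Complex.norm_real, Real.norm_eq_abs]
    calc ‖U i k‖ * |d k| * ‖U j k‖ ≤ 1 * |c| * 1 :=
          mul_le_mul (mul_le_mul (entry_norm_bound_of_unitary hU i k) ((hd k).trans (le_abs_self c))
            (abs_nonneg _) zero_le_one) (entry_norm_bound_of_unitary hU j k) (norm_nonneg _)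
            (by positivity)
      _ = |c| := by ring
  refine (pow_le_pow_iff_left₀ (norm_nonneg _) (by positivity) two_ne_zero).1 ?_
  rw [frob_sq]
  refine (Finset.sum_le_card_nsmul _ _ ((N : ℝ) * (N * |c|) ^ 2) fun i _ => ?_).trans_eq
    (by simp; ring)
  refine (Finset.sum_le_card_nsmul _ _ ((N * |c|) ^ 2) fun j _ => ?_).trans_eq (by simp)
  rw [Complex.normSq_eq_norm_sq]
  exact pow_le_pow_left₀ (norm_nonneg _) (he i j) 2

theorem mfun_eigvec (φ : ℝ → ℝ) {A : Matrix (Fin N) (Fin N) ℂ} (hA : A.IsHermitian)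
    {w : Fin N → ℂ} {c : ℝ} (h : A *ᵥ w = (c : ℂ) • w) :
    mfun φ A *ᵥ w = (φ c : ℂ) • w := by
  set U : Matrix (Fin N) (Fin N) ℂ := (hA.eigenvectorUnitary : Matrix (Fin N) (Fin N) ℂ) with hU
  have hU1 : Uᴴ * U = 1 := Unitary.coe_star_mul_self hA.eigenvectorUnitary
  have hU2 : U * Uᴴ = 1 := Unitary.coe_mul_star_self hA.eigenvectorUnitary
  set u := Uᴴ *ᵥ w with hu
  have hw : U *ᵥ u = w := by rw [hu, mulVec_mulVec, hU2, one_mulVec]
  have h' : (diagonal fun i => (hA.eigenvalues i : ℂ)) *ᵥ u = (c : ℂ) • u := by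
    have e := congrArg (fun v => Uᴴ *ᵥ v) h
    conv_lhs at e => rw [spectral_form hA, ← hU]
    simp only [mulVec_mulVec, mulVec_smul] at e
    rw [← Matrix.mul_assoc, ← Matrix.mul_assoc, hU1, Matrix.one_mul, ← mulVec_mulVec] at e
    exact e
  have h2 : (diagonal fun i => (φ (hA.eigenvalues i) : ℂ)) *ᵥ u = (φ c : ℂ) • u := by
    funext i
    have hi := congrFun h' i
    simp only [mulVec_diagonal, Pi.smul_apply, smul_eq_mul] at hi ⊢
    rcases eq_or_ne (hA.eigenvalues i) c with e | e
    · rw [e]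
    · have : u i = 0 := by
        have : ((hA.eigenvalues i : ℂ) - c) * u i = 0 := by linear_combination hi
        exact (mul_eq_zero.1 this).resolve_left (sub_ne_zero.2 (by exact_mod_cast e))
      simp [this]
  rw [mfun_of_hermitian φ hA, ← hU, ← mulVec_mulVec, ← mulVec_mulVec, ← hu, h2, mulVec_smul, hw]

theorem eigvec_of_max {A : Matrix (Fin N) (Fin N) ℂ} (hA : A.IsHermitian) {c : ℝ}
    (hle : ∀ v, General.qf A v ≤ c * General.nsq v) {w : Fin N → ℂ}
    (heq : General.qf A w = c * General.nsq w) : A *ᵥ w = (c : ℂ) • w := by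
  set B := (c : ℂ) • (1 : Matrix (Fin N) (Fin N) ℂ) - A with hB
  have hBh : B.IsHermitian := IsHermitian.sub (by simp [Matrix.IsHermitian, conjTranspose_smul]) hA
  have hq : ∀ v, (star v ⬝ᵥ B *ᵥ v).re = c * General.nsq v - General.qf A v := fun v => by
    rw [← General.qf_one, ← General.qf_smul, ← General.qf_sub]
    rfl
  have hre : ∀ v, star v ⬝ᵥ B *ᵥ v = ((c * General.nsq v - General.qf A v : ℝ) : ℂ) := fun v => by
    have him : RCLike.im (star v ⬝ᵥ B *ᵥ v) = 0 := hBh.im_star_dotProduct_mulVec_self v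
    exact Complex.ext (by simpa using hq v) (by simpa using him)
  have hp : B.PosSemidef := PosSemidef.of_dotProduct_mulVec_nonneg hBh fun v => by
    rw [hre]
    exact Complex.zero_le_real.2 (sub_nonneg.2 (hle v))
  have h0 := (hp.dotProduct_mulVec_zero_iff w).1 (by rw [hre, heq]; simp)
  rw [hB, sub_mulVec, smul_mulVec, one_mulVec, sub_eq_zero] at h0
  exact h0.symm

theorem qf_smul_vec (A : Matrix (Fin N) (Fin N) ℂ) (r : ℝ) (v : Fin N → ℂ) :
    General.qf A ((r : ℂ) • v) = r ^ 2 * General.qf A v := by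
  simp [General.qf, mulVec_smul, dotProduct_smul, smul_dotProduct]
  ring

theorem nsq_smul_vec (r : ℝ) (v : Fin N → ℂ) :
    General.nsq ((r : ℂ) • v) = r ^ 2 * General.nsq v := by
  rw [← General.qf_one, qf_smul_vec, General.qf_one]

theorem nsq_eq_zero_vec {v : Fin N → ℂ} (h : General.nsq v = 0) : v = 0 := by
  funext i
  exact Complex.normSq_eq_zero.1 ((Finset.sum_eq_zero_iff_of_nonneg
    fun i _ => Complex.normSq_nonneg _).1 h i (Finset.mem_univ i))

/-- A bound on unit vectors holds on all vectors. -/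
theorem qf_le_of_unit {A : Matrix (Fin N) (Fin N) ℂ} {c : ℝ}
    (h : ∀ w, General.nsq w = 1 → General.qf A w ≤ c) (v : Fin N → ℂ) :
    General.qf A v ≤ c * General.nsq v := by
  rcases (General.nsq_nonneg v).eq_or_lt with h0 | h0
  · simp [nsq_eq_zero_vec h0.symm, General.qf, General.nsq]
  · set r := (Real.sqrt (General.nsq v))⁻¹ with hr
    have hr2 : r ^ 2 * General.nsq v = 1 := by
      rw [hr, inv_pow, Real.sq_sqrt h0.le, inv_mul_cancel₀ h0.ne']
    have := h ((r : ℂ) • v) (by rw [nsq_smul_vec, hr2])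
    rw [qf_smul_vec] at this
    calc General.qf A v = r ^ 2 * General.qf A v * General.nsq v := by
          rw [mul_right_comm, hr2, one_mul]
      _ ≤ c * General.nsq v := mul_le_mul_of_nonneg_right this h0.le

theorem isCompact_unit : IsCompact {w : Fin N → ℂ | General.nsq w = 1} := by
  refine (isCompact_closedBall (0 : Fin N → ℂ) 1).of_isClosed_subset
    (isClosed_eq (by unfold General.nsq; fun_prop) continuous_const) fun w hw => ?_
  rw [mem_closedBall_zero_iff, pi_norm_le_iff_of_nonneg zero_le_one]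
  intro i
  have h : ‖w i‖ ^ 2 ≤ General.nsq w := by
    rw [← Complex.normSq_eq_norm_sq]
    exact Finset.single_le_sum (f := fun i => Complex.normSq (w i))
      (fun i _ => Complex.normSq_nonneg _) (Finset.mem_univ i)
  rw [show General.nsq w = 1 from hw] at h
  exact (sq_le_one_iff₀ (norm_nonneg _)).1 h

theorem hasDerivWithinAt_qf {F : ℝ → Matrix (Fin N) (Fin N) ℂ} {F' : Matrix (Fin N) (Fin N) ℂ}
    {s : Set ℝ} {x : ℝ} (h : HasDerivWithinAt F F' s x) (w : Fin N → ℂ) :
    HasDerivWithinAt (fun y => General.qf (F y) w) (General.qf F' w) s x := by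
  let Q : Matrix (Fin N) (Fin N) ℂ →ₗ[ℝ] ℝ :=
    { toFun := fun A => General.qf A w
      map_add' := fun A B => General.qf_add A B w
      map_smul' := fun r A => by
        rw [show r • A = (r : ℂ) • A by ext i j; simp, General.qf_smul]
        rfl }
  exact Q.toContinuousLinearMap.hasFDerivAt.comp_hasDerivWithinAt x h

/-- The largest eigenvalue cannot cross a level at which the flow points inwards. -/
theorem eigen_barrier {a b R : ℝ} {F F' : ℝ → Matrix (Fin N) (Fin N) ℂ}
    (hd : ∀ x ∈ Icc a b, HasDerivWithinAt F (F' x) (Icc a b) x)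
    (hH : ∀ x ∈ Icc a b, (F x).IsHermitian)
    (hstart : ∀ v, General.qf (F a) v ≤ R * General.nsq v)
    (hcross : ∀ x ∈ Icc a b, ∀ w c, R < c → General.nsq w = 1 → F x *ᵥ w = (c : ℂ) • w →
      General.qf (F' x) w ≤ 0) :
    ∀ x ∈ Icc a b, ∀ v, General.qf (F x) v ≤ R * General.nsq v := by
  intro x hx v
  refine qf_le_of_unit (fun w hw => le_of_forall_pos_le_add fun e he => ?_) v
  set ε := e / (b - a + 1) with hεd
  have hab : a ≤ b := hx.1.trans hx.2
  have hε : 0 < ε := div_pos he (by linarith)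
  suffices h : General.qf (F x) w ≤ R + ε * (x - a + 1) by
    refine h.trans (add_le_add le_rfl ?_)
    rw [hεd, div_mul_eq_mul_div, div_le_iff₀ (by linarith)]
    nlinarith [hx.2]
  by_contra hbad
  push Not at hbad
  have hc : ContinuousOn F (Icc a b) := fun y hy => (hd y hy).continuousWithinAt
  set h : ℝ × (Fin N → ℂ) → ℝ := fun p => General.qf (F p.1) p.2 - (R + ε * (p.1 - a + 1)) with hh
  have hcont : ContinuousOn h (Icc a b ×ˢ {w | General.nsq w = 1}) := by
    simp only [hh, General.qf, dotProduct, mulVec]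
    have hFij : ∀ i j, ContinuousOn (fun p : ℝ × (Fin N → ℂ) => F p.1 i j)
        (Icc a b ×ˢ {w | General.nsq w = 1}) := fun i j =>
      (continuous_id.matrix_elem i j).comp_continuousOn
        (hc.comp continuousOn_fst fun p hp => hp.1)
    refine ContinuousOn.sub (Complex.continuous_re.comp_continuousOn ?_) (by fun_prop)
    refine continuousOn_finsetSum _ fun i _ => ContinuousOn.mul ?_ ?_
    · exact ((continuous_apply i).comp continuous_snd).star.continuousOn
    · exact continuousOn_finsetSum _ fun j _ =>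
        (hFij i j).mul ((continuous_apply j).comp continuous_snd).continuousOn
  have hcpt : IsCompact ((Icc a b ×ˢ {w | General.nsq w = 1}) ∩ h ⁻¹' Ici 0) :=
    (isCompact_Icc.prod isCompact_unit).of_isClosed_subset
      (hcont.preimage_isClosed_of_isClosed (isCompact_Icc.prod isCompact_unit).isClosed
        isClosed_Ici) inter_subset_left
  obtain ⟨x₀, ⟨⟨y, w₀⟩, ⟨⟨hy, hw₀⟩, hy0⟩, rfl⟩, hmin⟩ :=
    (hcpt.image continuous_fst).exists_isLeast
      ⟨x, (x, w), ⟨⟨hx, hw⟩, by simp only [hh, mem_preimage, mem_Ici]; linarith⟩, rfl⟩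
  simp only [hh, mem_preimage, mem_Ici] at hy hy0 hmin ⊢
  have hw₀' : General.nsq w₀ = 1 := hw₀
  have hlt : ∀ z ∈ Ico a y, ∀ u, General.nsq u = 1 →
      General.qf (F z) u < R + ε * (z - a + 1) := by
    intro z hz u hu
    by_contra hge
    push Not at hge
    have : y ≤ z := hmin ⟨(z, u), ⟨⟨⟨hz.1, hz.2.le.trans hy.2⟩, hu⟩, by
      simp only [mem_preimage, mem_Ici]; linarith⟩, rfl⟩
    linarith [hz.2]
  have hay : a < y := by
    refine lt_of_le_of_ne hy.1 fun e' => ?_
    have := hstart w₀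
    rw [hw₀', mul_one, e'] at this
    subst e'
    nlinarith
  have hle : ∀ u, General.nsq u = 1 → General.qf (F y) u ≤ R + ε * (y - a + 1) := by
    intro u hu
    have ht : Tendsto (fun z => General.qf (F z) u - (R + ε * (z - a + 1))) (𝓝[Ico a y] y)
        (𝓝 (General.qf (F y) u - (R + ε * (y - a + 1)))) :=
      ((hasDerivWithinAt_qf (hd y hy) u).continuousWithinAt.mono
        fun z hz => ⟨hz.1, hz.2.le.trans hy.2⟩).sub
          (Continuous.continuousWithinAt (by fun_prop))
    have : (𝓝[Ico a y] y).NeBot := right_nhdsWithin_Ico_neBot hay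
    have := le_of_tendsto ht (eventually_nhdsWithin_of_forall fun z hz => (sub_nonpos.2
      (hlt z hz u hu).le))
    linarith
  have heq : General.qf (F y) w₀ = R + ε * (y - a + 1) := le_antisymm (hle w₀ hw₀') (by linarith)
  have hev := eigvec_of_max (hH y hy) (qf_le_of_unit hle) (w := w₀) (by rw [heq, hw₀', mul_one])
  have hd0 := hcross y hy w₀ _ (by nlinarith [mul_pos hε (show 0 < y - a + 1 by linarith)]) hw₀' hev
  set g : ℝ → ℝ := fun z => General.qf (F z) w₀ - (R + ε * (z - a + 1)) with hg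
  have hgd : HasDerivWithinAt g (General.qf (F' y) w₀ - ε) (Ico a y) y := by
    have h1 := (hasDerivWithinAt_qf (hd y hy) w₀).mono
      (fun z (hz : z ∈ Ico a y) => (⟨hz.1, hz.2.le.trans hy.2⟩ : z ∈ Icc a b))
    have h2 : HasDerivWithinAt (fun z : ℝ => R + ε * (z - a + 1)) ε (Ico a y) y := by
      simpa using ((((hasDerivWithinAt_id y (Ico a y)).sub_const a).add_const 1).const_mul
        ε).const_add R
    exact h1.sub h2
  have hne : y ∉ Ico a y := fun h' => lt_irrefl _ h'.2
  rw [hasDerivWithinAt_iff_tendsto_slope' hne] at hgd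
  have : (𝓝[Ico a y] y).NeBot := right_nhdsWithin_Ico_neBot hay
  have hge : 0 ≤ General.qf (F' y) w₀ - ε := by
    refine ge_of_tendsto hgd (eventually_nhdsWithin_of_forall fun z hz => ?_)
    rw [slope_def_field]
    have h1 : g z < 0 := sub_neg.2 (hlt z hz w₀ hw₀')
    have h2 : g y = 0 := by simp [hg, heq]
    rw [h2, sub_zero]
    exact div_nonneg_of_nonpos h1.le (sub_nonpos.2 hz.2.le)
  linarith

end Vale.Agent.P371.All
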