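import Vale.Agent.P371.All.Layer
import Vale.Agent.P371.All.LayerBound

/-!
# P371: the pointwise bound of the layered potential
-/

namespace Vale.Agent.P371.All

open Matrix MeasureTheory Set Filter
open scoped ComplexOrder ComplexConjugate Topology

variable {N : ℕ}

/-- The scalar layer `2√(r+l) - 2√l - r/√l`. -/
noncomputable def sLayer (r l : ℝ) : ℝ := 2 * Real.sqrt (r + l) - 2 * Real.sqrt l - r / Real.sqrt l

lemma sLayer_nonpos {r l : ℝ} (hr : 0 ≤ r) (hl : 0 < l) : sLayer r l ≤ 0 := by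
  have hs : 0 < Real.sqrt l := Real.sqrt_pos.2 hl
  have h1 := Real.mul_self_sqrt hl.le
  have h2 := Real.mul_self_sqrt (show (0 : ℝ) ≤ r + l by linarith)
  have e : sLayer r l = -(Real.sqrt (r + l) - Real.sqrt l) ^ 2 / Real.sqrt l := by
    rw [sLayer]; field_simp; linear_combination h2 - h1
  rw [e, neg_div, neg_nonpos]; positivity

lemma abs_sLayer_le {r l : ℝ} (hr : 0 ≤ r) (hl : 0 < l) :
    |sLayer r l| ≤ r / Real.sqrt l ∧ |sLayer r l| ≤ r ^ 2 / (l * Real.sqrt l) := by
  have hs : 0 < Real.sqrt l := Real.sqrt_pos.2 hl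
  have h1 := Real.mul_self_sqrt hl.le
  have h2 := Real.mul_self_sqrt (show (0 : ℝ) ≤ r + l by linarith)
  have hle : Real.sqrt l ≤ Real.sqrt (r + l) := Real.sqrt_le_sqrt (by linarith)
  have e : sLayer r l = -(Real.sqrt (r + l) - Real.sqrt l) ^ 2 / Real.sqrt l := by
    rw [sLayer]; field_simp; linear_combination h2 - h1
  rw [abs_of_nonpos (sLayer_nonpos hr hl), e, neg_div, neg_neg]
  set d := Real.sqrt (r + l) - Real.sqrt l with hd
  have hd0 : 0 ≤ d := by linarith
  have hdr : d * (Real.sqrt (r + l) + Real.sqrt l) = r := by rw [hd]; linear_combination h2 - h1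
  refine ⟨div_le_div_of_nonneg_right ?_ hs.le, ?_⟩
  · nlinarith [mul_nonneg hd0 hs.le]
  · have hdl : d * Real.sqrt l ≤ r := by nlinarith [mul_nonneg hd0 (Real.sqrt_nonneg (r + l))]
    rw [div_le_div_iff₀ hs (mul_pos hl hs)]
    have := mul_self_le_mul_self (mul_nonneg hd0 hs.le) hdl
    nlinarith [mul_nonneg hs.le hs.le]

lemma measurable_sLayer (β r : ℝ) : Measurable fun l : ℝ => l ^ β * sLayer r l := by
  unfold sLayer; fun_prop

/-- A weight dominated by `l^(-1/2)` near `0` and by `l^(-3/2)` at infinity is integrable. -/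
lemma integrableOn_of_layer_bound {ν C : ℝ} (h0 : 0 < ν) (h1 : ν < 1) {f : ℝ → ℝ}
    (hf : AEStronglyMeasurable (fun l => l ^ (ν - 1 / 2) * f l) (volume.restrict (Ioi 0)))
    (hb : ∀ l, 0 < l → |f l| ≤ C * min (1 / Real.sqrt l) (1 / (l * Real.sqrt l))) :
    IntegrableOn (fun l => l ^ (ν - 1 / 2) * f l) (Ioi 0) := by
  have hC : 0 ≤ C := by
    have := hb 1 one_pos
    simp at this
    exact le_trans (abs_nonneg _) this
  have e : ∀ l, 0 < l → l ^ (ν - 1 / 2) * (1 / Real.sqrt l) = l ^ (ν - 1) := fun l hl => by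
    rw [Real.sqrt_eq_rpow, one_div (l ^ (1 / 2 : ℝ)), ← Real.rpow_neg hl.le, ← Real.rpow_add hl]
    ring_nf
  have e2 : ∀ l, 0 < l → l ^ (ν - 1 / 2) * (1 / (l * Real.sqrt l)) = l ^ (ν - 2) := fun l hl => by
    rw [show 1 / (l * Real.sqrt l) = l⁻¹ * (1 / Real.sqrt l) by field_simp, mul_left_comm, e l hl,
      ← Real.rpow_neg_one, ← Real.rpow_add hl]
    ring_nf
  rw [← Ioc_union_Ioi_eq_Ioi zero_le_one]
  refine IntegrableOn.union ?_ ?_
  · have hint : IntegrableOn (fun t : ℝ => C * t ^ (ν - 1)) (Ioc 0 1) :=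
      ((intervalIntegrable_iff_integrableOn_Ioc_of_le zero_le_one).1
        (intervalIntegral.intervalIntegrable_rpow' (by linarith))).const_mul C
    refine Integrable.mono' hint (hf.mono_set Ioc_subset_Ioi_self) ?_
    filter_upwards [self_mem_ae_restrict measurableSet_Ioc] with l hl
    rw [Real.norm_eq_abs, abs_mul, abs_of_nonneg (Real.rpow_nonneg hl.1.le _)]
    refine (mul_le_mul_of_nonneg_left ((hb l hl.1).trans
      (mul_le_mul_of_nonneg_left (min_le_left _ _) hC)) (Real.rpow_nonneg hl.1.le _)).trans_eq ?_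
    rw [← e l hl.1]; ring
  · have hint : IntegrableOn (fun t : ℝ => C * t ^ (ν - 2)) (Ioi 1) :=
      (integrableOn_Ioi_rpow_of_lt (by linarith) zero_lt_one).const_mul C
    refine Integrable.mono' hint (hf.mono_set (Ioi_subset_Ioi zero_le_one)) ?_
    filter_upwards [self_mem_ae_restrict measurableSet_Ioi] with l hl
    have hl0 : 0 < l := zero_lt_one.trans hl
    rw [Real.norm_eq_abs, abs_mul, abs_of_nonneg (Real.rpow_nonneg hl0.le _)]
    refine (mul_le_mul_of_nonneg_left ((hb l hl0).trans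
      (mul_le_mul_of_nonneg_left (min_le_right _ _) hC)) (Real.rpow_nonneg hl0.le _)).trans_eq ?_
    rw [← e2 l hl0]; ring

lemma integrableOn_sLayer {ν r : ℝ} (h0 : 0 < ν) (h1 : ν < 1) (hr : 0 ≤ r) :
    IntegrableOn (fun l => l ^ (ν - 1 / 2) * sLayer r l) (Ioi 0) := by
  refine integrableOn_of_layer_bound (C := max r (r ^ 2)) h0 h1
    (measurable_sLayer _ _).aestronglyMeasurable fun l hl => ?_
  have hs : 0 < Real.sqrt l := Real.sqrt_pos.2 hl
  obtain ⟨ha, hb⟩ := abs_sLayer_le hr hl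
  rw [mul_min_of_nonneg _ _ (le_max_of_le_left hr)]
  refine le_min (ha.trans ?_) (hb.trans ?_) <;> rw [div_eq_mul_one_div]
  · exact mul_le_mul_of_nonneg_right (le_max_left _ _) (by positivity)
  · exact mul_le_mul_of_nonneg_right (le_max_right _ _) (by positivity)

/-- Tendsto to `0` at both ends of `(0, ∞)` of `l^(ν+1/2) f`, for `f` with the layer bounds. -/
lemma tendsto_layer_ends {ν C : ℝ} (h0 : 0 < ν) (h1 : ν < 1) {f : ℝ → ℝ}
    (ha : ∀ᶠ l in 𝓝[>] 0, |f l| ≤ C * (1 + 1 / Real.sqrt l))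
    (hb : ∀ᶠ l in atTop, |f l| ≤ C / (l * Real.sqrt l)) :
    Tendsto (fun l => l ^ (ν + 1 / 2) * f l) (𝓝[>] 0) (𝓝 0) ∧
      Tendsto (fun l => l ^ (ν + 1 / 2) * f l) atTop (𝓝 0) := by
  constructor
  · have hz : Tendsto (fun l : ℝ => C * (l ^ (ν + 1 / 2) + l ^ ν)) (𝓝[>] 0) (𝓝 0) := by
      have hc : Continuous fun l : ℝ => C * (l ^ (ν + 1 / 2) + l ^ ν) :=
        continuous_const.mul ((Real.continuous_rpow_const (by linarith)).add
          (Real.continuous_rpow_const h0.le))
      have := (hc.tendsto 0).mono_left (nhdsWithin_le_nhds (s := Ioi 0))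
      rwa [Real.zero_rpow (by linarith), Real.zero_rpow h0.ne', add_zero, mul_zero] at this
    refine squeeze_zero_norm' ?_ hz
    filter_upwards [ha, self_mem_nhdsWithin] with l hl hl0
    have hl' : (0 : ℝ) < l := hl0
    rw [Real.norm_eq_abs, abs_mul, abs_of_nonneg (Real.rpow_nonneg hl'.le _)]
    refine (mul_le_mul_of_nonneg_left hl (Real.rpow_nonneg hl'.le _)).trans_eq ?_
    have : l ^ ν = l ^ (ν + 1 / 2) * (1 / Real.sqrt l) := by
      rw [Real.sqrt_eq_rpow, one_div (l ^ (1 / 2 : ℝ)), ← Real.rpow_neg hl'.le, ← Real.rpow_add hl']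
      ring_nf
    rw [this]; ring
  · have hz : Tendsto (fun l : ℝ => C * l ^ (-(1 - ν))) atTop (𝓝 0) := by
      simpa using (tendsto_rpow_neg_atTop (by linarith : 0 < 1 - ν)).const_mul C
    refine squeeze_zero_norm' ?_ hz
    filter_upwards [hb, eventually_gt_atTop 0] with l hl hl'
    rw [Real.norm_eq_abs, abs_mul, abs_of_nonneg (Real.rpow_nonneg hl'.le _)]
    refine (mul_le_mul_of_nonneg_left hl (Real.rpow_nonneg hl'.le _)).trans_eq ?_
    have : l ^ (-(1 - ν)) = l ^ (ν + 1 / 2) * (1 / (l * Real.sqrt l)) := by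
      rw [show 1 / (l * Real.sqrt l) = l⁻¹ * (1 / Real.sqrt l) by field_simp, Real.sqrt_eq_rpow,
        one_div (l ^ (1 / 2 : ℝ)), ← Real.rpow_neg hl'.le, ← Real.rpow_neg_one,
        ← Real.rpow_add hl', ← Real.rpow_add hl']
      ring_nf
    rw [this]; ring

lemma integral_sLayer_one {ν : ℝ} (h0 : 0 < ν) (h1 : ν < 1) :
    ∫ l in Ioi (0 : ℝ), l ^ (ν - 1 / 2) * sLayer 1 l = -(General.lcoef ν / (1 + ν)) := by
  have hA := integrableOn_sLayer h0 h1 zero_le_one
  have hB := General.integrableOn_layer h0 h1 zero_le_one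
  set g : ℝ → ℝ := fun l => l ^ (ν + 1 / 2) * sLayer 1 l with hg
  set g' : ℝ → ℝ := fun l => (ν + 1) * (l ^ (ν - 1 / 2) * sLayer 1 l)
    + l ^ (ν - 1 / 2) * (1 / Real.sqrt l - 1 / Real.sqrt (1 + l)) with hg'
  have hd : ∀ l ∈ Ioi (0 : ℝ), HasDerivAt g (g' l) l := by
    intro l hl
    have hl0 : (0 : ℝ) < l := hl
    have hs : 0 < Real.sqrt l := Real.sqrt_pos.2 hl0
    have hT : 0 < Real.sqrt (1 + l) := Real.sqrt_pos.2 (by linarith)
    have d1 := ((hasDerivAt_id l).const_add 1).sqrt (show 1 + id l ≠ 0 by simp only [id]; positivity)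
    have d2 := (hasDerivAt_id l).sqrt hl0.ne'
    have d3 := d2.inv hs.ne'
    have d := (Real.hasDerivAt_rpow_const (p := ν + 1 / 2) (Or.inl hl0.ne')).mul
      (((d1.const_mul 2).sub (d2.const_mul 2)).sub d3)
    have e : g = fun x => x ^ (ν + 1 / 2) * (2 * Real.sqrt (1 + id x) - 2 * Real.sqrt (id x)
        - (Real.sqrt (id x))⁻¹) := by
      funext x; simp only [hg, sLayer, id, one_div]
    rw [e]
    refine d.congr_deriv ?_
    simp only [hg', sLayer, id, Pi.sub_apply, Pi.inv_apply]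
    rw [show ν + 1 / 2 - 1 = ν - 1 / 2 by ring, show ν + 1 / 2 = ν - 1 / 2 + 1 by ring,
      Real.rpow_add hl0, Real.rpow_one]
    have h1' := Real.mul_self_sqrt hl0.le
    have h2' := Real.mul_self_sqrt (show (0 : ℝ) ≤ 1 + l by linarith)
    field_simp
    grind
  have hint : IntegrableOn g' (Ioi 0) := (hA.const_mul _).add hB
  obtain ⟨C, hC, hl0, hl1⟩ : ∃ C, 0 ≤ C ∧ (∀ᶠ l in 𝓝[>] (0 : ℝ), |sLayer 1 l| ≤ C * (1 + 1 / Real.sqrt l))
      ∧ ∀ᶠ l in atTop, |sLayer 1 l| ≤ C / (l * Real.sqrt l) := by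
    refine ⟨1, zero_le_one, ?_, ?_⟩
    · filter_upwards [self_mem_nhdsWithin] with l hl
      have := (abs_sLayer_le zero_le_one (show (0 : ℝ) < l from hl)).1
      linarith
    · filter_upwards [eventually_gt_atTop 0] with l hl
      simpa using (abs_sLayer_le zero_le_one hl).2
  obtain ⟨ht0, ht1⟩ := tendsto_layer_ends h0 h1 hl0 hl1
  have h := integral_Ioi_of_hasDerivAt_of_tendsto
    (f := Function.update g 0 0) (f' := g') (m := 0) (a := 0) ?_ ?_ hint ?_
  · rw [Function.update_self, sub_zero, hg', integral_add (hA.const_mul _) hB,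
      integral_const_mul] at h
    have hl := General.integral_layer (ν := ν) (x := 1) zero_lt_one
    rw [Real.one_rpow, one_mul] at hl
    rw [hl] at h
    rw [← neg_div, eq_div_iff (by linarith)]
    linear_combination h
  · have : Tendsto (Function.update g 0 0) (𝓝[Ici 0] 0) (𝓝 (Function.update g 0 0 0)) := by
      rw [Function.update_self, ← Ioi_insert, nhdsWithin_insert, tendsto_sup]
      refine ⟨by simpa using (tendsto_pure_nhds (Function.update g 0 0) 0), ?_⟩
      refine ht0.congr' ?_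
      filter_upwards [self_mem_nhdsWithin] with l hl
      rw [Function.update_of_ne (ne_of_gt hl)]
    exact this
  · intro l hl
    exact (hd l hl).congr_of_eventuallyEq (by
      filter_upwards [Ioi_mem_nhds (show (0 : ℝ) < l from hl)] with y hy
      rw [Function.update_of_ne (ne_of_gt hy)])
  · refine ht1.congr' ?_
    filter_upwards [eventually_gt_atTop 0] with l hl
    rw [Function.update_of_ne (ne_of_gt hl)]

lemma integral_sLayer {ν r : ℝ} (h0 : 0 < ν) (h1 : ν < 1) (hr : 0 ≤ r) :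
    ∫ l in Ioi (0 : ℝ), l ^ (ν - 1 / 2) * sLayer r l
      = -(General.lcoef ν / (1 + ν)) * r ^ (1 + ν) := by
  rcases hr.eq_or_lt with rfl | hr
  · simp [sLayer, Real.zero_rpow (by linarith : (1 : ℝ) + ν ≠ 0)]
  · have h := integral_comp_mul_left_Ioi (fun l => l ^ (ν - 1 / 2) * sLayer r l) 0 hr
    rw [mul_zero, smul_eq_mul] at h
    have e : ∀ t ∈ Ioi (0 : ℝ), (r * t) ^ (ν - 1 / 2) * sLayer r (r * t)
        = r ^ ν * (t ^ (ν - 1 / 2) * sLayer 1 t) := by
      intro t ht
      have ht0 : (0 : ℝ) < t := ht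
      have hsr : 0 < Real.sqrt r := Real.sqrt_pos.2 hr
      have hrν : r ^ ν = r ^ (ν - 1 / 2) * Real.sqrt r := by
        rw [Real.sqrt_eq_rpow, ← Real.rpow_add hr]; ring_nf
      rw [Real.mul_rpow hr.le ht0.le, sLayer, sLayer, show r + r * t = r * (1 + t) by ring,
        Real.sqrt_mul hr.le, Real.sqrt_mul hr.le, hrν]
      have := Real.mul_self_sqrt hr.le
      have : 0 < Real.sqrt t := Real.sqrt_pos.2 ht0
      field_simp
      grind
    rw [setIntegral_congr_fun measurableSet_Ioi e, integral_const_mul, integral_sLayer_one h0 h1] at h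
    rw [show r ^ (1 + ν) = r * r ^ ν by rw [Real.rpow_add hr, Real.rpow_one]]
    rw [inv_mul_eq_div, eq_div_iff hr.ne'] at h
    linarith [h]

lemma measurable_layerPair (P F H : Matrix (Fin N) (Fin N) ℂ) :
    Measurable fun l : ℝ => layerPair P F H l := by
  have hp : Continuous fun p : ℝ × ℝ => General.pencil P F p.2 p.1 := by
    unfold General.pencil; fun_prop
  have hi : ∀ i j, Measurable fun p : ℝ × ℝ => (General.pencil P F p.2 p.1)⁻¹ i j := by
    intro i j
    simp only [Matrix.inv_def, Matrix.smul_apply, smul_eq_mul, Ring.inverse_eq_inv']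
    exact (hp.matrix_det.measurable.inv).mul
      ((hp.matrix_adjugate.matrix_elem i j).measurable)
  have hz : ∀ i j, Measurable fun l : ℝ => layerZ P F l i j := fun i j =>
    measurable_const.mul ((hi i j).stronglyMeasurable.integral_prod_right).measurable
  unfold layerPair
  simp only [Matrix.trace, Matrix.diag_apply, Matrix.mul_apply]
  fun_prop

/-- `2 tr T - tr Z⁻¹ ≤ tr Z T²` for positive definite `Z`. -/
lemma trace_square_ge {Z T : Matrix (Fin N) (Fin N) ℂ} (hZ : Z.PosDef) (hT : T.IsHermitian) :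
    2 * T.trace.re - Z⁻¹.trace.re ≤ (Z * (T * T)).trace.re := by
  have h := (hZ.posSemidef.conjTranspose_mul_mul_same (T - Z⁻¹)).trace_nonneg
  have hu : IsUnit Z.det := (Matrix.isUnit_iff_isUnit_det _).1 hZ.isUnit
  rw [conjTranspose_sub, hT.eq, conjTranspose_nonsing_inv, hZ.isHermitian.eq,
    Matrix.sub_mul, Matrix.mul_sub, Matrix.nonsing_inv_mul _ hu, Matrix.sub_mul, Matrix.one_mul,
    Matrix.sub_mul, Matrix.one_mul, Matrix.mul_assoc T Z Z⁻¹, Matrix.mul_nonsing_inv _ hu,
    Matrix.mul_one, Matrix.trace_sub, Matrix.trace_sub, Matrix.trace_sub] at h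
  have h' := (Complex.le_def.1 h).1
  simp only [Complex.zero_re, Complex.sub_re] at h'
  rw [Matrix.trace_mul_comm (T * Z) T, ← Matrix.mul_assoc, Matrix.trace_mul_comm (T * T) Z] at h'
  linarith

/-- The pointwise bound of the layered potential. -/
theorem pointwise_bound {ν : ℝ} (h0 : 0 < ν) (h1 : ν < 1) {P F V : Matrix (Fin N) (Fin N) ℂ}
    (hP : P.IsHermitian) (hF : F.IsHermitian) {ε : ℝ} (hε : 0 < ε) (hm : Margin P F ε)
    (hV : V.PosSemidef) :
    -(General.lcoef ν * dissConst ν * trPowAt (1 + ν) V) ≤ potPair ν P F (P - F * F - V) := by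
  set q : ℝ := (1 + ν) / ν with hqdef
  have hq : 0 < q := by positivity
  set U : Matrix (Fin N) (Fin N) ℂ :=
    (hV.1.eigenvectorUnitary : Matrix (Fin N) (Fin N) ℂ) with hUdef
  set v := hV.1.eigenvalues with hvdef
  have hv : ∀ i, 0 ≤ v i / q := fun i => div_nonneg (hV.eigenvalues_nonneg i) hq.le
  have hU1 : Uᴴ * U = 1 := Matrix.mem_unitaryGroup_iff'.1 hV.1.eigenvectorUnitary.2
  have hU2 : U * Uᴴ = 1 := Matrix.mem_unitaryGroup_iff.1 hV.1.eigenvectorUnitary.2
  have hspec : V = U * diagonal (fun i => (v i : ℂ)) * Uᴴ := by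
    conv_lhs => rw [hV.1.spectral_theorem, Unitary.conjStarAlgAut_apply, star_eq_conjTranspose]
    rfl
  set X := P - F * F with hX
  set x : ℝ := X.trace.re with hx
  set w : ℝ → ℝ := fun l => l ^ (ν - 1 / 2) with hw
  -- the lower layer
  set g0 : ℝ → ℝ := fun l => q * ∑ i, w l * sLayer (v i / q) l with hg0
  set φ : ℝ → ℝ := fun l => l ^ (ν + 1 / 2) *
    (layerSig P F l - N * Real.sqrt l - x / (2 * Real.sqrt l)) with hφ
  set φ' : ℝ → ℝ := fun l => w l * ((ν + 1 / 2) * (layerSig P F l - N * Real.sqrt l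
      - x / (2 * Real.sqrt l)) + l * ((layerZ P F l).trace.re / 2 - N / (2 * Real.sqrt l)
      + x / (4 * l * Real.sqrt l))) with hφ'
  set h : ℝ → ℝ := fun l => w l * layerPair P F (X - V) l with hh
  have hd : ∀ l, 0 < l → HasDerivAt φ (φ' l) l := by
    intro l hl
    have hs : 0 < Real.sqrt l := Real.sqrt_pos.2 hl
    have d2 := (hasDerivAt_id l).sqrt hl.ne'
    have d3 := (hasDerivAt_const l x).div (d2.const_mul 2) (by positivity)
    have d := (Real.hasDerivAt_rpow_const (p := ν + 1 / 2) (Or.inl hl.ne')).mul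
      (((hasDerivAt_layerSig hP hF hε hl hm).sub (d2.const_mul (N : ℝ))).sub d3)
    refine d.congr_deriv ?_
    simp only [hφ', hw, id, Pi.sub_apply, Pi.div_apply]
    rw [show ν + 1 / 2 - 1 = ν - 1 / 2 by ring, show ν + 1 / 2 = ν - 1 / 2 + 1 by ring,
      Real.rpow_add hl, Real.rpow_one]
    have := Real.mul_self_sqrt hl.le
    field_simp
    grind
  have hpt : ∀ l, 0 < l → g0 l - 2 * (q - 1) * φ' l ≤ h l := by
    intro l hl
    have hs : 0 < Real.sqrt l := Real.sqrt_pos.2 hl
    set Z := layerZ P F l with hZdef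
    have hA := layer_ineq hP hF hε hl.le hm
    have hZ := layerZ_posDef hP hF hε hl.le hm
    set T : Matrix (Fin N) (Fin N) ℂ :=
      U * diagonal (fun i => ((Real.sqrt (v i / q + l) : ℝ) : ℂ)) * Uᴴ with hTdef
    have hT : T.IsHermitian := Matrix.isHermitian_mul_mul_conjTranspose _
      (Matrix.isHermitian_diagonal_iff.2 fun i => by simp [IsSelfAdjoint])
    have hTT : T * T = ((q⁻¹ : ℝ) : ℂ) • V + (l : ℂ) • 1 := by
      have e : diagonal (fun i => ((Real.sqrt (v i / q + l) : ℝ) : ℂ)) *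
          diagonal (fun i => ((Real.sqrt (v i / q + l) : ℝ) : ℂ))
          = ((q⁻¹ : ℝ) : ℂ) • diagonal (fun i => (v i : ℂ)) + (l : ℂ) • 1 := by
        rw [diagonal_mul_diagonal, ← diagonal_one, ← diagonal_smul, ← diagonal_smul, diagonal_add]
        congr 1
        funext i
        rw [← Complex.ofReal_mul, Real.mul_self_sqrt (by linarith [hv i])]
        simp [div_eq_inv_mul]
      rw [hTdef, show U * diagonal (fun i => ((Real.sqrt (v i / q + l) : ℝ) : ℂ)) * Uᴴ *
          (U * diagonal (fun i => ((Real.sqrt (v i / q + l) : ℝ) : ℂ)) * Uᴴ)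
          = U * (diagonal (fun i => ((Real.sqrt (v i / q + l) : ℝ) : ℂ)) * (Uᴴ * U) *
            diagonal (fun i => ((Real.sqrt (v i / q + l) : ℝ) : ℂ))) * Uᴴ by
        simp only [Matrix.mul_assoc], hU1, Matrix.mul_one, e, Matrix.mul_add, Matrix.add_mul,
        Matrix.mul_smul, Matrix.smul_mul, Matrix.mul_smul, Matrix.smul_mul, Matrix.mul_one, hU2,
        ← hspec]
    have hTtr : T.trace.re = ∑ i, Real.sqrt (v i / q + l) := by
      rw [hTdef, Matrix.trace_mul_comm, ← Matrix.mul_assoc, hU1, Matrix.one_mul,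
        Matrix.trace_diagonal]
      simp
    have hVtr : V.trace.re = ∑ i, v i := by
      rw [hV.1.trace_eq_sum_eigenvalues]; simp [hvdef]
    have hB := trace_square_ge hZ hT
    rw [hTT, Matrix.mul_add, Matrix.trace_add, Matrix.mul_smul, Matrix.mul_smul, Matrix.mul_one,
      Matrix.trace_smul, Matrix.trace_smul, smul_eq_mul, smul_eq_mul, Complex.add_re,
      Complex.re_ofReal_mul, Complex.re_ofReal_mul, hTtr] at hB
    rw [Matrix.mul_add, Matrix.trace_add, Matrix.mul_smul, Matrix.mul_one, Matrix.trace_smul,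
      smul_eq_mul, Complex.add_re, Complex.re_ofReal_mul] at hA
    change 2 * (∑ i, Real.sqrt (v i / q + l)) - layerSig P F l ≤ _ at hB
    have eh : h l = w l * (x / Real.sqrt l - (∑ i, v i) / Real.sqrt l
        - (Z * X).trace.re + (Z * V).trace.re) := by
      simp only [hh, layerPair, Matrix.mul_sub, Matrix.trace_sub, Complex.sub_re, hVtr, hx, ← hZdef]
      ring
    have eg : g0 l = w l * (q * (2 * ∑ i, Real.sqrt (v i / q + l)) - 2 * q * N * Real.sqrt l
        - (∑ i, v i) / Real.sqrt l) := by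
      simp only [hg0, sLayer, mul_sub, Finset.sum_sub_distrib, Finset.mul_sum, Finset.sum_div,
        Finset.sum_const, Finset.card_univ, Fintype.card_fin, nsmul_eq_mul]
      refine congrArg₂ (· - ·) (congrArg₂ (· - ·) (Finset.sum_congr rfl fun i _ => by ring) ?_)
        (Finset.sum_congr rfl fun i _ => ?_)
      · ring
      · field_simp
    have hB' := mul_le_mul_of_nonneg_left hB hq.le
    rw [mul_add, ← mul_assoc q q⁻¹, mul_inv_cancel₀ hq.ne', one_mul] at hB'
    rw [eh, eg]
    simp only [hφ']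
    rw [show w l * (q * (2 * ∑ i, Real.sqrt (v i / q + l)) - 2 * q * N * Real.sqrt l
        - (∑ i, v i) / Real.sqrt l) - 2 * (q - 1) * (w l * ((ν + 1 / 2) * (layerSig P F l
        - N * Real.sqrt l - x / (2 * Real.sqrt l)) + l * (Z.trace.re / 2 - N / (2 * Real.sqrt l)
        + x / (4 * l * Real.sqrt l)))) = w l * (q * (2 * ∑ i, Real.sqrt (v i / q + l))
        - (∑ i, v i) / Real.sqrt l + x / Real.sqrt l - (q + 1) * layerSig P F l
        - (q - 1) * l * Z.trace.re) by
      have := Real.mul_self_sqrt hl.le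
      have hqν : q * ν = 1 + ν := by rw [hqdef]; field_simp
      field_simp
      grind]
    refine mul_le_mul_of_nonneg_left ?_ (Real.rpow_nonneg hl.le _)
    linarith
  -- integrability
  set B : ℝ := ∑ i, ∑ j, (‖P i j‖ + ‖F i j‖) with hBdef
  have hle : ∀ i j, ‖P i j‖ + ‖F i j‖ ≤ B := fun i j =>
    (Finset.single_le_sum (fun j _ => add_nonneg (norm_nonneg (P i j)) (norm_nonneg (F i j)))
      (Finset.mem_univ j)).trans (Finset.single_le_sum (fun i _ => Finset.sum_nonneg fun j _ =>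
        add_nonneg (norm_nonneg (P i j)) (norm_nonneg (F i j))) (Finset.mem_univ i))
  obtain ⟨C, hC⟩ := layerPair_bound (N := N) (B := B) hε
  have hbd := hC P F (X - V) hP hF (fun i j => by linarith [hle i j, norm_nonneg (F i j)])
    (fun i j => by linarith [hle i j, norm_nonneg (P i j)]) hm
  have hmeas : AEStronglyMeasurable h (volume.restrict (Ioi 0)) := by
    exact ((by fun_prop : Measurable w).mul (measurable_layerPair P F (X - V))).aestronglyMeasurable
  have hh_int : IntegrableOn h (Ioi 0) := integrableOn_of_layer_bound h0 h1 hmeas hbd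
  have hg0_int : IntegrableOn g0 (Ioi 0) :=
    (integrable_finsetSum _ fun i _ => integrableOn_sLayer h0 h1 (hv i)).const_mul q
  have hD : IntegrableOn (fun l => h l - g0 l) (Ioi 0) := hh_int.sub hg0_int
  -- the boundary terms
  obtain ⟨⟨C0, hC0⟩, C1, l₀, hl₀, hC1⟩ := layerSig_bounds hP hF hε hm
  obtain ⟨ht0, ht1⟩ := tendsto_layer_ends (C := |C0| + N + |x| + |C1|) h0 h1
    (f := fun l => layerSig P F l - N * Real.sqrt l - x / (2 * Real.sqrt l))
    (by
      filter_upwards [Ioc_mem_nhdsGT zero_lt_one] with l hl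
      have hs : 0 < Real.sqrt l := Real.sqrt_pos.2 hl.1
      have hs1 : Real.sqrt l ≤ 1 := Real.sqrt_le_one.2 hl.2
      have e : |x / (2 * Real.sqrt l)| ≤ |x| * (1 / Real.sqrt l) := by
        rw [abs_div, abs_of_pos (by positivity : 0 < 2 * Real.sqrt l), mul_one_div]
        exact div_le_div_of_nonneg_left (abs_nonneg x) hs (by linarith)
      have hi : 0 ≤ 1 / Real.sqrt l := by positivity
      have hN : (N : ℝ) * Real.sqrt l ≤ N := mul_le_of_le_one_right (Nat.cast_nonneg N) hs1
      have hN0 : 0 ≤ (N : ℝ) * Real.sqrt l := by positivity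
      calc |layerSig P F l - N * Real.sqrt l - x / (2 * Real.sqrt l)|
          ≤ |layerSig P F l - N * Real.sqrt l| + |x / (2 * Real.sqrt l)| := abs_sub _ _
        _ ≤ |layerSig P F l| + |(N : ℝ) * Real.sqrt l| + |x / (2 * Real.sqrt l)| := by
          gcongr; exact abs_sub _ _
        _ ≤ (|C0| + N + |x| + |C1|) * (1 + 1 / Real.sqrt l) := by
          rw [abs_of_nonneg hN0]
          nlinarith [(hC0 l hl).1, le_abs_self C0, abs_nonneg C0, abs_nonneg C1, abs_nonneg x,
            Nat.cast_nonneg (α := ℝ) N])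
    (by
      filter_upwards [eventually_ge_atTop l₀] with l hl
      have hl0 : 0 < l := hl₀.trans_le hl
      refine (hC1 l hl).trans (div_le_div_of_nonneg_right ?_ (by positivity))
      linarith [le_abs_self C1, abs_nonneg C0, abs_nonneg x, Nat.cast_nonneg (α := ℝ) N])
  have hmain : ∀ a b, 0 < a → a ≤ b →
      -2 * (q - 1) * (φ b - φ a) ≤ ∫ l in a..b, (h l - g0 l) := by
    intro a b ha hab
    have hcont : ContinuousOn (fun l => -2 * (q - 1) * φ l) (Icc a b) :=
      ContinuousOn.mul continuousOn_const fun l hl =>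
        (hd l (ha.trans_le hl.1)).continuousAt.continuousWithinAt
    rw [mul_sub]
    refine intervalIntegral.sub_le_integral_of_hasDeriv_right_of_le hab hcont
      (fun l hl => ((hd l (ha.trans hl.1)).const_mul (-2 * (q - 1))).hasDerivWithinAt)
      (hD.mono_set fun l hl => ha.trans_le hl.1) fun l hl => ?_
    linarith [hpt l (ha.trans hl.1)]
  have hnn : 0 ≤ ∫ l in Ioi (0 : ℝ), (h l - g0 l) := by
    have hlim := intervalIntegral_tendsto_integral_Ioi 0 hD tendsto_id
    refine le_of_tendsto_of_tendsto (b := atTop) ?_ hlim ((eventually_gt_atTop 0).mono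
      fun b hb => ?_) (f := fun b => -2 * (q - 1) * φ b)
    · simpa [hφ] using ht1.const_mul (-2 * (q - 1))
    · have hI : IntervalIntegrable (fun l => h l - g0 l) volume 0 b :=
        (intervalIntegrable_iff_integrableOn_Ioc_of_le hb.le).2 (hD.mono_set Ioc_subset_Ioi_self)
      have hc : ContinuousWithinAt (fun a => ∫ l in a..b, (h l - g0 l)) (Icc 0 b) 0 :=
        (intervalIntegral.continuousOn_primitive_interval_left (by
          rw [uIcc_of_le hb.le]; exact (integrableOn_Icc_iff_integrableOn_Ioc).2 (hI.1)) 0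
          (by simp [hb.le])).mono (by rw [uIcc_of_le hb.le])
      have hc' : Tendsto (fun a => ∫ l in a..b, (h l - g0 l)) (𝓝[>] 0)
          (𝓝 (∫ l in (0 : ℝ)..b, (h l - g0 l))) := by
        refine hc.tendsto.mono_left ?_
        rw [nhdsWithin_Icc_eq_nhdsGE hb]
        exact nhdsWithin_mono _ Ioi_subset_Ici_self
      have hl' : Tendsto (fun a => -2 * (q - 1) * (φ b - φ a)) (𝓝[>] 0)
          (𝓝 (-2 * (q - 1) * φ b)) := by
        simpa [hφ] using ((tendsto_const_nhds (x := φ b)).sub ht0).const_mul (-2 * (q - 1))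
      exact le_of_tendsto_of_tendsto hl' hc'
        ((eventually_gt_atTop b |> fun _ => Ioc_mem_nhdsGT hb) |> fun hs => Filter.mem_of_superset hs
          fun a ha => hmain a b ha.1 ha.2)
  rw [integral_sub hh_int hg0_int] at hnn
  have hval : ∫ l in Ioi (0 : ℝ), g0 l = -(General.lcoef ν * dissConst ν * trPowAt (1 + ν) V) := by
    simp only [hg0, hw]
    rw [integral_const_mul, integral_finsetSum _ fun i _ => integrableOn_sLayer h0 h1 (hv i)]
    simp only [integral_sLayer h0 h1 (hv _), trPowAt, dif_pos hV.1, ← hvdef]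
    rw [Finset.mul_sum, Finset.mul_sum, ← Finset.sum_neg_distrib]
    refine Finset.sum_congr rfl fun i _ => ?_
    have hvi : 0 ≤ v i := hV.eigenvalues_nonneg i
    rw [Real.div_rpow hvi hq.le, dissConst, show ν / (1 + ν) = q⁻¹ by rw [hqdef, inv_div],
      Real.inv_rpow hq.le]
    have hqp : 0 < q ^ (1 + ν) := Real.rpow_pos_of_pos hq _
    rw [hqdef] at hqp ⊢
    field_simp
  rw [hval] at hnn
  show _ ≤ ∫ l in Ioi (0 : ℝ), h l
  linarith

end Vale.Agent.P371.All
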