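import Vale.Agent.P371.All.Defs

/-!
# P371: the solvent of a positive quadratic pencil

If `P - 2sF + s²` is invertible for every real `s` there is `M` with `M + Mᴴ = 2F`, `Mᴴ M = P`,
whose generalised eigenvalues lie in the upper half plane.
-/

namespace Vale.Agent.P371.All

open Matrix Module
open scoped ComplexOrder ComplexConjugate

variable {N : ℕ}

set_option linter.unusedSectionVars false

/-- The companion matrix of the pencil. -/
noncomputable def compMat (P F : Matrix (Fin N) (Fin N) ℂ) :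
    Matrix (Fin N ⊕ Fin N) (Fin N ⊕ Fin N) ℂ :=
  fromBlocks 0 1 (-P) ((2 : ℂ) • F)

/-- The sesquilinear form for which the companion matrix is self-adjoint. -/
noncomputable def compForm (F : Matrix (Fin N) (Fin N) ℂ) (x y : Fin N ⊕ Fin N → ℂ) : ℂ :=
  star x ⬝ᵥ fromBlocks (-((2 : ℂ) • F)) 1 1 0 *ᵥ y

theorem compForm_comp {P F : Matrix (Fin N) (Fin N) ℂ} (hP : P.IsHermitian) (hF : F.IsHermitian)
    (x y : Fin N ⊕ Fin N → ℂ) :
    compForm F (compMat P F *ᵥ x) y = compForm F x (compMat P F *ᵥ y) := by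
  have e : (compMat P F)ᴴ * fromBlocks (-((2 : ℂ) • F)) 1 1 0 =
      fromBlocks (-((2 : ℂ) • F)) 1 1 0 * compMat P F := by
    simp [compMat, fromBlocks_conjTranspose, fromBlocks_multiply, hP.eq, hF.eq]
  rw [compForm, compForm, star_mulVec, ← dotProduct_mulVec, mulVec_mulVec, e, mulVec_mulVec]

/-- The span of the generalised eigenspaces with eigenvalue in a given half plane. -/
noncomputable def halfSpan (f : Module.End ℂ (Fin N ⊕ Fin N → ℂ)) (σ : ℝ) :
    Submodule ℂ (Fin N ⊕ Fin N → ℂ) :=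
  ⨆ μ : ℂ, ⨆ _ : 0 < σ * μ.im, f.maxGenEigenspace μ

theorem halfSpan_induction {f : Module.End ℂ (Fin N ⊕ Fin N → ℂ)} {σ : ℝ}
    {motive : (Fin N ⊕ Fin N → ℂ) → Prop} {x : Fin N ⊕ Fin N → ℂ} (hx : x ∈ halfSpan f σ)
    (mem : ∀ μ : ℂ, 0 < σ * μ.im → ∀ y ∈ f.maxGenEigenspace μ, motive y) (zero : motive 0)
    (add : ∀ y z, motive y → motive z → motive (y + z)) : motive x := by
  refine Submodule.iSup_induction _ (motive := motive) hx (fun μ y hy => ?_) zero add
  exact Submodule.iSup_induction _ (motive := motive) hy (fun h z hz => mem μ h z hz) zero add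

theorem mem_halfSpan {f : Module.End ℂ (Fin N ⊕ Fin N → ℂ)} {σ : ℝ} {μ : ℂ} (h : 0 < σ * μ.im)
    {y : Fin N ⊕ Fin N → ℂ} (hy : y ∈ f.maxGenEigenspace μ) : y ∈ halfSpan f σ :=
  Submodule.mem_iSup_of_mem μ (Submodule.mem_iSup_of_mem h hy)

theorem halfSpan_invariant {f : Module.End ℂ (Fin N ⊕ Fin N → ℂ)} {σ : ℝ}
    {x : Fin N ⊕ Fin N → ℂ} (hx : x ∈ halfSpan f σ) : f x ∈ halfSpan f σ := by
  refine halfSpan_induction (motive := fun z => f z ∈ halfSpan f σ) hx (fun μ h y hy => ?_)
    (by simp) (fun y z hy hz => by rw [map_add]; exact add_mem hy hz)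
  refine mem_halfSpan h ?_
  obtain ⟨k, hk⟩ := (Module.End.mem_maxGenEigenspace f μ y).1 hy
  refine (Module.End.mem_maxGenEigenspace f μ _).2 ⟨k, ?_⟩
  have hc : Commute ((f - μ • 1) ^ k) f :=
    ((Commute.refl f).sub_left ((Commute.one_left f).smul_left μ)).pow_left k
  rw [← Module.End.mul_apply, hc.eq, Module.End.mul_apply, hk, map_zero]

theorem compForm_gen {P F : Matrix (Fin N) (Fin N) ℂ} (hP : P.IsHermitian) (hF : F.IsHermitian)
    {μ ν : ℂ} (hne : conj μ ≠ ν) (k : ℕ) :
    ∀ (l : ℕ) (x y : Fin N ⊕ Fin N → ℂ), ((Matrix.toLin' (compMat P F) - μ • 1) ^ k) x = 0 →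
      ((Matrix.toLin' (compMat P F) - ν • 1) ^ l) y = 0 → compForm F x y = 0 := by
  induction k with
  | zero =>
    intro l x y hx _
    simp only [pow_zero, Module.End.one_apply] at hx
    simp [compForm, hx]
  | succ k ihk =>
    intro l
    induction l with
    | zero =>
      intro x y _ hy
      simp only [pow_zero, Module.End.one_apply] at hy
      simp [compForm, hy]
    | succ l ihl =>
      intro x y hx hy
      have hx' := hx
      have hy' := hy
      rw [pow_succ, Module.End.mul_apply] at hx' hy'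
      have h1 := ihk (l + 1) _ y hx' hy
      have h2 := ihl x _ hx hy'
      have hc := compForm_comp hP hF x y
      simp only [LinearMap.sub_apply, LinearMap.smul_apply, Module.End.one_apply,
        Matrix.toLin'_apply, compForm, star_sub, star_smul, sub_dotProduct, smul_dotProduct,
        mulVec_sub, mulVec_smul, dotProduct_sub, dotProduct_smul, smul_eq_mul,
        Complex.star_def] at h1 h2 hc ⊢
      have : (conj μ - ν) * (star x ⬝ᵥ fromBlocks (-((2 : ℂ) • F)) 1 1 0 *ᵥ y) = 0 := by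
        linear_combination hc - h1 + h2
      exact (mul_eq_zero.1 this).resolve_left (sub_ne_zero.2 hne)

theorem halfSpan_neutral {P F : Matrix (Fin N) (Fin N) ℂ} (hP : P.IsHermitian)
    (hF : F.IsHermitian) {σ : ℝ} {x y : Fin N ⊕ Fin N → ℂ}
    (hx : x ∈ halfSpan (Matrix.toLin' (compMat P F)) σ)
    (hy : y ∈ halfSpan (Matrix.toLin' (compMat P F)) σ) : compForm F x y = 0 := by
  refine halfSpan_induction (motive := fun z => compForm F z y = 0) hx (fun μ h u hu => ?_)
    (by simp [compForm]) (fun u v hu hv => ?_)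
  · refine halfSpan_induction (motive := fun z => compForm F u z = 0) hy (fun ν h' v hv => ?_)
      (by simp [compForm]) (fun v w hv hw => ?_)
    · obtain ⟨k, hk⟩ := (Module.End.mem_maxGenEigenspace _ μ u).1 hu
      obtain ⟨l, hl⟩ := (Module.End.mem_maxGenEigenspace _ ν v).1 hv
      refine compForm_gen hP hF (fun e => ?_) k l u v hk hl
      rw [← e, Complex.conj_im] at h'
      linarith
    · simp only [compForm, mulVec_add, dotProduct_add] at hv hw ⊢
      rw [hv, hw, add_zero]
  · simp only [compForm, star_add, add_dotProduct] at hu hv ⊢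
    rw [hu, hv, add_zero]

/-- **The solvent.** -/
theorem exists_solvent {P F : Matrix (Fin N) (Fin N) ℂ} (hP : P.IsHermitian) (hF : F.IsHermitian)
    (hinv : ∀ (s : ℝ) (a : Fin N → ℂ), General.pencil P F s 0 *ᵥ a = 0 → a = 0) :
    ∃ M : Matrix (Fin N) (Fin N) ℂ, M + Mᴴ = (2 : ℂ) • F ∧ Mᴴ * M = P ∧
      ∀ a : Fin N → ℂ, a ∈ ⨆ μ : ℂ, ⨆ _ : 0 < μ.im,
        Module.End.maxGenEigenspace (Matrix.toLin' M : Module.End ℂ (Fin N → ℂ)) μ := by
  set f : Module.End ℂ (Fin N ⊕ Fin N → ℂ) := Matrix.toLin' (compMat P F) with hf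
  have hC : ∀ a b : Fin N → ℂ, f (Sum.elim a b) =
      Sum.elim b (-(P *ᵥ a) + (2 : ℂ) • (F *ᵥ b)) := fun a b => by
    rw [hf, Matrix.toLin'_apply, compMat, fromBlocks_mulVec]
    simp [neg_mulVec, smul_mulVec]
  have hreal : ∀ μ : ℂ, μ.im = 0 → f.maxGenEigenspace μ = ⊥ := by
    intro μ hμ
    refine (Submodule.eq_bot_iff _).2 fun x hx => ?_
    obtain ⟨k, hk⟩ := (Module.End.mem_maxGenEigenspace f μ x).1 hx
    clear hx
    induction k generalizing x with
    | zero => simpa using hk
    | succ k ih =>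
      rw [pow_succ, Module.End.mul_apply] at hk
      have h0 := ih _ hk
      obtain ⟨a, b, rfl⟩ : ∃ a b, x = Sum.elim a b :=
        ⟨_, _, (Sum.elim_comp_inl_inr x).symm⟩
      rw [LinearMap.sub_apply, LinearMap.smul_apply, Module.End.one_apply, hC, sub_eq_zero] at h0
      have e1 : b = μ • a := funext fun i => by simpa using congrFun h0 (Sum.inl i)
      have e2 : -(P *ᵥ a) + (2 : ℂ) • (F *ᵥ b) = μ • b := funext fun i => by
        simpa using congrFun h0 (Sum.inr i)
      have hr : μ = (μ.re : ℂ) := Complex.ext rfl hμ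
      have ha : a = 0 := hinv μ.re a (by
        rw [e1, mulVec_smul, hr] at e2
        ext i
        have := congrFun e2 i
        simp only [General.pencil, add_mulVec, sub_mulVec, smul_mulVec, one_mulVec, Pi.add_apply,
          Pi.sub_apply, Pi.smul_apply, Pi.neg_apply, Pi.zero_apply, smul_eq_mul] at this ⊢
        push_cast
        linear_combination -this)
      rw [e1, ha, smul_zero]
      exact Sum.elim_comp_inl_inr (0 : Fin N ⊕ Fin N → ℂ)
  have htop : halfSpan f 1 ⊔ halfSpan f (-1) = ⊤ := by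
    rw [eq_top_iff, ← Module.End.iSup_maxGenEigenspace_eq_top f]
    refine iSup_le fun μ => ?_
    rcases lt_trichotomy μ.im 0 with h | h | h
    · exact le_sup_of_le_right fun y hy => mem_halfSpan (by linarith) hy
    · rw [hreal μ h]; exact bot_le
    · exact le_sup_of_le_left fun y hy => mem_halfSpan (by linarith) hy
  set π₁ : (Fin N ⊕ Fin N → ℂ) →ₗ[ℂ] (Fin N → ℂ) := LinearMap.funLeft ℂ ℂ Sum.inl with hπ₁
  have hinj : ∀ σ, Function.Injective (π₁.comp (halfSpan f σ).subtype) := by
    intro σ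
    refine LinearMap.ker_eq_bot.1 (LinearMap.ker_eq_bot'.2 fun ⟨x, hx⟩ h0 => Subtype.ext ?_)
    obtain ⟨a, b, rfl⟩ : ∃ a b, x = Sum.elim a b := ⟨_, _, (Sum.elim_comp_inl_inr x).symm⟩
    have ha : a = 0 := h0
    have h := halfSpan_neutral hP hF hx (halfSpan_invariant hx)
    rw [hC, ha] at h
    simp only [compForm, fromBlocks_mulVec, Sum.elim_comp_inl, Sum.elim_comp_inr, dotProduct,
      Fintype.sum_sum_type, Pi.star_apply, Sum.elim_inl, Sum.elim_inr, Pi.zero_apply, star_zero,
      zero_mul, Finset.sum_const_zero, zero_add, Matrix.zero_mulVec, add_zero,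
      Matrix.one_mulVec] at h
    have hb : b = 0 := by
      refine funext fun i => Complex.normSq_eq_zero.1 ?_
      have h2 : ∑ j, Complex.normSq (b j) = 0 := by
        have h3 := congrArg Complex.re h
        simpa [Complex.re_sum, Complex.normSq_apply] using h3
      exact (Finset.sum_eq_zero_iff_of_nonneg fun j _ => Complex.normSq_nonneg _).1 h2 i
        (Finset.mem_univ i)
    show Sum.elim a b = 0
    rw [ha, hb]
    exact Sum.elim_comp_inl_inr (0 : Fin N ⊕ Fin N → ℂ)
  have hdim : finrank ℂ (halfSpan f 1) = finrank ℂ (Fin N → ℂ) := by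
    have h1 := LinearMap.finrank_le_finrank_of_injective (hinj 1)
    have h2 := LinearMap.finrank_le_finrank_of_injective (hinj (-1))
    have h3 := Submodule.finrank_add_le_finrank_add_finrank (halfSpan f 1) (halfSpan f (-1))
    rw [htop, finrank_top, Module.finrank_fintype_fun_eq_card] at h3
    rw [Module.finrank_fintype_fun_eq_card] at h1 h2 ⊢
    simp only [Fintype.card_sum, Fintype.card_fin] at h1 h2 h3 ⊢
    omega
  set e := LinearEquiv.ofBijective (π₁.comp (halfSpan f 1).subtype)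
    ⟨hinj 1, (LinearMap.injective_iff_surjective_of_finrank_eq_finrank hdim).1 (hinj 1)⟩ with he
  set g : (Fin N → ℂ) →ₗ[ℂ] (Fin N → ℂ) :=
    ((LinearMap.funLeft ℂ ℂ Sum.inr).comp (halfSpan f 1).subtype).comp e.symm.toLinearMap with hg
  set M := LinearMap.toMatrix' g with hM
  have hgraph : ∀ a, Sum.elim a (M *ᵥ a) ∈ halfSpan f 1 := by
    intro a
    have h1 : ((e.symm a : halfSpan f 1) : Fin N ⊕ Fin N → ℂ) = Sum.elim a (M *ᵥ a) := by
      funext i
      rcases i with i | i
      · exact congrFun (e.apply_symm_apply a) i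
      · simp only [Sum.elim_inr, hM, LinearMap.toMatrix'_mulVec]
        rfl
    rw [← h1]
    exact (e.symm a).2
  have huniq : ∀ x ∈ halfSpan f 1, M *ᵥ (x ∘ Sum.inl) = x ∘ Sum.inr := by
    intro x hx
    have h1 : (⟨_, hgraph (x ∘ Sum.inl)⟩ : halfSpan f 1) = ⟨x, hx⟩ := hinj 1 rfl
    exact congrArg (fun z : halfSpan f 1 => (z : Fin N ⊕ Fin N → ℂ) ∘ Sum.inr) h1
  have hsum : M + Mᴴ = (2 : ℂ) • F := by
    have hform : ∀ a b : Fin N → ℂ, star a ⬝ᵥ (M + Mᴴ - (2 : ℂ) • F) *ᵥ b = 0 := by
      intro a b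
      have h := halfSpan_neutral hP hF (hgraph a) (hgraph b)
      simp only [compForm, fromBlocks_mulVec, Sum.elim_comp_inl, Sum.elim_comp_inr, dotProduct,
        Fintype.sum_sum_type, Pi.star_apply, Sum.elim_inl, Sum.elim_inr, Matrix.zero_mulVec,
        add_zero, Matrix.one_mulVec] at h
      rw [sub_mulVec, add_mulVec, dotProduct_sub, dotProduct_add, dotProduct_mulVec (star a) Mᴴ,
        ← star_mulVec]
      simp only [dotProduct, Pi.star_apply, Pi.add_apply, neg_mulVec, Pi.neg_apply] at h ⊢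
      simp only [mul_add, Finset.sum_add_distrib, mul_neg, Finset.sum_neg_distrib] at h
      linear_combination h
    rw [← sub_eq_zero]
    ext i j
    have := hform (Pi.single i 1) (Pi.single j 1)
    simpa [← Pi.single_star, single_dotProduct] using this
  have hsq : M * M = (2 : ℂ) • (F * M) - P := by
    refine Matrix.toLin'.injective (LinearMap.ext fun a => ?_)
    rw [Matrix.toLin'_apply, Matrix.toLin'_apply]
    have h := huniq _ (halfSpan_invariant (hgraph a))
    rw [hC, Sum.elim_comp_inl, Sum.elim_comp_inr] at h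
    rw [← mulVec_mulVec, h, sub_mulVec, smul_mulVec, ← mulVec_mulVec]
    abel
  refine ⟨M, hsum, ?_, fun a => ?_⟩
  · rw [show Mᴴ = (2 : ℂ) • F - M from eq_sub_of_add_eq' hsum, Matrix.sub_mul, hsq,
      Matrix.smul_mul]
    abel
  · have key : ∀ (k : ℕ) (μ : ℂ), ∀ x ∈ halfSpan f 1, ((f - μ • 1) ^ k) x ∈ halfSpan f 1 ∧
        (((Matrix.toLin' M : Module.End ℂ (Fin N → ℂ)) - μ • 1) ^ k) (x ∘ Sum.inl) = (((f - μ • 1) ^ k) x) ∘ Sum.inl := by
      intro k μ x hx
      induction k with
      | zero => exact ⟨hx, rfl⟩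
      | succ k ih =>
        obtain ⟨ih1, ih2⟩ := ih
        rw [pow_succ', pow_succ', Module.End.mul_apply, Module.End.mul_apply, ih2]
        set y := ((f - μ • 1) ^ k) x
        refine ⟨sub_mem (halfSpan_invariant ih1) (Submodule.smul_mem _ μ ih1), ?_⟩
        obtain ⟨c, d, hy⟩ : ∃ c d, y = Sum.elim c d := ⟨_, _, (Sum.elim_comp_inl_inr y).symm⟩
        have hu := huniq y ih1
        rw [hy, Sum.elim_comp_inl, Sum.elim_comp_inr] at hu
        rw [hy, LinearMap.sub_apply, LinearMap.smul_apply, LinearMap.sub_apply,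
          LinearMap.smul_apply, hC]
        funext i
        simp [Matrix.toLin'_apply, hu]
    have goal : ∀ x ∈ halfSpan f 1, x ∘ Sum.inl ∈
        ⨆ μ : ℂ, ⨆ _ : 0 < μ.im,
        Module.End.maxGenEigenspace (Matrix.toLin' M : Module.End ℂ (Fin N → ℂ)) μ := by
      intro x hx
      refine halfSpan_induction (motive := fun z => z ∘ Sum.inl ∈
        ⨆ μ : ℂ, ⨆ _ : 0 < μ.im,
        Module.End.maxGenEigenspace (Matrix.toLin' M : Module.End ℂ (Fin N → ℂ)) μ) hx (fun μ h y hy => ?_)
        (zero_mem _) (fun y z hy hz => add_mem hy hz)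
      obtain ⟨k, hk⟩ := (Module.End.mem_maxGenEigenspace f μ y).1 hy
      refine Submodule.mem_iSup_of_mem μ (Submodule.mem_iSup_of_mem (by linarith) ?_)
      refine (Module.End.mem_maxGenEigenspace _ μ _).2 ⟨k, ?_⟩
      rw [(key k μ y (mem_halfSpan h hy)).2, hk]
      rfl
    simpa using goal _ (hgraph a)

end Vale.Agent.P371.All
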